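import Crest.Agent.N337.R.Defs
import Crest.Agent.N337.A.Bas
import Crest.Agent.N337.Top.BAlg

-- ▼ part N337/R/Bas
section

/-!
# Row 337, RARE: elementary properties of the weights of (coins, red set) (helper64)
-/

set_option autoImplicit false
set_option linter.unusedSectionVars false

namespace Crest.Agent.N337.RR

open Finset Equiv Matrix Crest.Agent.N337.Rep

namespace BasAux

variable {Λ : Type} [Fintype Λ] [DecidableEq Λ] {T : ℕ} [NeZero T] (ex ey : Fin T → Λ)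
  {p : Fin T → ℝ} {b : Fin T × Λ → ℝ}

lemma mem_red {ω : Rep.Env T Λ} {v : Fin T × Λ} : v ∈ red ω ↔ ω v ≠ none := by simp [red]

lemma cmp {ξ : Fin T → Bool} {ω : Rep.Env T Λ} (h : Pw p ξ ≠ 0)
    (hω : ∀ v, ω (Sg ex ey ξ v) = ω v) : Cmp ex ey p ξ (red ω) :=
  ⟨h, fun v => by rw [mem_red, mem_red, hω]⟩

lemma zr_bt (y : ℝ) (ω : Rep.Env T Λ) : zr (Top.bt y) ω = y ^ n0 (red ω) := by
  rw [n0, ← A.Bs.prod_time0 (fun v => v ∈ red ω) y, zr]
  refine prod_congr rfl fun v _ => ?_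
  by_cases h : ω v = none <;> simp [h, mem_red, Top.bt]

lemma n0_pos {ξ : Fin T → Bool} {ω : Rep.Env T Λ} (hω : ∀ v, ω (Sg ex ey ξ v) = ω v)
    (h : (red ω).Nonempty) : 0 < n0 (red ω) := by
  obtain ⟨v, hv⟩ := h
  obtain ⟨x, hx⟩ := exists_time ex ey ξ (o (Sg ex ey ξ) v) 0
  exact card_pos.2 ⟨x, mem_filter.2 ⟨mem_univ _, by
    rwa [mem_red, A.Bs.inv_eq hω hx, ← mem_red]⟩⟩

lemma bt_mem {y : ℝ} (h0 : 0 ≤ y) (h1 : y ≤ 1) (v : Fin T × Λ) :
    0 ≤ Top.bt y v ∧ Top.bt y v ≤ 1 := by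
  unfold Top.bt; split_ifs; exacts [⟨h0, h1⟩, ⟨zero_le_one, le_rfl⟩]

lemma bt_mono {y y' : ℝ} (h : y' ≤ y) (v : Fin T × Λ) : Top.bt y' v ≤ Top.bt y v := by
  unfold Top.bt; split_ifs; exacts [h, le_rfl]

lemma cont_bt (v : Fin T × Λ) : Continuous fun y => Top.bt y v := by
  unfold Top.bt; split_ifs; exacts [continuous_id, continuous_const]

lemma tw_nonneg (hb : ∀ v, 0 ≤ b v ∧ b v ≤ 1) (ξ : Fin T → Bool) (ω : Rep.Env T Λ) :
    0 ≤ zr b ω * (gm (Sg ex ey ξ) b ω).det :=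
  mul_nonneg (zr_nonneg (fun v => (hb v).1) ω) (det_gm_nonneg (fun v => (hb v).1) (fun v => (hb v).2) _ ω)

lemma cont_WR (E : (Fin T → Bool) → Finset (Fin T × Λ) → Prop) :
    Continuous fun y => WR ex ey p (Top.bt y) E := by
  refine continuous_finsetSum _ fun ξ _ => continuous_const.mul
    (continuous_finsetSum _ fun ω _ => ?_)
  split_ifs
  · simp only [zr_bt, det_gm]
    refine (continuous_pow _).mul (continuous_finsetProd _ fun g _ => continuous_const.sub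
      (continuous_finsetProd _ fun v _ => ?_))
    unfold zg
    split_ifs
    exacts [cont_bt v, continuous_const]
  · exact continuous_const

lemma sum_tw (b : Fin T × Λ → ℝ) (ξ : Fin T → Bool) : ∑ ω : Rep.Env T Λ,
    (if ∀ v, ω (Sg ex ey ξ v) = ω v then zr b ω * (gm (Sg ex ey ξ) b ω).det else 0) =
      A.lw ex ey b ξ := by
  rw [sum0_eq, sumD_eq, A.lw]

lemma WR_coin (Q : (Fin T → Bool) → Prop) [DecidablePred Q] :
    WR ex ey p b (fun ξ _ => Q ξ) = ∑ ξ, Pw p ξ * A.lw ex ey b ξ * if Q ξ then 1 else 0 := by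
  refine sum_congr rfl fun ξ _ => ?_
  rw [mul_assoc, ← sum_tw]
  by_cases h : Q ξ <;> simp [h]

lemma WR_true : WR ex ey p b (fun _ _ => True) = DL.Zt ex ey p b := by
  rw [WR_coin ex ey fun _ => True]
  simp [DL.Zt, A.lw]

lemma WR_nonneg (hp : ∀ s, 0 ≤ p s ∧ p s ≤ 1) (hb : ∀ v, 0 ≤ b v ∧ b v ≤ 1)
    (E : (Fin T → Bool) → Finset (Fin T × Λ) → Prop) : 0 ≤ WR ex ey p b E :=
  sum_nonneg fun ξ _ => mul_nonneg (Pw_nonneg hp ξ) (sum_nonneg fun ω _ => by
    split_ifs; exacts [tw_nonneg ex ey hb ξ ω, le_rfl])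

lemma WR_union (hp : ∀ s, 0 ≤ p s ∧ p s ≤ 1) (hb : ∀ v, 0 ≤ b v ∧ b v ≤ 1) {ι : Type}
    (I : Finset ι) (E : (Fin T → Bool) → Finset (Fin T × Λ) → Prop)
    (E' : ι → (Fin T → Bool) → Finset (Fin T × Λ) → Prop)
    (h : ∀ ξ R, Cmp ex ey p ξ R → E ξ R → ∃ i ∈ I, E' i ξ R) :
    WR ex ey p b E ≤ ∑ i ∈ I, WR ex ey p b (E' i) := by
  unfold WR
  rw [sum_comm]
  refine sum_le_sum fun ξ _ => ?_
  rw [← mul_sum, sum_comm]
  by_cases h0 : Pw p ξ = 0
  · simp [h0]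
  refine mul_le_mul_of_nonneg_left (sum_le_sum fun ω _ => ?_) (Pw_nonneg hp ξ)
  have hn := tw_nonneg ex ey hb ξ ω
  split_ifs with h1
  · obtain ⟨i, hi, h2⟩ := h ξ _ (cmp ex ey h0 h1.1) h1.2
    refine le_trans (le_of_eq ?_) (single_le_sum (fun i hi => ?_) hi)
    · rw [if_pos ⟨h1.1, h2⟩]
    · split_ifs; exacts [hn, le_rfl]
  · refine sum_nonneg fun i _ => ?_
    split_ifs; exacts [hn, le_rfl]

lemma WR_zero (E : (Fin T → Bool) → Finset (Fin T × Λ) → Prop)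
    (h : ∀ ξ R, Cmp ex ey p ξ R → E ξ R → R.Nonempty) : WR ex ey p (Top.bt 0) E = 0 := by
  refine sum_eq_zero fun ξ _ => ?_
  by_cases h0 : Pw p ξ = 0
  · rw [h0, zero_mul]
  rw [sum_eq_zero, mul_zero]
  intro ω _
  split_ifs with h1
  · rw [zr_bt, zero_pow (n0_pos ex ey h1.1 (h ξ _ (cmp ex ey h0 h1.1) h1.2)).ne', zero_mul]
  · rfl

lemma pr_mono {S : Type} [Fintype S] [DecidableEq S] {π : Perm S} {a a' : S → ℝ}
    (h0 : ∀ v, 0 ≤ a v) (h : ∀ v, a v ≤ a' v) (g : Orb π) : pr π a g ≤ pr π a' g :=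
  prod_le_prod (fun v _ => h0 v) fun v _ => h v

lemma Zt_mono (hp : ∀ s, 0 ≤ p s ∧ p s ≤ 1) {b' : Fin T × Λ → ℝ} (h0 : ∀ v, 0 ≤ b v)
    (h : ∀ v, b v ≤ b' v) : DL.Zt ex ey p b ≤ DL.Zt ex ey p b' :=
  sum_le_sum fun ξ _ => mul_le_mul_of_nonneg_left (prod_le_prod
    (fun g _ => add_nonneg zero_le_one (pr_nonneg h0 g))
    fun g _ => add_le_add le_rfl (pr_mono h0 h g)) (Pw_nonneg hp ξ)

lemma det_anti {b' : Fin T × Λ → ℝ} (h0 : ∀ v, 0 ≤ b v) (h : ∀ v, b v ≤ b' v)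
    (hb : ∀ v, 0 ≤ b' v ∧ b' v ≤ 1) (ξ : Fin T → Bool) (ω : Rep.Env T Λ) :
    (gm (Sg ex ey ξ) b' ω).det ≤ (gm (Sg ex ey ξ) b ω).det := by
  rw [det_gm, det_gm]
  refine prod_le_prod (fun g _ => sub_nonneg.2 (pr_le_one (fun v => (DL.zg_mem hb ω v).1)
    (fun v => (DL.zg_mem hb ω v).2) g)) fun g _ => sub_le_sub_left (pr_mono (fun v => ?_)
      (fun v => ?_) g) 1
  · unfold zg; split_ifs; exacts [h0 v, le_rfl]
  · unfold zg; split_ifs; exacts [h v, le_rfl]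

lemma WR_tilt (hp : ∀ s, 0 ≤ p s ∧ p s ≤ 1) {y y' : ℝ} (h0 : 0 < y') (h : y' ≤ y) (h1 : y ≤ 1)
    (N : ℕ) (E : (Fin T → Bool) → Finset (Fin T × Λ) → Prop) :
    WR ex ey p (Top.bt y) (fun ξ R => E ξ R ∧ n0 R ≤ N) ≤
      (y / y') ^ N * WR ex ey p (Top.bt y') E := by
  have hq : 1 ≤ y / y' := (one_le_div h0).2 h
  have hb := bt_mem (T := T) (Λ := Λ) (h0.le.trans h) h1
  have hb' := bt_mem (T := T) (Λ := Λ) h0.le (h.trans h1)
  unfold WR
  rw [mul_sum]
  refine sum_le_sum fun ξ _ => ?_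
  rw [mul_left_comm, mul_sum (a := (y / y') ^ N)]
  refine mul_le_mul_of_nonneg_left (sum_le_sum fun ω _ => ?_) (Pw_nonneg hp ξ)
  split_ifs with h2 h3
  · rw [zr_bt, zr_bt, ← mul_assoc]
    refine mul_le_mul ?_ (det_anti ex ey (fun v => (hb' v).1) (bt_mono h) hb ξ ω)
      (det_gm_nonneg (fun v => (hb v).1) (fun v => (hb v).2) _ ω) (by positivity)
    calc y ^ n0 (red ω) = (y / y') ^ n0 (red ω) * y' ^ n0 (red ω) := by
          rw [← mul_pow, div_mul_cancel₀ _ h0.ne']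
      _ ≤ _ := mul_le_mul_of_nonneg_right (pow_le_pow_right₀ hq h2.2.2) (by positivity)
  · exact absurd ⟨h2.1, h2.2.1⟩ h3
  · exact mul_nonneg (by positivity) (tw_nonneg ex ey hb' ξ ω)
  · rw [mul_zero]

lemma WR_sub (hp : ∀ s, 0 ≤ p s ∧ p s ≤ 1) (X : Finset (Fin T × Λ)) :
    WR ex ey p b (fun _ R => X ⊆ R) =
      ∑ ω, DL.nv ex ey p b ω * (if ∀ v ∈ X, ω v ≠ none then 1 else 0) := by
  simp only [WR, DL.nv_eq ex ey hp, sum_mul, mul_sum]
  rw [sum_comm]
  refine sum_congr rfl fun ω _ => sum_congr rfl fun ξ _ => ?_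
  have e : X ⊆ red ω ↔ ∀ v ∈ X, ω v ≠ none := by simp only [subset_iff, mem_red]
  by_cases h1 : ∀ v, ω (Sg ex ey ξ v) = ω v
  · by_cases h2 : ∀ v ∈ X, ω v ≠ none
    · rw [if_pos ⟨h1, e.2 h2⟩, if_pos h1, if_pos h2, mul_one]
    · rw [if_neg fun h => h2 (e.1 h.2), if_neg h2, mul_zero, mul_zero]
  · rw [if_neg fun h => h1 h.1, if_neg h1, mul_zero, zero_mul]

lemma E1_eq (s t : Fin T × Λ → ℝ) :
    DL.E1 ex ey p b s t = ∑ v, t v * ∑ u, s u * AG ex ey p b v u := by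
  simp only [DL.E1, AG, dotProduct, mulVec, mul_sum]
  rw [sum_comm]
  refine sum_congr rfl fun v _ => ?_
  rw [sum_comm]
  refine sum_congr rfl fun u _ => sum_congr rfl fun ω _ => ?_
  unfold DL.gr
  by_cases h1 : ω v = none <;> by_cases h2 : ω u = none <;> simp [h1, h2]
  ring

lemma WR_red (hp : ∀ s, 0 ≤ p s ∧ p s ≤ 1) (hb : ∀ v, 0 ≤ b v ∧ b v ≤ 1) (hb0 : ∀ x, b (0, x) < 1)
    (X : Finset (Fin T × Λ)) (r : Fin T × Λ → ℝ) (hr : ∀ v ∈ X, 0 < r v)
    (h : ∀ v ∈ X, ∑ u ∈ X, AG ex ey p b v u ≤ r v * DL.Zt ex ey p b) :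
    WR ex ey p b (fun _ R => X ⊆ R) ≤ (∏ v ∈ X, 2 * Real.exp 1 * r v) * DL.Zt ex ey p b := by
  have hZ := DL.Zt_pos ex ey hp fun v => (hb v).1
  have h1 := DL.red_bound ex ey hp hb hb0 (s := fun v => if v ∈ X then 1 else 0)
    (t := fun v => if v ∈ X then (r v)⁻¹ else 0) (fun v => by split_ifs <;> norm_num)
    (fun v => by split_ifs with hv; exacts [(inv_pos.2 (hr v hv)).le, le_rfl]) X
  have h2 : DL.E1 ex ey p b (fun v => if v ∈ X then 1 else 0)
      (fun v => if v ∈ X then (r v)⁻¹ else 0) / DL.Zt ex ey p b ≤ X.card * 1 := by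
    rw [div_le_iff₀ hZ, E1_eq, mul_one, ← nsmul_eq_mul, ← sum_const]
    simp only [ite_mul, one_mul, zero_mul, sum_ite_mem, univ_inter]
    exact sum_le_sum fun v hv => (inv_mul_le_iff₀ (hr v hv)).2 (h v hv)
  rw [← WR_sub ex ey hp, prod_congr rfl (g := fun v => (r v)⁻¹) fun v hv => by simp [hv],
    prod_inv_distrib, inv_mul_le_iff₀ (prod_pos hr)] at h1
  refine h1.trans ?_
  rw [prod_mul_distrib, prod_const, mul_pow, ← Real.exp_nat_mul]
  have h3 := prod_pos hr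
  calc _ ≤ (∏ v ∈ X, r v) * (2 ^ X.card * (DL.Zt ex ey p b * Real.exp (X.card * 1))) := by
        gcongr
    _ = _ := by ring

end BasAux

open BasAux

theorem bas : BasStmt := by
  intro Λ _ _ T _ ex ey p hp W Z
  have hp' : ∀ s, 0 ≤ p s ∧ p s ≤ 1 := fun s => ⟨(hp s).1, by linarith [(hp s).2]⟩
  refine ⟨cont_WR ex ey, ?_, WR_zero ex ey, fun y h0 h1 => ?_⟩
  · simpa only [WR_true] using cont_WR ex ey (p := p) fun _ _ => True
  have hb := bt_mem (T := T) (Λ := Λ) h0 h1.le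
  have hM : A.Mdl.Ok ⟨p, Top.bt (Λ := Λ) y⟩ y := ⟨hp', hb, fun x => by simp [Top.bt]⟩
  refine ⟨?_, WR_true ex ey, WR_nonneg ex ey hp' hb, fun ι => WR_union ex ey hp' hb, fun S => ?_,
    fun y' h2 h3 => ⟨Zt_mono ex ey hp' (fun v => (bt_mem h2.le (h3.trans h1.le) v).1) (bt_mono h3),
      WR_tilt ex ey hp' h2 h3 h1.le⟩, WR_red ex ey hp' hb fun x => by simpa [Top.bt] using h1⟩
  · rw [← sum_Pw p]
    exact sum_le_sum fun ξ _ =>
      le_mul_of_one_le_right (Pw_nonneg hp' ξ) (A.Bs.one_le_lw ex ey (fun v => (hb v).1) ξ)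
  · exact (WR_coin ex ey _).trans_le (A.Bs.sum_coins ex ey hM S fun s _ => (hp s).2)

end Crest.Agent.N337.RR
end

-- ▼ part N337/R/Ann

/-!
# Row 337, RARE: the annealed Green function (`AnnStmt`)
-/

set_option autoImplicit false
set_option linter.unusedSectionVars false

namespace Crest.Agent.N337.RR

open Finset Equiv Function Matrix Crest.Agent.N337.Rep Crest.Agent.N337.LY0

namespace Ann

section gen
variable {S : Type} [Fintype S] [DecidableEq S]

/-- a column-substochastic matrix without eigenvalue one is transient. -/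
lemma tr_of_det {P : Matrix S S ℝ} (h0 : ∀ i j, 0 ≤ P i j) (hc : ∀ j, ∑ i, P i j ≤ 1)
    (hd : (1 - P).det ≠ 0) : ZM.Tr P := by
  refine ⟨h0, fun h hh hle => ?_⟩
  have h1 : ∑ i, (P *ᵥ h) i ≤ ∑ i, h i := by
    simp only [mulVec, dotProduct]
    rw [sum_comm]
    refine sum_le_sum fun j _ => ?_
    rw [← sum_mul]
    exact mul_le_of_le_one_left (hh j) (hc j)
  have h2 : ∀ i ∈ (univ : Finset S), h i = (P *ᵥ h) i :=
    (sum_eq_sum_iff_of_le fun i _ => hle i).1 (le_antisymm (sum_le_sum fun i _ => hle i) h1)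
  have h3 : (1 - P) *ᵥ h = 0 := by
    funext i
    rw [sub_mulVec, one_mulVec, Pi.sub_apply, ← h2 i (mem_univ i), sub_self]
    rfl
  exact fun i => congrFun (eq_zero_of_mulVec_eq_zero hd h3) i

lemma cof (K : Matrix S S ℝ) (b : S → ℝ) (hN : (1 - K * diagonal b).det ≠ 0) (v : S) :
    (1 - K * diagonal b).det * (1 - K * diagonal b)⁻¹ v v =
      (1 - K * diagonal (update b v 0)).det := by
  have e : (1 - K * diagonal b).updateCol v (Pi.single v 1) = 1 - K * diagonal (update b v 0) := by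
    ext i j
    by_cases hj : j = v
    · subst hj
      simp [one_apply, Pi.single_apply]
    · simp [updateCol_ne hj, update_of_ne hj]
  rw [← e, ← adj_col, Matrix.inv_def, Ring.inverse_eq_inv', Matrix.smul_apply, smul_eq_mul,
    mul_inv_cancel_left₀ hN]

/-- weight of one loop in a given state. -/
noncomputable def lwt (π : Perm S) (b : S → ℝ) (g : Orb π) (k : Option Bool) : ℝ :=
  if k = none then 1 - pr π b g else pr π b g

lemma W_comp (π : Perm S) (b : S → ℝ) (c : Orb π → Option Bool) :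
    zr b (c ∘ o π) * (gm π b (c ∘ o π)).det = ∏ g, lwt π b g (c g) := by
  rw [zr_comp, det_gm, ← prod_mul_distrib]
  refine prod_congr rfl fun g _ => ?_
  rw [pr_zg, lwt]
  split_ifs <;> simp

lemma Y_comp (π : Perm S) (b : S → ℝ) (c : Orb π → Option Bool) (v : S)
    (hv : c (o π v) = none) :
    zr b (c ∘ o π) * ∏ g, (1 - pr π (update (zg b (c ∘ o π)) v 0) g) =
      ∏ g ∈ univ.erase (o π v), lwt π b g (c g) := by
  rw [zr_comp, ← prod_mul_distrib, ← mul_prod_erase _ _ (mem_univ (o π v)), if_pos hv,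
    pr_zero (v := v) rfl (update_self ..), sub_zero, one_mul, one_mul]
  refine prod_congr rfl fun g hg => ?_
  have e : pr π (update (zg b (c ∘ o π)) v 0) g = pr π (zg b (c ∘ o π)) g :=
    pr_congr fun w hw => update_of_ne (fun h => (mem_erase.1 hg).1 (by rw [← hw, h])) _ _
  rw [e, pr_zg, lwt]
  split_ifs <;> simp

open Classical in
lemma key (π : Perm S) {b : S → ℝ} (hb : ∀ v, 0 ≤ b v ∧ b v ≤ 1) (B : Finset S → Prop)
    (hB : ∀ R R', R ⊆ R' → B R → B R') (v : S) :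
    ∑ ω : S → Option Bool, (if (∀ w, ω (π w) = ω w) ∧ B (univ.filter fun w => ω w ≠ none) ∧
        ω v = none then zr b ω * ∏ g, (1 - pr π (update (zg b ω) v 0) g) else 0) ≤
      ∑ ω : S → Option Bool, if (∀ w, ω (π w) = ω w) ∧ B (univ.filter fun w => ω w ≠ none) then
        zr b ω * (gm π b ω).det else 0 := by
  simp only [ite_and]
  rw [sum_inv, sum_inv]
  set g0 := o π v
  set f : (Orb π → Option Bool) → ℝ := fun c =>
    if B (univ.filter fun w => (c ∘ o π) w ≠ none) then ∏ g, lwt π b g (c g) else 0 with hf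
  have hl : ∀ g k, 0 ≤ lwt π b g k := fun g k => by
    unfold lwt
    split_ifs
    exacts [sub_nonneg.2 (pr_le_one (fun v => (hb v).1) (fun v => (hb v).2) g),
      pr_nonneg (fun v => (hb v).1) g]
  have hf0 : ∀ c, 0 ≤ f c := fun c => by
    simp only [hf]
    split_ifs
    exacts [prod_nonneg fun g _ => hl g _, le_rfl]
  simp only [W_comp]
  change _ ≤ ∑ c, f c
  have h1 : ∀ c : Orb π → Option Bool,
      (if B (univ.filter fun w => (c ∘ o π) w ≠ none) then if (c ∘ o π) v = none then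
        zr b (c ∘ o π) * ∏ g, (1 - pr π (update (zg b (c ∘ o π)) v 0) g) else 0 else 0) ≤
      if c g0 = none then f c + f (update c g0 (some true)) else 0 := by
    intro c
    by_cases hc : c g0 = none
    · rw [if_pos hc, if_pos (show (c ∘ o π) v = none from hc)]
      split_ifs with h
      · have h' : B (univ.filter fun w => (update c g0 (some true) ∘ o π) w ≠ none) := by
          refine hB _ _ (fun w hw => ?_) h
          simp only [mem_filter, mem_univ, true_and, Function.comp_apply] at hw ⊢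
          by_cases e : o π w = g0
          · rw [e, update_self]; simp
          · rwa [update_of_ne e]
        simp only [hf]
        rw [if_pos h, if_pos h', Y_comp π b c v hc, ← mul_prod_erase _ _ (mem_univ g0),
          ← mul_prod_erase _ (fun g => lwt π b g (update c g0 (some true) g)) (mem_univ g0),
          update_self, hc, prod_congr rfl fun g hg =>
            (by rw [update_of_ne (mem_erase.1 hg).1] :
              lwt π b g (update c g0 (some true) g) = lwt π b g (c g)), ← add_mul]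
        simp [lwt, g0]
      · exact add_nonneg (hf0 _) (hf0 _)
    · rw [if_neg hc, if_neg (show ¬ (c ∘ o π) v = none from hc), ite_self]
  refine (sum_le_sum fun c _ => h1 c).trans ?_
  rw [← sum_filter, sum_add_distrib, ← sum_filter_add_sum_filter_not univ (fun c => c g0 = none) f]
  refine add_le_add le_rfl ?_
  rw [← sum_image (s := univ.filter fun c : Orb π → Option Bool => c g0 = none)
    (g := fun c => update c g0 (some true)) (f := f)]
  · refine sum_le_sum_of_subset_of_nonneg (fun c hc => ?_) fun c _ _ => hf0 c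
    obtain ⟨c', -, rfl⟩ := mem_image.1 hc
    simp
  · intro c hc c' hc' h
    funext g
    by_cases e : g = g0
    · rw [e, (mem_filter.1 hc).2, (mem_filter.1 hc').2]
    · have := congrFun h g
      simpa only [update_of_ne e] using this

end gen

variable {Λ : Type} [Fintype Λ] [DecidableEq Λ] {T : ℕ} [NeZero T] (ex ey : Fin T → Λ)
  {p : Fin T → ℝ} {b : Fin T × Λ → ℝ}

lemma Kb_col (p : Fin T → ℝ) (c : Fin T × Λ) : ∑ a, Kb ex ey p a c = 1 := by
  obtain ⟨s, x⟩ := c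
  rw [Fintype.sum_prod_type]
  simp [Kb_apply, sum_add_distrib]

lemma GK_le (hp : ∀ s, 0 ≤ p s ∧ p s ≤ 1) (hb : ∀ v, 0 ≤ b v ∧ b v ≤ 1)
    (hb0 : ∀ x, b (0, x) < 1) (v u : Fin T × Λ) :
    (WN.Gi ex ey p b * Kb ex ey p) v u ≤ WN.Gi ex ey p b v v := by
  have hc : ∀ j, ∑ i, (Kb ex ey p * diagonal b) i j ≤ 1 := fun j => by
    simp only [mul_diagonal]
    rw [← sum_mul, Kb_col, one_mul]
    exact (hb j).2
  have hT : ZM.Tr (Kb ex ey p * diagonal b) :=
    tr_of_det (fun i j => by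
      rw [mul_diagonal]; exact mul_nonneg (Kb_nonneg ex ey hp i j) (hb j).1) hc
      (DL.Zg_pos ex ey hp hb hb0).ne'
  rw [mul_apply]
  calc ∑ w, WN.Gi ex ey p b v w * Kb ex ey p w u
      ≤ ∑ w, WN.Gi ex ey p b v v * Kb ex ey p w u :=
        sum_le_sum fun w _ => mul_le_mul_of_nonneg_right (hT.row_le hc v w) (Kb_nonneg ex ey hp w u)
    _ = _ := by rw [← mul_sum, Kb_col, mul_one]

lemma nv_Gi (hp : ∀ s, 0 ≤ p s ∧ p s ≤ 1) (hb : ∀ v, 0 ≤ b v ∧ b v ≤ 1)
    (hb0 : ∀ x, b (0, x) < 1) (ω : Rep.Env T Λ) (v : Fin T × Λ) :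
    DL.nv ex ey p b ω * WN.Gi ex ey (th ex ey p ω) (zg b ω) v v = ∑ ξ, Pw p ξ *
      if ∀ w, ω (Sg ex ey ξ w) = ω w then
        zr b ω * ∏ g, (1 - pr (Sg ex ey ξ) (update (zg b ω) v 0) g) else 0 := by
  have hZ := (DL.Zg_pos ex ey (th_mem ex ey hp ω) (DL.zg_mem hb ω) (DL.zg_lt hb0 ω)).ne'
  rw [DL.cond_env ex ey hp, DL.nv, mul_assoc, WN.Zg, WN.Gi, cof _ _ hZ, ← avg_green]
  simp only [mul_sum]
  exact sum_congr rfl fun ξ _ => by ring

end Ann

open Classical in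
theorem ann : AnnStmt := by
  intro Λ _ _ T _ ex ey p b hp hb hb0 Bad hBad v u γ hγ H
  have hY : ∀ ξ (ω : Rep.Env T Λ),
      0 ≤ zr b ω * ∏ g, (1 - pr (Sg ex ey ξ) (update (zg b ω) v 0) g) := fun ξ ω => by
    refine mul_nonneg (zr_nonneg (fun v => (hb v).1) ω) (prod_nonneg fun g _ => sub_nonneg.2 ?_)
    refine pr_le_one (fun w => ?_) (fun w => ?_) g <;> rw [update_apply] <;> split_ifs
    exacts [le_rfl, (DL.zg_mem hb ω w).1, zero_le_one, (DL.zg_mem hb ω w).2]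
  have h1 : ∀ ω : Rep.Env T Λ,
      DL.nv ex ey p b ω * (if ω v = none ∧ ω u = none then DL.Ge ex ey p b ω v u else 0) ≤
        γ * DL.nv ex ey p b ω + ∑ ξ, Pw p ξ *
          if (∀ w, ω (Sg ex ey ξ w) = ω w) ∧ Bad ξ (red ω) ∧ ω v = none then
            zr b ω * ∏ g, (1 - pr (Sg ex ey ξ) (update (zg b ω) v 0) g) else 0 := by
    intro ω
    have hn := DL.nv_nonneg ex ey hp hb hb0 ω
    have h2 : 0 ≤ ∑ ξ, Pw p ξ *
        if (∀ w, ω (Sg ex ey ξ w) = ω w) ∧ Bad ξ (red ω) ∧ ω v = none then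
          zr b ω * ∏ g, (1 - pr (Sg ex ey ξ) (update (zg b ω) v 0) g) else 0 :=
      sum_nonneg fun ξ _ => mul_nonneg (Pw_nonneg hp ξ) (by split_ifs; exacts [hY ξ ω, le_rfl])
    split_ifs with h
    · by_cases hG : ∃ ξ, Pw p ξ ≠ 0 ∧ (∀ w, ω (Sg ex ey ξ w) = ω w) ∧ ¬ Bad ξ (red ω)
      · obtain ⟨ξ, a1, a2, a3⟩ := hG
        have := mul_le_mul_of_nonneg_left (H ξ ω a1 a2 a3 h.1 h.2) hn
        linarith
      · have h3 := mul_le_mul_of_nonneg_left (Ann.GK_le ex ey (th_mem ex ey hp ω) (DL.zg_mem hb ω)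
          (DL.zg_lt hb0 ω) v u) hn
        rw [Ann.nv_Gi ex ey hp hb hb0] at h3
        refine h3.trans (le_add_of_nonneg_of_le (mul_nonneg hγ hn) (le_of_eq ?_))
        refine sum_congr rfl fun ξ _ => ?_
        by_cases a1 : Pw p ξ = 0
        · rw [a1, zero_mul, zero_mul]
        · congr 1
          refine if_congr ⟨fun a2 => ⟨a2, ?_, h.1⟩, fun a2 => a2.1⟩ rfl rfl
          by_contra a3
          exact hG ⟨ξ, a1, a2, a3⟩
    · rw [mul_zero]
      exact add_nonneg (mul_nonneg hγ hn) h2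
  refine (sum_le_sum fun ω _ => h1 ω).trans ?_
  rw [sum_add_distrib, ← mul_sum, DL.sum_nv ex ey hp, sum_comm]
  refine add_le_add le_rfl (sum_le_sum fun ξ _ => ?_)
  rw [← mul_sum]
  refine mul_le_mul_of_nonneg_left ?_ (Pw_nonneg hp ξ)
  convert Ann.key (Sg ex ey ξ) hb (Bad ξ) (hBad ξ) v using 3 <;> rfl

end Crest.Agent.N337.RR
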