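import Crest.Agent.N337.S27.LY0D
import Crest.Agent.N337.LY.Pres
import Crest.Agent.N337.W.N0
import Crest.Agent.N337.G1.Defs
import Crest.Agent.N337.Top.Defs

-- ▼ part N337/DL/Disc
section

/-!
# Row 337, block (a1): Lee–Yang on the disc (and the Asano contraction on space-time)
-/

set_option autoImplicit false
set_option linter.unusedSectionVars false

namespace Crest.Agent.N337.DL

open Finset Equiv Function Crest.Agent.N337.Rep


lemma one_add_ne_re {u w : ℂ} (hu : 0 < u.re) (hw : 0 < w.re) : 1 + u * w ≠ 0 := by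
  intro h
  have h0 : w ≠ 0 := fun h => by simp [h] at hw
  have h1 : u = -w⁻¹ := by field_simp; linear_combination h
  have h2 := LY.re_inv_pos hw
  rw [h1, Complex.neg_re] at hu
  linarith




lemma two_half {u1 u2 w1 w2 : ℂ} (h1 : 0 < u1.re) (h2 : 0 < u2.re) (k1 : 0 < w1.re)
    (k2 : 0 < w2.re) {p : ℝ} (hp0 : 0 ≤ p) (hp1 : p ≤ 1) :
    (1 - p) * ((1 + u1 * w1) * (1 + u2 * w2)) + p * ((1 + u1 * w2) * (1 + u2 * w1)) ≠ 0 := by
  have k := LY.two_var (A := 1) (B := w1) (C := w2) (D := w1 * w2)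
    (fun v1 v2 a b h => mul_ne_zero (one_add_ne_re a k1) (one_add_ne_re b k2)
      (by linear_combination h)) hp0 hp1 h1 h2
  intro h
  apply k
  linear_combination h


/-- Asano contraction on the half plane, with a sink, a fugacity and a source. -/
lemma asano_half {a b c d : ℂ}
    (h : ∀ u w : ℂ, 0 < u.re → 0 < w.re → a + b * w + c * u + d * (u * w) ≠ 0) {s t : ℂ}
    (hs : 0 < s.re) (ht : 0 < t.re) {β : ℝ} (hβ : 0 ≤ β) :
    a + b * t + c * s + d * (β + s * t) ≠ 0 := by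
  by_cases hd : d = 0
  · simpa [hd] using h s t hs ht
  intro h0
  have h' : ∀ v1 v2 : ℂ, 0 < v1.re → 0 < v2.re →
      (v1 + b / d) * (v2 + c / d) ≠ b / d * (c / d) - a / d := by
    intro v1 v2 h1 h2 e
    apply h v1 v2 h1 h2
    have : a + b * v2 + c * v1 + d * (v1 * v2) =
      d * ((v1 + b / d) * (v2 + c / d) - (b / d * (c / d) - a / d)) := by field_simp; ring
    rw [this, e, sub_self, mul_zero]
  have h'' : ∀ v1 v2 : ℂ, 0 < v1.re → 0 < v2.re →
      (v1 + c / d) * (v2 + b / d) ≠ b / d * (c / d) - a / d := by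
    intro v1 v2 h1 h2 e
    exact h' v2 v1 h2 h1 (by linear_combination e)
  have hB := LY.nec_re h'
  have hC := LY.nec_re h''
  have hE := LY.nec_E h' hB hC
  set E := b / d * (c / d) - a / d with hE'
  have e : (s + b / d) * (t + c / d) = E - β := by
    rw [hE']; field_simp; linear_combination d * h0
  have k1 := LY.re_mul_le_norm (s + b / d) (t + c / d)
  have k2 : ‖E - β‖ ≤ ‖E‖ + β := by
    refine (norm_sub_le _ _).trans ?_
    rw [Complex.norm_real, Real.norm_of_nonneg hβ]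
  rw [e, Complex.sub_re, Complex.ofReal_re, Complex.add_re, Complex.add_re] at k1
  nlinarith [mul_pos hs ht, mul_nonneg hs.le hB, mul_nonneg ht.le hC]

variable {Λ : Type} [Fintype Λ] [DecidableEq Λ] {T : ℕ} [NeZero T] (ex ey : Fin T → Λ)

/-- the space-time sum with one `2 × 2` array `φ v (out) (in)` at every point. -/
def Lw {R : Type} [CommRing R] (w : (Fin T → Bool) → R) (φ : Fin T × Λ → Bool → Bool → R) : R :=
  ∑ ξ, w ξ * ∑ n : Fin T × Λ → Bool, ∏ v, φ v (n (Sg ex ey ξ v)) (n v)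


/-- rank-one arrays. -/
def rk (u w : ℂ) : Bool → Bool → ℂ := fun i j =>
  (if i = true then u else 1) * (if j = true then w else 1)


lemma step_ne (S : ℂ → Prop) (h1 : ∀ u w, S u → S w → 1 + u * w ≠ 0) {p : ℝ}
    (h2 : ∀ u1 u2 w1 w2, S u1 → S u2 → S w1 → S w2 →
      (1 - p) * ((1 + u1 * w1) * (1 + u2 * w2)) + p * ((1 + u1 * w2) * (1 + u2 * w1)) ≠ 0)
    (a b : Λ) {u w : Λ → ℂ} (hu : ∀ x, S (u x)) (hw : ∀ x, S (w x)) :
    p * ∏ x, (1 + u x * w (swap a b x)) + (1 - p) * ∏ x, (1 + u x * w x) ≠ 0 := by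
  by_cases hab : a = b
  · subst hab
    have := prod_ne_zero_iff.2 fun x (_ : x ∈ univ) => h1 _ _ (hu x) (hw x)
    intro h; apply this
    simp only [swap_self, refl_apply] at h
    linear_combination h
  have hb : b ∈ univ.erase a := mem_erase.2 ⟨Ne.symm hab, mem_univ _⟩
  have e : ∏ x ∈ (univ.erase a).erase b, (1 + u x * w (swap a b x)) =
      ∏ x ∈ (univ.erase a).erase b, (1 + u x * w x) := prod_congr rfl fun x hx => by
    rw [swap_apply_of_ne_of_ne (ne_of_mem_erase (mem_of_mem_erase hx)) (ne_of_mem_erase hx)]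
  rw [← mul_prod_erase _ _ (mem_univ a), ← mul_prod_erase _ _ hb,
    ← mul_prod_erase _ _ (mem_univ a), ← mul_prod_erase _ _ hb, e, swap_apply_left,
    swap_apply_right]
  have h3 := prod_ne_zero_iff.2 fun x (_ : x ∈ (univ.erase a).erase b) => h1 _ _ (hu x) (hw x)
  intro h
  exact mul_ne_zero (h2 _ _ _ _ (hu a) (hu b) (hw a) (hw b)) h3 (by linear_combination h)




variable {p : Fin T → ℝ}




end Crest.Agent.N337.DL
end

-- ▼ part N337/DL/Multi
section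

/-!
# Row 337: Lee–Yang / Gaussian domination for `θ = 2` with sources at many times

`Ft p s t b = ∑ ξ, Pw p ξ * ∏ loops Tr (mv s t b)`; no zeros off the negative axis.
-/

set_option autoImplicit false
set_option linter.unusedSectionVars false

namespace Crest.Agent.N337.DL

open Finset Equiv Function Matrix Crest.Agent.N337.Rep Crest.Agent.N337.LY0

section gen
variable {S : Type} [Fintype S] [DecidableEq S] {R : Type} [CommRing R]

lemma Tr_congr (π : Perm S) {g g' : S → M2 R} {c : Orb π} (h : ∀ v, o π v = c → g v = g' v) :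
    Tr π g c = Tr π g' c := by
  rw [Tr, Tr, Pc, Pc, Pk_congr fun i _ => h _ ((o_it π i _).trans (o_bp c))]

lemma Tr_update' (π : Perm S) (U : S → M2 R) (u : S) : ∃ P : M2 R,
    ∀ G, Tr π (update U u G) (o π u) = (G * P).trace := by
  obtain ⟨k, hk⟩ : ∃ k, per π (π u) = k + 1 :=
    ⟨_, (Nat.succ_pred_eq_of_pos (per_pos π (π u))).symm⟩
  have h0 : π^[k] (π u) = u := by
    have := it_per π (π u)
    rw [hk, Function.iterate_succ_apply'] at this
    exact π.injective this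
  refine ⟨Pk (fun i => U (π^[i] (π u))) k, fun G => ?_⟩
  rw [← o_apply π u, Tr_eq, Pc, hk, Pk_succ, h0, update_self, Pk_congr]
  intro i hi
  refine update_of_ne (fun h => ?_) _ _
  have := it_inj (x := π u) (i := i) (j := k) (by omega) (by omega) (h.trans h0.symm)
  omega

/-- product of the traces of the monodromies. -/
noncomputable def Tp (π : Perm S) (g : S → M2 R) : R := ∏ c, Tr π g c

lemma Tp_update (π : Perm S) (U : S → M2 R) (u : S) : ∃ P : M2 R,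
    ∀ G, Tp π (update U u G) = (G * P).trace := by
  obtain ⟨P, hP⟩ := Tr_update' π U u
  refine ⟨(∏ c ∈ univ.erase (o π u), Tr π U c) • P, fun G => ?_⟩
  rw [Tp, ← mul_prod_erase _ _ (mem_univ (o π u)), hP, Matrix.mul_smul, trace_smul, smul_eq_mul,
    mul_comm]
  congr 1
  exact prod_congr rfl fun c hc => Tr_congr π fun v hv =>
    update_of_ne (fun h => ne_of_mem_erase hc (by rw [← hv, h])) _ _

/-- rank-one vertex matrix. -/
def r1 (u w : R) : M2 R := !![1, w; u, u * w]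

lemma Pk_r1 (u w : ℕ → R) (k : ℕ) : Pk (fun i => r1 (u i) (w i)) (k + 1) =
    (∏ i ∈ range k, (1 + u i * w (i + 1))) • r1 (u k) (w 0) := by
  induction k with
  | zero => simp [Pk_succ, Pk_zero]
  | succ k ih =>
    rw [Pk_succ, ih, prod_range_succ, Matrix.mul_smul, mul_smul]
    congr 1
    ext i j; fin_cases i <;> fin_cases j <;> simp [r1] <;> ring

lemma Tp_r1 (π : Perm S) (u w : S → R) :
    Tp π (fun v => r1 (u v) (w v)) = ∏ v, (1 + u v * w (π v)) := by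
  rw [Tp, ← prod_fiberwise univ (o π)]
  refine prod_congr rfl fun c _ => ?_
  obtain ⟨x, rfl⟩ := o_surj π c
  obtain ⟨k, hk⟩ : ∃ k, per π x = k + 1 := ⟨_, (Nat.succ_pred_eq_of_pos (per_pos π x)).symm⟩
  have h0 : π (π^[k] x) = x := by
    have := it_per π x
    rwa [hk, Function.iterate_succ_apply'] at this
  rw [Tr_eq, Pc, prod_ob, hk, Pk_r1 (fun i => u (π^[i] x)) fun i => w (π^[i] x), prod_range_succ,
    h0, trace_smul, smul_eq_mul]
  simp only [Function.iterate_succ_apply', Function.iterate_zero, id]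
  simp [r1, trace_fin_two]

lemma Tp_map {R' : Type} [CommRing R'] (f : R →+* R') (π : Perm S) (s t b : S → R) :
    f (Tp π fun v => mv (s v) (t v) (b v)) = Tp π fun v => mv (f (s v)) (f (t v)) (f (b v)) := by
  simp only [Tp, map_prod, Tr_map]
  refine prod_congr rfl fun c _ => ?_
  congr 1
  funext v; ext i j; fin_cases i <;> fin_cases j <;> simp [mv]

lemma Tp_gauge (π : Perm S) {l l' : R} (h : l * l' = 1) (s t b : S → R) :
    Tp π (fun v => mv (l * s v) (l' * t v) (b v)) = Tp π fun v => mv (s v) (t v) (b v) := by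
  unfold Tp
  refine prod_congr rfl fun c _ => ?_
  rw [← Tr_conj (D := !![1, 0; 0, l]) (D' := !![1, 0; 0, l'])
    (by ext i j; fin_cases i <;> fin_cases j <;> simp [mul_comm l', h])
    (by ext i j; fin_cases i <;> fin_cases j <;> simp [h]) π fun v => mv (s v) (t v) (b v)]
  congr 1
  funext v; ext i j; fin_cases i <;> fin_cases j <;> simp [mv, mul_comm]
  linear_combination (-b v) * h

/-- contraction of a multilinear functional at every point. -/
theorem ml_ind (L : (S → M2 ℂ) → ℂ)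
    (hL : ∀ U u, ∃ P : M2 ℂ, ∀ G, L (update U u G) = (G * P).trace) (A : ℂ → Prop) (hA : ∃ z, A z)
    (h0 : ∀ u w : S → ℂ, (∀ v, A (u v)) → (∀ v, A (w v)) → L (fun v => r1 (u v) (w v)) ≠ 0)
    {φ : S → M2 ℂ} (hφ : ∀ v (P : M2 ℂ), (∀ u w, A u → A w → (r1 u w * P).trace ≠ 0) →
      (φ v * P).trace ≠ 0) : L φ ≠ 0 := by
  have key : ∀ B : Finset S, ∀ u w : S → ℂ, (∀ v, A (u v)) → (∀ v, A (w v)) →
      L (fun v => if v ∈ B then φ v else r1 (u v) (w v)) ≠ 0 := by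
    intro B
    induction B using Finset.induction_on with
    | empty => simpa using h0
    | insert x B hx ih =>
      intro u w hu hw
      obtain ⟨P, hc⟩ := hL (fun z => if z ∈ B then φ z else r1 (u z) (w z)) x
      have e : (fun z => if z ∈ insert x B then φ z else r1 (u z) (w z)) =
          update (fun z => if z ∈ B then φ z else r1 (u z) (w z)) x (φ x) := by
        funext z
        rcases eq_or_ne z x with rfl | h
        · simp
        · simp [h]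
      rw [e, hc]
      refine hφ x _ fun a b ha hb => ?_
      have hup : ∀ (f : S → ℂ) (c : ℂ), (∀ v, A (f v)) → A c → ∀ v, A (update f x c v) :=
        fun f c hf hc' z => by
          rcases eq_or_ne z x with rfl | h
          · simpa using hc'
          · rw [update_of_ne h]; exact hf z
      have h2 := ih _ _ (hup u a hu ha) (hup w b hw hb)
      have e' : (fun z => if z ∈ B then φ z else r1 (update u x a z) (update w x b z)) =
          update (fun z => if z ∈ B then φ z else r1 (u z) (w z)) x (r1 a b) := by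
        funext z
        rcases eq_or_ne z x with rfl | h
        · simp [hx]
        · simp [update_of_ne h]
      rwa [e', hc] at h2
  obtain ⟨z, hz⟩ := hA
  simpa using key univ (fun _ => z) (fun _ => z) (fun _ => hz) fun _ => hz

/-- restriction of a source to the green points. -/
def gr (s : S → ℝ) (ω : S → Option Bool) : S → ℝ := fun v => if ω v = none then s v else 0

/-- red/green splitting of the generating function. -/
lemma Tp_split (π : Perm S) (s t b : S → ℝ) :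
    Tp π (fun v => mv (s v) (t v) (b v)) = ∑ ω : S → Option Bool,
      if ∀ v, ω (π v) = ω v then zr b ω * Ps π (gr s ω) (gr t ω) (zg b ω) else 0 := by
  rw [sum_inv_prod π _ fun g k => if k = none then
    Tr π (fun v => mv (s v) (t v) (b v)) g - 2 * pr π b g else pr π b g]
  · refine prod_congr rfl fun g _ => ?_
    simp only [Fintype.sum_option, Fintype.sum_bool]; simp; ring
  · intro c
    rw [zr_comp, Ps, ← prod_mul_distrib]
    refine prod_congr rfl fun g _ => ?_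
    have e := pr_zg π b c g
    rw [pr] at e
    rw [e]
    split_ifs with h
    · rw [one_mul, Tr_congr π (g' := fun v => mv (s v) (t v) (b v))]
      intro v hv; simp [gr, zg, hv, h]
    · rw [Tr_congr π (g' := fun v => mv 0 0 0), Tr_up π (fun _ => 0) fun _ => 0,
        pr_zero (a := fun _ => 0) (o_bp g) rfl]
      · simp
      · intro v hv; simp [gr, zg, hv, h]

lemma Tp_zero (π : Perm S) (t b : S → ℝ) :
    Tp π (fun v => mv 0 (t v) (b v)) = ∏ c, (1 + pr π b c) := by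
  simp only [Tp, Tr_up]

/-- closed colourings give a lower bound. -/
lemma Tp_lb (π : Perm S) {s t b : S → ℝ} (hs : ∀ v, 0 ≤ s v) (ht : ∀ v, 0 ≤ t v)
    (hb : ∀ v, 0 ≤ b v) :
    ∏ c, (1 + pr π (fun v => b v + s v * t v) c) ≤ Tp π fun v => mv (s v) (t v) (b v) := by
  refine prod_le_prod (fun c _ => add_nonneg zero_le_one (pr_nonneg
    (fun v => add_nonneg (hb v) (mul_nonneg (hs v) (ht v))) c)) fun c _ => ?_
  obtain ⟨x, rfl⟩ := o_surj π c
  have hg : ∀ i a c, 0 ≤ mv (s (π^[i] x)) (t (π^[i] x)) (b (π^[i] x)) a c :=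
    fun i => mv_nonneg (hs _) (ht _) (hb _)
  have p0 := Pk_path hg (fun _ => 0) (per π x)
  have p1 := Pk_path hg (fun _ => 1) (per π x)
  rw [Tr_eq, Pc, trace_fin_two, pr, prod_ob]
  refine add_le_add (le_trans (le_of_eq ?_) p0) (le_trans (le_of_eq ?_) p1)
  · exact (prod_eq_one fun i _ => by simp [mv]).symm
  · exact prod_congr rfl fun i _ => by simp [mv]

end gen

variable {Λ : Type} [Fintype Λ] [DecidableEq Λ] {T : ℕ} [NeZero T] (ex ey : Fin T → Λ)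
variable {p : Fin T → ℝ} {b : Fin T × Λ → ℝ}

theorem half (hp : ∀ s, 0 ≤ p s ∧ p s ≤ 1) (hb : ∀ v, 0 ≤ b v) {σ τ : Fin T × Λ → ℂ}
    (hσ : ∀ v, 0 < (σ v).re) (hτ : ∀ v, 0 < (τ v).re) :
    ∑ ξ, (Pw p ξ : ℂ) * Tp (Sg ex ey ξ) (fun v => mv (σ v) (τ v) (b v)) ≠ 0 := by
  refine ml_ind (fun g => ∑ ξ, (Pw p ξ : ℂ) * Tp (Sg ex ey ξ) g) (fun U u => ?_)
    (fun z => 0 < z.re) ⟨1, by simp⟩ (fun u w hu hw => ?_) fun v P h => ?_
  · choose P hP using fun ξ => Tp_update (Sg ex ey ξ) U u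
    refine ⟨∑ ξ, (Pw p ξ : ℂ) • P ξ, fun G => ?_⟩
    simp only [hP, Matrix.mul_sum, trace_sum, Matrix.mul_smul, trace_smul, smul_eq_mul]
  · have h2 := LY0.prod_two fun s b => (wb (p s) b : ℂ) *
      ∏ x, (1 + u (s, x) * w (s + 1, sg (ex s) (ey s) b x))
    simp only [Tp_r1]
    simp only [Fintype.prod_prod_type, Sg_apply, Pw, Complex.ofReal_prod,
      ← prod_mul_distrib, ← h2]
    refine prod_ne_zero_iff.2 fun s _ => ?_
    simpa [wb, sg] using step_ne (fun z => 0 < z.re) (fun _ _ => one_add_ne_re)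
      (fun _ _ _ _ a b c d => two_half a b c d (hp s).1 (hp s).2) (ex s) (ey s)
      (u := fun x => u (s, x)) (w := fun x => w (s + 1, x)) (fun x => hu _) fun x => hw _
  · have := asano_half (a := P 0 0) (b := P 1 0) (c := P 0 1) (d := P 1 1) (fun u w hu hw h' =>
      h u w hu hw (by simp [r1, trace_fin_two, mul_apply, vecMul, dotProduct]; linear_combination h'))
      (hσ v) (hτ v) (hb v)
    intro h'; apply this
    simp [mv, trace_fin_two, mul_apply, vecMul, dotProduct] at h'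
    linear_combination h'

theorem half' (hp : ∀ s, 0 ≤ p s ∧ p s ≤ 1) (hb : ∀ v, 0 ≤ b v) {s t : Fin T × Λ → ℝ}
    (hs : ∀ v, 0 < s v) (ht : ∀ v, 0 < t v) {w : ℂ} (hw0 : w ≠ 0) (hw : ¬ (w.im = 0 ∧ w.re < 0)) :
    ∑ ξ, (Pw p ξ : ℂ) * Tp (Sg ex ey ξ) (fun v => mv (w * s v) (t v) (b v)) ≠ 0 := by
  obtain ⟨r, hr, hr0⟩ : ∃ r : ℂ, r ^ 2 = w ∧ 0 ≤ r.re := by
    obtain ⟨r, hr⟩ := IsAlgClosed.exists_pow_nat_eq w (n := 2) (by norm_num)
    rcases le_total 0 r.re with h0 | h0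
    · exact ⟨r, hr, h0⟩
    · exact ⟨-r, by rw [neg_sq, hr], by simpa using h0⟩
  have hne : r ≠ 0 := fun h => hw0 (by rw [← hr, h]; simp)
  have hpos : 0 < r.re := hr0.lt_of_ne fun hp => hw (by
    have him : r.im ≠ 0 := fun h => hne (Complex.ext hp.symm h)
    rw [← hr, pow_two, Complex.mul_im, Complex.mul_re, ← hp]
    exact ⟨by simp, by simpa using him⟩)
  have h := half ex ey hp hb (σ := fun v => r * s v) (τ := fun v => r * t v)
    (fun v => by rw [Complex.re_mul_ofReal]; exact mul_pos hpos (hs v))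
    (fun v => by rw [Complex.re_mul_ofReal]; exact mul_pos hpos (ht v))
  simp only [← Tp_gauge _ (mul_inv_cancel₀ hne) (fun v => r * s v), ← mul_assoc, ← pow_two, hr,
    inv_mul_cancel₀ hne, one_mul] at h
  exact h

/-! ### the environment representation with general weights `b` -/

/-- partition function. -/
noncomputable def Zt (p : Fin T → ℝ) (b : Fin T × Λ → ℝ) : ℝ :=
  ∑ ξ, Pw p ξ * ∏ c, (1 + pr (Sg ex ey ξ) b c)

/-- weight of the coins compatible with an environment. -/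
def cw (p : Fin T → ℝ) (ω : Env T Λ) : ℝ := ∏ s, (wc ex ey p ω s true + wc ex ey p ω s false)

/-- weight of an environment (`none` = green, `some _` = red). -/
noncomputable def nv (p : Fin T → ℝ) (b : Fin T × Λ → ℝ) (ω : Env T Λ) : ℝ :=
  zr b ω * cw ex ey p ω * WN.Zg ex ey (th ex ey p ω) (zg b ω)

/-- Green function of an environment, entry `(target, source)`. -/
noncomputable def Ge (p : Fin T → ℝ) (b : Fin T × Λ → ℝ) (ω : Env T Λ) :
    Matrix (Fin T × Λ) (Fin T × Λ) ℝ :=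
  WN.Gi ex ey (th ex ey p ω) (zg b ω) * Kb ex ey (th ex ey p ω)

/-- conditioning the coins on the environment. -/
lemma cond_env (hp : ∀ s, 0 ≤ p s ∧ p s ≤ 1) (ω : Env T Λ) (X : (Fin T → Bool) → ℝ) :
    ∑ ξ, Pw p ξ * (if ∀ v, ω (Sg ex ey ξ v) = ω v then X ξ else 0) =
      cw ex ey p ω * ∑ ξ, Pw (th ex ey p ω) ξ * X ξ := by
  rw [mul_sum]
  refine sum_congr rfl fun ξ _ => ?_
  have h1 : ∏ s, wc ex ey p ω s (ξ s) = if ∀ v, ω (Sg ex ey ξ v) = ω v then Pw p ξ else 0 := by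
    simp only [wc, prod_ite_zero, mem_univ, true_imp_iff, Prod.forall, Sg_apply, Pw]
  have h2 : ∏ s, wc ex ey p ω s (ξ s) = cw ex ey p ω * Pw (th ex ey p ω) ξ := by
    rw [cw, Pw, ← prod_mul_distrib]
    refine prod_congr rfl fun s _ => ?_
    have := th_mul ex ey hp ω s
    cases ξ s <;> simp only [wb, Bool.false_eq_true, if_false, if_true] <;> linarith
  rw [← mul_assoc, ← h2, h1]
  split_ifs <;> simp

lemma cw_nonneg (hp : ∀ s, 0 ≤ p s ∧ p s ≤ 1) (ω : Env T Λ) : 0 ≤ cw ex ey p ω :=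
  prod_nonneg fun s _ => add_nonneg (wc_nonneg ex ey hp ω s _) (wc_nonneg ex ey hp ω s _)

lemma pr_lt_one (hb : ∀ v, 0 ≤ b v ∧ b v ≤ 1) (hb0 : ∀ x, b (0, x) < 1) (ξ : Fin T → Bool)
    (g : Orb (Sg ex ey ξ)) : pr (Sg ex ey ξ) b g < 1 := by
  obtain ⟨x, hx⟩ := exists_time ex ey ξ g 0
  rw [pr, ← mul_prod_erase _ _ (show (0, x) ∈ univ.filter fun v => o (Sg ex ey ξ) v = g from
    mem_filter.2 ⟨mem_univ _, hx⟩)]
  exact (mul_le_of_le_one_right (hb _).1
    (prod_le_one (fun v _ => (hb v).1) fun v _ => (hb v).2)).trans_lt (hb0 x)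

lemma det_mat_pos' (hb : ∀ v, 0 ≤ b v ∧ b v ≤ 1) (hb0 : ∀ x, b (0, x) < 1) (ξ : Fin T → Bool) :
    0 < (mat (Sg ex ey ξ) (fun _ => 1) b).det := by
  rw [det_mat]
  refine prod_pos fun c _ => ?_
  rw [pr_one fun _ _ => rfl, sub_pos]
  exact pr_lt_one ex ey hb hb0 ξ c

lemma Zg_eq (p : Fin T → ℝ) (b : Fin T × Λ → ℝ) :
    WN.Zg ex ey p b = ∑ ξ, Pw p ξ * (mat (Sg ex ey ξ) (fun _ => 1) b).det := by
  simp only [mat_eq, avg_det, WN.Zg]

lemma Zg_pos (hp : ∀ s, 0 ≤ p s ∧ p s ≤ 1) (hb : ∀ v, 0 ≤ b v ∧ b v ≤ 1)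
    (hb0 : ∀ x, b (0, x) < 1) : 0 < WN.Zg ex ey p b := by
  rw [Zg_eq]
  have hN := det_mat_pos' ex ey hb hb0
  obtain ⟨ξ, -, hξ⟩ := exists_ne_zero_of_sum_ne_zero ((sum_Pw p).trans_ne one_ne_zero)
  exact sum_pos' (fun ξ _ => mul_nonneg (Pw_nonneg hp ξ) (hN ξ).le)
    ⟨ξ, mem_univ _, mul_pos ((Pw_nonneg hp ξ).lt_of_ne hξ.symm) (hN ξ)⟩

lemma zg_mem (hb : ∀ v, 0 ≤ b v ∧ b v ≤ 1) (ω : Env T Λ) (v : Fin T × Λ) :
    0 ≤ zg b ω v ∧ zg b ω v ≤ 1 := by
  unfold zg; split_ifs; exacts [hb v, ⟨le_rfl, zero_le_one⟩]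

lemma zg_lt (hb0 : ∀ x, b (0, x) < 1) (ω : Env T Λ) (x : Λ) : zg b ω (0, x) < 1 := by
  unfold zg; split_ifs; exacts [hb0 x, zero_lt_one]

lemma nv_nonneg (hp : ∀ s, 0 ≤ p s ∧ p s ≤ 1) (hb : ∀ v, 0 ≤ b v ∧ b v ≤ 1)
    (hb0 : ∀ x, b (0, x) < 1) (ω : Env T Λ) : 0 ≤ nv ex ey p b ω :=
  mul_nonneg (mul_nonneg (zr_nonneg (fun v => (hb v).1) ω) (cw_nonneg ex ey hp ω))
    (Zg_pos ex ey (th_mem ex ey hp ω) (zg_mem hb ω) (zg_lt hb0 ω)).le

lemma nv_eq (hp : ∀ s, 0 ≤ p s ∧ p s ≤ 1) (b : Fin T × Λ → ℝ) (ω : Env T Λ) :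
    nv ex ey p b ω = ∑ ξ, Pw p ξ *
      if ∀ v, ω (Sg ex ey ξ v) = ω v then zr b ω * (gm (Sg ex ey ξ) b ω).det else 0 := by
  rw [cond_env ex ey hp, nv, Zg_eq]
  simp only [mul_sum, gm]
  exact sum_congr rfl fun ξ _ => by ring

/-- weight of the event "all points of `X` are red". -/
lemma sum_nv_red (hp : ∀ s, 0 ≤ p s ∧ p s ≤ 1) (b : Fin T × Λ → ℝ) (X : Finset (Fin T × Λ)) :
    ∑ ω, nv ex ey p b ω * (if ∀ v ∈ X, ω v ≠ none then 1 else 0) = ∑ ξ, Pw p ξ *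
      ∏ g, if g ∈ X.image (o (Sg ex ey ξ)) then 2 * pr (Sg ex ey ξ) b g
        else 1 + pr (Sg ex ey ξ) b g := by
  simp only [nv_eq ex ey hp, sum_mul, ← sumR0, mul_sum]
  rw [sum_comm]
  refine sum_congr rfl fun ξ _ => sum_congr rfl fun ω _ => ?_
  split_ifs <;> simp

lemma sum_nv (hp : ∀ s, 0 ≤ p s ∧ p s ≤ 1) (b : Fin T × Λ → ℝ) :
    ∑ ω, nv ex ey p b ω = Zt ex ey p b := by
  simpa [Zt] using sum_nv_red ex ey hp b ∅

lemma Zt_pos (hp : ∀ s, 0 ≤ p s ∧ p s ≤ 1) (hb : ∀ v, 0 ≤ b v) : 0 < Zt ex ey p b := by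
  have : ∑ ξ, Pw p ξ * 1 ≤ Zt ex ey p b := sum_le_sum fun ξ _ => mul_le_mul_of_nonneg_left
    (by rw [← sumD_eq]; exact one_le_sumD hb _) (Pw_nonneg hp ξ)
  simp only [mul_one, sum_Pw] at this
  linarith

/-- the annealed two-point form. -/
noncomputable def E1 (p : Fin T → ℝ) (b s t : Fin T × Λ → ℝ) : ℝ :=
  ∑ ω, nv ex ey p b ω * (gr t ω ⬝ᵥ Ge ex ey p b ω *ᵥ gr s ω)

/-- the generating function with sources `s` and sinks `t`. -/
noncomputable def Ft (p : Fin T → ℝ) (b s t : Fin T × Λ → ℝ) : ℝ :=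
  ∑ ξ, Pw p ξ * Tp (Sg ex ey ξ) fun v => mv (s v) (t v) (b v)

variable {s t : Fin T × Λ → ℝ}

lemma Ft_deriv (hp : ∀ s, 0 ≤ p s ∧ p s ≤ 1) (hb : ∀ v, 0 ≤ b v ∧ b v ≤ 1)
    (hb0 : ∀ x, b (0, x) < 1) (s t : Fin T × Λ → ℝ) :
    HasDerivAt (fun w => Ft ex ey p b (fun v => w * s v) t) (E1 ex ey p b s t) 0 := by
  have e : ∀ w, Ft ex ey p b (fun v => w * s v) t = ∑ ω : Env T Λ, zr b ω * cw ex ey p ω *
      ∑ ξ, Pw (th ex ey p ω) ξ * Ps (Sg ex ey ξ) (fun v => w * gr s ω v) (gr t ω) (zg b ω) := by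
    intro w
    simp only [Ft, Tp_split, mul_sum (s := univ (α := Env T Λ))]
    rw [sum_comm]
    refine sum_congr rfl fun ω _ => ?_
    have : gr (fun v => w * s v) ω = fun v => w * gr s ω v := by funext v; simp [gr]
    rw [cond_env ex ey hp, this]
    simp only [mul_sum]
    exact sum_congr rfl fun ξ _ => by ring
  simp only [e]
  refine HasDerivAt.fun_sum fun ω _ => ?_
  have hN := det_mat_pos' ex ey (zg_mem hb ω) (zg_lt hb0 ω)
  refine ((HasDerivAt.fun_sum fun ξ _ => (Ps_deriv (Sg ex ey ξ) (gr s ω) (gr t ω) (zg b ω)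
    (hN ξ).ne').const_mul (Pw (th ex ey p ω) ξ)).const_mul _).congr_deriv ?_
  have hZ := (Zg_pos ex ey (th_mem ex ey hp ω) (zg_mem hb ω) (zg_lt hb0 ω)).ne'
  have h := avg_det ex ey (th ex ey p ω) (diagonal (zg b ω) + vecMulVec (gr s ω) (gr t ω))
  simp only [Matrix.mul_add, mul_vecMulVec, ← sub_sub] at h
  simp only [mul_sub, sum_sub_distrib, ← Zg_eq]
  simp only [mat_eq, h]
  rw [det_rank_one hZ, nv, Ge, WN.Gi, ← mulVec_mulVec, WN.Zg]
  ring

theorem N2_strict (hp : ∀ s, 0 ≤ p s ∧ p s ≤ 1) (hb : ∀ v, 0 ≤ b v ∧ b v ≤ 1)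
    (hb0 : ∀ x, b (0, x) < 1) (hs : ∀ v, 0 < s v) (ht : ∀ v, 0 < t v) :
    Ft ex ey p b s t ≤ Zt ex ey p b * Real.exp (E1 ex ey p b s t / Zt ex ey p b) := by
  set F : ℝ → ℝ := fun w => Ft ex ey p b (fun v => w * s v) t with hF
  have hF0 : F 0 = Zt ex ey p b := by simp only [hF, zero_mul, Ft, Tp_zero, Zt]
  have hD0 := Zt_pos ex ey hp fun v => (hb v).1
  have hd := Ft_deriv ex ey hp hb hb0 s t
  set Q : Polynomial ℂ := ∑ ξ, Polynomial.C (Pw p ξ : ℂ) * Tp (Sg ex ey ξ) fun v =>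
    mv (Polynomial.X * Polynomial.C (s v : ℂ)) (Polynomial.C (t v : ℂ)) (Polynomial.C (b v : ℂ))
    with hQ
  have hQe : ∀ z : ℂ, Q.eval z = ∑ ξ, (Pw p ξ : ℂ) * Tp (Sg ex ey ξ) fun v =>
      mv (z * s v) (t v : ℂ) (b v : ℂ) := by
    intro z
    rw [← Polynomial.coe_evalRingHom, hQ, map_sum]
    simp only [map_mul, Tp_map, Polynomial.coe_evalRingHom, Polynomial.eval_C, Polynomial.eval_X]
  have hQr : ∀ w : ℝ, Q.eval (w : ℂ) = (F w : ℂ) := by
    intro w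
    rw [hQe, hF]
    simp only [Ft]
    rw [← Complex.ofRealHom_eq_coe (∑ ξ, _), map_sum]
    simp only [map_mul, Tp_map, Complex.ofRealHom_eq_coe]
  have hQd : Q.derivative.eval 0 = ((E1 ex ey p b s t : ℝ) : ℂ) := by
    have h1 := (Q.hasDerivAt ((0 : ℝ) : ℂ)).comp_ofReal
    simp only [hQr] at h1
    exact h1.unique hd.ofReal_comp
  have h0 := hQr 0
  have h1 := hQr 1
  rw [Complex.ofReal_zero, hF0] at h0
  rw [Complex.ofReal_one] at h1
  have L := LY.L4 Q fun z hz => by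
    by_cases hz0 : z = 0
    · rw [hz0, h0]; exact_mod_cast hD0.ne'
    · rw [hQe]
      exact half' ex ey hp (fun v => (hb v).1) hs ht hz0 hz
  rw [h0, h1, hQd, ← Complex.ofReal_div, Complex.ofReal_re, Complex.norm_real, Complex.norm_real,
    Real.norm_of_nonneg hD0.le] at L
  simpa only [hF, one_mul] using (le_abs_self _).trans L

/-- **(N)** Gaussian domination with sources and sinks at all space-time points. -/
theorem N2 (hp : ∀ s, 0 ≤ p s ∧ p s ≤ 1) (hb : ∀ v, 0 ≤ b v ∧ b v ≤ 1)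
    (hb0 : ∀ x, b (0, x) < 1) (hs : ∀ v, 0 ≤ s v) (ht : ∀ v, 0 ≤ t v) :
    Ft ex ey p b s t ≤ Zt ex ey p b * Real.exp (E1 ex ey p b s t / Zt ex ey p b) := by
  have cL : Continuous fun e : ℝ => Ft ex ey p b (fun v => s v + e) fun v => t v + e := by
    refine continuous_finsetSum _ fun ξ _ => continuous_const.mul
      (continuous_finsetProd _ fun c _ => Tr_cont _ (fun v => ?_) c)
    refine continuous_matrix fun i j => ?_
    fin_cases i <;> fin_cases j <;> simp [mv] <;> fun_prop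
  have cg : ∀ (s : Fin T × Λ → ℝ) ω, Continuous fun e : ℝ => gr (fun v => s v + e) ω :=
    fun s ω => continuous_pi fun v => by simp only [gr]; split_ifs <;> fun_prop
  have cE : Continuous fun e : ℝ => E1 ex ey p b (fun v => s v + e) fun v => t v + e :=
    continuous_finsetSum _ fun ω _ => continuous_const.mul
      ((cg t ω).dotProduct (continuous_const.matrix_mulVec (cg s ω)))
  have cR : Continuous fun e : ℝ => Zt ex ey p b *
      Real.exp (E1 ex ey p b (fun v => s v + e) (fun v => t v + e) / Zt ex ey p b) := by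
    fun_prop
  have key := le_of_tendsto_of_tendsto (b := nhdsWithin (0 : ℝ) (Set.Ioi 0))
    (cL.continuousAt.tendsto.mono_left nhdsWithin_le_nhds)
    (cR.continuousAt.tendsto.mono_left nhdsWithin_le_nhds) (by
      filter_upwards [self_mem_nhdsWithin] with e he
      exact N2_strict ex ey hp hb hb0 (fun v => add_pos_of_nonneg_of_pos (hs v) he)
        fun v => add_pos_of_nonneg_of_pos (ht v) he)
  simpa only [add_zero] using key

/-- raising the weights by `s * t` costs at most `exp (E₁ / Z)`. -/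
theorem Zt_raise (hp : ∀ s, 0 ≤ p s ∧ p s ≤ 1) (hb : ∀ v, 0 ≤ b v ∧ b v ≤ 1)
    (hb0 : ∀ x, b (0, x) < 1) (hs : ∀ v, 0 ≤ s v) (ht : ∀ v, 0 ≤ t v) :
    Zt ex ey p (fun v => b v + s v * t v) ≤
      Zt ex ey p b * Real.exp (E1 ex ey p b s t / Zt ex ey p b) :=
  le_trans (sum_le_sum fun ξ _ => mul_le_mul_of_nonneg_left
    (Tp_lb _ hs ht fun v => (hb v).1) (Pw_nonneg hp ξ)) (N2 ex ey hp hb hb0 hs ht)

lemma down_le {S : Type} [Fintype S] [DecidableEq S] (π : Perm S) {b a : S → ℝ}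
    (hb : ∀ v, 0 ≤ b v ∧ b v ≤ 1) (ha : ∀ v, 0 ≤ a v) (X : Finset S) :
    (∏ v ∈ X, a v) * ∏ g, (if g ∈ X.image (o π) then pr π b g else 1 + pr π b g) ≤
      ∏ g, (1 + pr π (fun v => b v + a v) g) := by
  have hba : ∀ v, 0 ≤ b v + a v := fun v => add_nonneg (hb v).1 (ha v)
  rw [← sumD0, ← sumD_eq, mul_sum]
  refine sum_le_sum fun D _ => ?_
  have hz : 0 ≤ zd (fun v => b v + a v) D :=
    prod_nonneg fun v _ => by split_ifs; exacts [hba v, zero_le_one]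
  split_ifs with h1 h2
  · rw [mul_one, show ∏ v ∈ X, a v = ∏ v, if v ∈ X then a v else 1 by
      rw [prod_ite_mem, univ_inter], zd, zd, ← prod_mul_distrib]
    refine prod_le_prod (fun v _ => mul_nonneg (by split_ifs; exacts [ha v, zero_le_one])
      (by split_ifs; exacts [(hb v).1, zero_le_one])) fun v _ => ?_
    by_cases hv : v ∈ X
    · rw [if_pos hv, if_pos (h2 v hv), if_pos (h2 v hv)]
      nlinarith [(hb v).1, (hb v).2, ha v]
    · rw [if_neg hv, one_mul]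
      split_ifs
      · linarith [ha v]
      · exact le_rfl
  · simpa using hz
  · simp

/-- all points of `X` are down: weighted Newton inequality. -/
theorem down_bound (hp : ∀ s, 0 ≤ p s ∧ p s ≤ 1) (hb : ∀ v, 0 ≤ b v ∧ b v ≤ 1)
    (hb0 : ∀ x, b (0, x) < 1) (hs : ∀ v, 0 ≤ s v) (ht : ∀ v, 0 ≤ t v) (X : Finset (Fin T × Λ)) :
    (∏ v ∈ X, s v * t v) * ∑ ξ, Pw p ξ * ∏ g, (if g ∈ X.image (o (Sg ex ey ξ)) then
      pr (Sg ex ey ξ) b g else 1 + pr (Sg ex ey ξ) b g) ≤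
      Zt ex ey p b * Real.exp (E1 ex ey p b s t / Zt ex ey p b) := by
  refine le_trans ?_ (Zt_raise ex ey hp hb hb0 hs ht)
  rw [mul_sum]
  refine sum_le_sum fun ξ _ => ?_
  rw [mul_left_comm]
  exact mul_le_mul_of_nonneg_left (down_le _ hb (fun v => mul_nonneg (hs v) (ht v)) X)
    (Pw_nonneg hp ξ)

/-- all points of `X` are red. -/
theorem red_bound (hp : ∀ s, 0 ≤ p s ∧ p s ≤ 1) (hb : ∀ v, 0 ≤ b v ∧ b v ≤ 1)
    (hb0 : ∀ x, b (0, x) < 1) (hs : ∀ v, 0 ≤ s v) (ht : ∀ v, 0 ≤ t v) (X : Finset (Fin T × Λ)) :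
    (∏ v ∈ X, s v * t v) * ∑ ω, nv ex ey p b ω * (if ∀ v ∈ X, ω v ≠ none then 1 else 0) ≤
      2 ^ X.card * (Zt ex ey p b * Real.exp (E1 ex ey p b s t / Zt ex ey p b)) := by
  refine le_trans ?_ (mul_le_mul_of_nonneg_left (down_bound ex ey hp hb hb0 hs ht X)
    (by positivity))
  rw [mul_left_comm, sum_nv_red ex ey hp, mul_sum (s := univ) (a := (2 : ℝ) ^ X.card)]
  refine mul_le_mul_of_nonneg_left (sum_le_sum fun ξ _ => ?_)
    (prod_nonneg fun v _ => mul_nonneg (hs v) (ht v))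
  rw [mul_left_comm]
  refine mul_le_mul_of_nonneg_left (prod_le_two_pow X (fun g => ?_) (fun g => ?_) fun g => ?_)
    (Pw_nonneg hp ξ)
  · have := pr_nonneg (π := Sg ex ey ξ) (fun v => (hb v).1) g; split_ifs <;> linarith
  · have := pr_nonneg (π := Sg ex ey ξ) (fun v => (hb v).1) g; split_ifs <;> linarith
  · split_ifs <;> linarith



end Crest.Agent.N337.DL
end

-- ▼ part N337/R/Defs

/-!
# Row 337, RARE (helper4): rarity of the junk of the red set at `θ = 2` by static witness trees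

Joint law of the coins `ξ` and the red set `R`.  Junk `U ξ R` is increasing in `R`; base junk is a
colour blind fast chain or a red point set.  Definitions and leaf statements.
-/

set_option autoImplicit false

namespace Crest.Agent.N337.RR

open Finset Equiv Crest.MathPhysics.SpinModel Crest.Agent.N337.Rep Free KV G1

section meas
variable {Λ : Type} [Fintype Λ] [DecidableEq Λ] {T : ℕ} [NeZero T] (ex ey : Fin T → Λ)

/-- the red points. -/
def red (ω : Rep.Env T Λ) : Finset (Fin T × Λ) := univ.filter fun v => ω v ≠ none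
/-- number of points at time `0`. -/
def n0 (R : Finset (Fin T × Λ)) : ℕ := (univ.filter fun x => ((0 : Fin T), x) ∈ R).card

open Classical in
/-- weight of an event of the coins and the red set. -/
noncomputable def WR (p : Fin T → ℝ) (b : Fin T × Λ → ℝ)
    (E : (Fin T → Bool) → Finset (Fin T × Λ) → Prop) : ℝ :=
  ∑ ξ, Pw p ξ * ∑ ω : Rep.Env T Λ,
    if (∀ v, ω (Sg ex ey ξ v) = ω v) ∧ E ξ (red ω) then zr b ω * (gm (Sg ex ey ξ) b ω).det else 0

/-- annealed Green function (target, source), unnormalised. -/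
noncomputable def AG (p : Fin T → ℝ) (b : Fin T × Λ → ℝ) (v u : Fin T × Λ) : ℝ :=
  ∑ ω, DL.nv ex ey p b ω * if ω v = none ∧ ω u = none then DL.Ge ex ey p b ω v u else 0

/-- `ξ` is possible and `R` is a union of loops of `ξ`. -/
def Cmp (p : Fin T → ℝ) (ξ : Fin T → Bool) (R : Finset (Fin T × Λ)) : Prop :=
  Pw p ξ ≠ 0 ∧ ∀ v, Sg ex ey ξ v ∈ R ↔ v ∈ R

end meas

/-- **(Bas)** elementary properties of the weights. -/
def BasStmt : Prop :=
  ∀ (Λ : Type) [Fintype Λ] [DecidableEq Λ] (T : ℕ) [NeZero T] (ex ey : Fin T → Λ)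
    (p : Fin T → ℝ), (∀ s, 0 ≤ p s ∧ p s ≤ 1 / 2) →
    let W := fun y : ℝ => WR ex ey p (Top.bt y)
    let Z := fun y : ℝ => DL.Zt ex ey p (Top.bt y)
    (∀ E, Continuous fun y => W y E) ∧ Continuous Z ∧
    (∀ E : (Fin T → Bool) → Finset (Fin T × Λ) → Prop,
      (∀ ξ R, Cmp ex ey p ξ R → E ξ R → R.Nonempty) → W 0 E = 0) ∧
    ∀ y, 0 ≤ y → y < 1 → 1 ≤ Z y ∧ W y (fun _ _ => True) = Z y ∧ (∀ E, 0 ≤ W y E) ∧
      (∀ (ι : Type) (I : Finset ι) (E : (Fin T → Bool) → Finset (Fin T × Λ) → Prop)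
        (E' : ι → (Fin T → Bool) → Finset (Fin T × Λ) → Prop),
        (∀ ξ R, Cmp ex ey p ξ R → E ξ R → ∃ i ∈ I, E' i ξ R) → W y E ≤ ∑ i ∈ I, W y (E' i)) ∧
      (∀ S : Finset (Fin T), W y (fun ξ _ => ∀ s ∈ S, ξ s = true) ≤ (∏ s ∈ S, 6 * p s) * Z y) ∧
      (∀ y', 0 < y' → y' ≤ y → Z y' ≤ Z y ∧ ∀ (N : ℕ) E,
        W y (fun ξ R => E ξ R ∧ n0 R ≤ N) ≤ (y / y') ^ N * W y' E) ∧
      ∀ (X : Finset (Fin T × Λ)) (r : Fin T × Λ → ℝ), (∀ v ∈ X, 0 < r v) →
        (∀ v ∈ X, ∑ u ∈ X, AG ex ey p (Top.bt y) v u ≤ r v * Z y) →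
        W y (fun _ R => X ⊆ R) ≤ (∏ v ∈ X, 2 * Real.exp 1 * r v) * Z y

/-- **(Ann)** the annealed Green function: increasing bad events cost their weight. -/
def AnnStmt : Prop :=
  ∀ (Λ : Type) [Fintype Λ] [DecidableEq Λ] (T : ℕ) [NeZero T] (ex ey : Fin T → Λ)
    (p : Fin T → ℝ) (b : Fin T × Λ → ℝ), (∀ s, 0 ≤ p s ∧ p s ≤ 1) → (∀ v, 0 ≤ b v ∧ b v ≤ 1) →
    (∀ x, b (0, x) < 1) → ∀ (Bad : (Fin T → Bool) → Finset (Fin T × Λ) → Prop),
    (∀ ξ R R', R ⊆ R' → Bad ξ R → Bad ξ R') → ∀ (v u : Fin T × Λ) (γ : ℝ), 0 ≤ γ →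
    (∀ ξ ω, Pw p ξ ≠ 0 → (∀ v, ω (Sg ex ey ξ v) = ω v) → ¬ Bad ξ (red ω) → ω v = none →
      ω u = none → DL.Ge ex ey p b ω v u ≤ γ) →
    AG ex ey p b v u ≤ γ * DL.Zt ex ey p b + WR ex ey p b Bad

/-! ### trees -/

open Classical in
/-- the junk levels generated by the base junk `U1`. -/
noncomputable def Up {L : ℕ} [NeZero L] (P : Scales) (U1 : Finset (Tor 3 L)) :
    ℕ → Finset (Tor 3 L)
  | 0 => ∅
  | 1 => U1
  | m + 2 => univ.filter fun c => ¬ ∃ F : Finset (Tor 3 L), F.card ≤ P.a (m + 1) ∧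
      ∀ y ∈ Up P U1 (m + 1), tdist c y ≤ 4 * P.η (m + 1) → ∃ f ∈ F, tdist f y ≤ P.σ (m + 1)

/-- number of witness trees. -/
def NT (P : Scales) (a : ℕ) : ℕ → ℕ
  | 0 => 1
  | m + 1 => ((8 * P.η (m + 1) + 1) ^ 3 * NT P a m) ^ (a + 1)

/-- hierarchical separation of the leaves of a tree of depth `m`. -/
def Row {L : ℕ} (P : Scales) (a m : ℕ) (Y : Finset (Tor 3 L)) : Prop :=
  (∀ y ∈ Y, ∀ y' ∈ Y, y ≠ y' → P.σ 1 < 2 * tdist y y') ∧
  ∀ y ∈ Y, ∀ (φ : Tor 3 L → ℝ) (γ : ℕ → ℝ), (∀ t, 0 ≤ γ t) →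
    (∀ y' ∈ Y, ∀ t, 1 ≤ t → t ≤ m → P.σ t < 2 * tdist y y' → φ y' ≤ γ t) →
    ∑ y' ∈ Y.erase y, φ y' ≤ ∑ t ∈ Icc 1 m, ((a : ℝ) + 1) ^ t * γ t

/-- **(Tree)** witness trees. -/
def TreeStmt : Prop :=
  ∀ (L : ℕ) [NeZero L] (P : Scales) (a : ℕ), (∀ m, 1 ≤ m → P.a m = a) →
    (∀ m, 32 * P.η m ≤ P.σ (m + 1) ∧ P.σ (m + 1) ≤ P.η (m + 1)) →
    (∀ U1 U1' : Finset (Tor 3 L), U1 ⊆ U1' → ∀ m, Up P U1 m ⊆ Up P U1' m) ∧
    (∀ (U1 : Finset (Tor 3 L)) m, 1 ≤ m → CovAt P (Up P U1) m) ∧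
    ∀ (m : ℕ) (c : Tor 3 L), ∃ 𝒯 : Finset (Finset (Tor 3 L)), 𝒯.card ≤ NT P a m ∧
      (∀ Y ∈ 𝒯, Y.card = (a + 1) ^ m ∧ Row P a m Y) ∧
      ∀ U1, c ∈ Up P U1 (m + 1) → ∃ Y ∈ 𝒯, Y ⊆ U1

/-! ### base junk -/

section base
variable {L n T : ℕ} [NeZero L] [NeZero T] (ex ey : Fin T → Tor 3 L × Fin n)

/-- a chain of `k` active bonds in the time interval `[t, t1)`, starting at the site `z`. -/
def Chn (ξ : Fin T → Bool) (t1 : ℕ) : ℕ → ℕ → Tor 3 L → Prop
  | 0, _, _ => True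
  | k + 1, t, z => ∃ s, t ≤ s ∧ s < t1 ∧ ξ (tm T s) = true ∧ ∃ z', z' ≠ z ∧
      (((ex (tm T s)).1 = z ∧ (ey (tm T s)).1 = z') ∨
        ((ey (tm T s)).1 = z ∧ (ex (tm T s)).1 = z')) ∧ Chn ξ t1 k (s + 1) z'

/-- more than `f` jumps in a double window (`D` steps per window, `B` windows). -/
def Fast (D B f ρ : ℕ) (x : Tor 3 L) (ξ : Fin T → Bool) : Prop :=
  ∃ i < B, ∃ z, tdist x z ≤ ρ ∧ Chn ex ey ξ ((i + 2) * D) (f + 1) (i * D) z

/-- number of points of `R` at step `k` within `A` of `z`. -/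
noncomputable def cntR (R : Finset (Fin T × (Tor 3 L × Fin n))) (k : ℕ) (z : Tor 3 L) (A : ℕ) : ℕ :=
  (univ.filter fun y => (tm T k, y) ∈ R ∧ tdist z y.1 ≤ A).card

/-- clusters of `h` points on the grid slices `i, i + D', …, i + (k - 1) D'`. -/
def Pt (D D' i k h ρ A : ℕ) (x : Tor 3 L) (R : Finset (Fin T × (Tor 3 L × Fin n))) : Prop :=
  ∀ b < k, ∃ z, tdist x z ≤ ρ ∧ h ≤ cntR R ((i + b * D') * D) z A

/-- the clock of a nearest-neighbour word. -/
structure Word (p : Fin T → ℝ) (E w B : ℕ) (θ : ℝ) : Prop where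
  hT : T = B * w * E
  hB : 2 ≤ B
  hp : ∀ s, 0 ≤ p s ∧ p s ≤ 1 / 2
  nn : ∀ s, tdist (ex s).1 (ey s).1 ≤ 1
  few : ∀ z, (univ.filter fun s => (ex s).1 = z ∧ (ey s).1 = z ∧ p s ≠ 0).card ≤ n ^ 2
  rate : ∀ i z, ∑ a ∈ range E, (if (ex (tm T (i * E + a))).1 ≠ (ey (tm T (i * E + a))).1 ∧
    ((ex (tm T (i * E + a))).1 = z ∨ (ey (tm T (i * E + a))).1 = z)
      then p (tm T (i * E + a)) else 0) ≤ θ

end base

/-- **(Fast)** fast chains are covered by a light family of sets of coins. -/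
def FastStmt : Prop :=
  ∀ (L n T : ℕ) [NeZero L] [NeZero T] (ex ey : Fin T → Tor 3 L × Fin n) (p : Fin T → ℝ)
    (E w B : ℕ) (θ : ℝ), Word ex ey p E w B θ → 40 * θ ≤ 1 → ∀ (f ρ : ℕ) (x : Tor 3 L),
    ∃ 𝒮 : Finset (Finset (Fin T)), (∀ S ∈ 𝒮, ∀ s ∈ S, tdist x (ex s).1 ≤ ρ + f + 2) ∧
      ∑ S ∈ 𝒮, ∏ s ∈ S, 6 * p s ≤ B * (2 * (ρ : ℝ) + 1) ^ 3 * Real.exp (80 * θ * w - f) ∧
      ∀ ξ, Fast ex ey (w * E) B f ρ x ξ → ∃ S ∈ 𝒮, ∀ s ∈ S, ξ s = true

/-- **(Det)** without fast chains everything is read on the grid slices. -/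
def DetStmt : Prop :=
  ∀ (L n T : ℕ) [NeZero L] [NeZero T] (ex ey : Fin T → Tor 3 L × Fin n) (p0 : Fin T → ℝ)
    (E w B : ℕ) (θ : ℝ), Word ex ey p0 E w B θ →
    ∀ (ξ : Fin T → Bool) (R : Finset (Fin T × (Tor 3 L × Fin n))), Cmp ex ey p0 ξ R →
    ∀ (f ρ : ℕ) (c : Tor 3 L), ¬ Fast ex ey (w * E) B f ρ c ξ →
      (∀ (i k A : ℕ) (z : Tor 3 L), i * (w * E) ≤ k → k ≤ (i + 2) * (w * E) →
        tdist c z + A + f + 1 ≤ ρ → cntR R k z A ≤ cntR R (i % B * (w * E)) z (A + f)) ∧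
      ∀ (m0 j r : ℕ) (x : Tor 3 L) (p : Fin T → ℝ) (R' : Finset (Fin T × (Tor 3 L × Fin n))),
        (∀ i < B, cntR R (i * (w * E)) c ρ ≤ m0) → tdist c x + r + f + 2 ≤ ρ →
        m0 * (f + 1) * (n ^ 2 + 1) + 1 ≤ j → R' ⊆ R →
        (∀ s y, Ch ex ey p R' s y → s + 1 = 0 ∨
          (ξ s = true ∧ (y = ex s ∨ y = ey s) ∧ ((s, ex s) ∈ R ∨ (s, ey s) ∈ R))) →
        Leaf ex ey p R' (w * E) m0 j r x

/-- **(Pt)** the point families. -/
def PtStmt : Prop :=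
  ∀ (L n T : ℕ) [NeZero L] [NeZero T] (D B D' i k h ρ A : ℕ) (x : Tor 3 L), T = B * D → 1 ≤ D' →
    2 * (k * D') ≤ B →
    ∃ 𝒳 : Finset (Finset (Fin T × (Tor 3 L × Fin n))),
      𝒳.card ≤ ((2 * ρ + 1) ^ 3 * (n * (2 * A + 1) ^ 3) ^ h) ^ k ∧
      (∀ X ∈ 𝒳, X.card = h * k ∧ ∀ v ∈ X, tdist x v.2.1 ≤ ρ + A ∧ D ∣ v.1.val ∧
        ∀ u ∈ X, D' * D ≤ lag u.1 v.1 ∧ (k = 1 → u.1 = v.1)) ∧
      ∀ R, Pt D D' i k h ρ A x R → ∃ X ∈ 𝒳, X ⊆ R

/-- **(Gen)** many generic tuples in a dense set, and the continuity argument. -/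
def GenStmt : Prop :=
  (∀ (L n : ℕ) [NeZero L] (k d N : ℕ) (S : Finset (Tor 3 L × Fin n)), 2 * N ≤ S.card →
    k * (n * (2 * d + 1) ^ 3) ≤ N →
    N ^ k ≤ (univ.filter fun f : Fin k → Tor 3 L × Fin n =>
      (∀ a b, a ≠ b → d < tdist (f a).1 (f b).1) ∧ ∀ a, f a ∈ S).card) ∧
  ∀ (ι : Type) [Fintype ι] (φ : ι → ℝ → ℝ) (y0 : ℝ), (∀ i, ContinuousOn (φ i) (Set.Icc 0 y0)) →
    (∀ i, φ i 0 ≤ 1) →
    (∀ y, 0 < y → y ≤ y0 → (∀ y', 0 ≤ y' → y' ≤ y → ∀ i, φ i y' ≤ 2) → ∀ i, φ i y ≤ 1) →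
    ∀ y, 0 ≤ y → y ≤ y0 → ∀ i, φ i y ≤ 1

end Crest.Agent.N337.RR
private theorem rz_9cedc89bde : type_of% @_root_.Crest.Agent.N337.RR.NT.eq_def := @_root_.Crest.Agent.N337.RR.NT.eq_def -- L85
private theorem rz_451cd751b3 : type_of% @_root_.Crest.Agent.N337.RR.NT.eq_1 := @_root_.Crest.Agent.N337.RR.NT.eq_1 -- L85
private theorem rz_845df4e40a : type_of% @_root_.Crest.Agent.N337.RR.Up.eq_def := @_root_.Crest.Agent.N337.RR.Up.eq_def -- L77
private theorem rz_690efeaeae : type_of% @_root_.Crest.Agent.N337.RR.Up.eq_1 := @_root_.Crest.Agent.N337.RR.Up.eq_1 -- L77
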