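import Crest.Agent.N337.R.Cfg
import Crest.Agent.N337.Top.BDefs
import Crest.Agent.N337.R.Core1
import Crest.Agent.N337.R.Defs
import Crest.Agent.N337.R.Fld
import Crest.Agent.N337.R.Word
import Crest.Agent.N337.R.Ann_Mg
import Crest.Agent.N337.R.Tree
import Crest.Agent.N337.R.Fast
import Crest.Agent.N337.R.Pt
import Crest.Agent.N337.Top.BArc

-- ▼ part N337/R/Itf
section

/-!
# Row 337, RARE (helper4): the two statements that depend on the interface of G1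
-/

set_option autoImplicit false

namespace Crest.Agent.N337.RR

open Finset Filter Crest.MathPhysics.SpinModel G1

/-- **(Good)** the junk sets are good as soon as the top level is empty. -/
def GoodStmt : Prop :=
  ∀ n : ℕ, ∀ᶠ g : ℕ in atTop, ∀ (L T : ℕ) [NeZero L] [NeZero T]
    (ex ey : Fin T → Tor 3 L × Fin n) (p0 : Fin T → ℝ) (E w B mt : ℕ) (θ : ℝ),
    Word ex ey p0 E w B θ → (scl g mt).Ok L → ∀ ξ R, Cmp ex ey p0 ξ R →
    UU ex ey (par g mt L E w B) ξ R mt = ∅ →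
    ZM.Good ex ey p0 E w (scl g mt) (g ^ 2) A6 (25000 * g ^ 18) (g ^ 22) ξ R
      (UU ex ey (par g mt L E w B) ξ R)

/-- **(GB)** the quenched Green bounds. -/
def GBStmt : Prop :=
  ∀ n : ℕ, ∃ C : ℝ, 1 ≤ C ∧ ∀ᶠ g : ℕ in atTop, ∀ (L T : ℕ) [NeZero L] [NeZero T]
    (ex ey : Fin T → Tor 3 L × Fin n) (p : Fin T → ℝ) (E w B mt : ℕ) (κ u0 e q : ℝ)
    (Bd : Finset ℕ), g ^ 400 ≤ B → B ≤ g ^ 401 → 2 ≤ mt → (scl g mt).η (mt - 1) ^ 10 ≤ L →
    let Q := par g mt L E w B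
    let S := rpar n g mt L w B C κ u0 e
    1 / 2 ≤ S.y0 → S.y0 < 1 → Word ex ey p E w B S.θ →
    (∀ y : ℝ, 1 / 2 ≤ y → y ≤ 1 →
      Clock ex ey p (fun s => if s = 0 then y else 1) E w B q (8 * n ^ 2) Bd ∧
      Pers ex ey p (fun s => if s = 0 then y else 1) E w (8 * n ^ 2)) →
    2 * (Bd.card + L ^ 3 * g ^ 2 + 1) ≤ w → err q S.y0 L n B ≤ e → GB ex ey p Q S

end Crest.Agent.N337.RR
end

-- ▼ part N337/R/Core
section

/-!
# Row 337, RARE (helper4): the core theorem (trees, tilt, continuity in the fugacity)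
-/

set_option autoImplicit false
set_option linter.unusedSectionVars false

namespace Crest.Agent.N337.RR

open Finset Equiv Crest.MathPhysics.SpinModel Crest.Agent.N337.Rep Free KV G1

variable {L n T : ℕ} [NeZero L] [NeZero T] {ex ey : Fin T → Tor 3 L × Fin n} {p : Fin T → ℝ}
  {Q : Par} {S : RPar} (C : Ctx ex ey p Q S)
include C

theorem Ctx.σ_mono {t : ℕ} (ht : 1 ≤ t) : Q.P.σ 1 ≤ Q.P.σ t := by
  induction t, ht using Nat.le_induction with
  | base => exact le_rfl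
  | succ t ht ih =>
    obtain ⟨t, rfl⟩ := Nat.exists_eq_add_of_le' ht
    have h1 := (C.N.hs t).2
    have h2 := (C.N.hs (t + 1)).1
    omega

theorem Ctx.cS_pos : 0 < S.cS := by
  have := C.N.cS; have := C.N.nn.2.1; have := C.N.nn.2.2.2.1 1; have := C.N.nn.2.2.2.2.2.1
  have : 0 ≤ Q.D' * S.π6 := mul_nonneg (Nat.cast_nonneg _) C.π6_nonneg
  linarith

theorem Ctx.cF_nonneg : 0 ≤ S.cF := by
  refine le_trans (add_nonneg (mul_nonneg (Nat.cast_nonneg _) (sum_nonneg fun t _ => ?_))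
    C.N.nn.2.2.2.2.2.2) C.N.cF
  have := C.N.nn.2.2.1 t; have := C.N.nn.2.2.2.1 t
  positivity

/-- the row sum of a base witness. -/
noncomputable def rr (Q : Par) (S : RPar) (b : Bool) : ℝ :=
  if b then (Q.P.a 0 + 1) * S.c1 else 6 * Q.k * S.cS

theorem Ctx.rr_pos (b : Bool) : 0 < rr Q S b := by
  have := C.c1_pos; have := C.cS_pos
  have : (0 : ℝ) < Q.k := by exact_mod_cast C.N.hk
  unfold rr; split_ifs <;> positivity

/-- the point families of one cell. -/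
theorem Ctx.fam (c : Tor 3 L) : ∃ 𝒜 : Finset (Finset (Fin T × (Tor 3 L × Fin n)) × Bool),
    (∀ A ∈ 𝒜, A.1.Nonempty ∧ A.1.card ≤ Q.k0 ∧ ∀ v ∈ A.1, tdist c v.2.1 ≤ Q.ρ + Q.A ∧
      ∀ y, 0 < y → y ≤ S.y0 → Rare ex ey p Q S 2 y →
        ∑ u ∈ A.1, AG ex ey p (Top.bt y) v u ≤ rr Q S A.2 * DL.Zt ex ey p (Top.bt y)) ∧
    ∑ A ∈ 𝒜, (2 * Real.exp 3 * (rr Q S A.2 + S.cF)) ^ A.1.card ≤ S.ε ^ 2 ∧
    ∀ R, PtEv Q c R → ∃ A ∈ 𝒜, A.1 ⊆ R := by
  classical
  have hT : T = Q.B * Q.D := by rw [C.W.hT, mul_assoc]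
  have hB' : 2 * (1 * Q.D') ≤ Q.B :=
    le_trans (Nat.mul_le_mul_left 2 (Nat.mul_le_mul_right _ C.N.hk)) C.N.hB
  choose X1 a1 a2 a3 using fun i => C.pt L n T Q.D Q.B Q.D' i 1 (Q.P.a 0 + 1) 0 Q.ρ c hT C.N.hD hB'
  choose X3 b1 b2 b3 using fun i => C.pt L n T Q.D Q.B Q.D' i Q.k 6 Q.ρ Q.A c hT C.N.hD C.N.hB
  have hk := C.N.hk
  refine ⟨((range Q.B).biUnion X1).image (fun X => (X, true)) ∪
    ((range Q.B).biUnion X3).image (fun X => (X, false)), fun A hA => ?_, ?_, fun R h => ?_⟩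
  · simp only [mem_union, mem_image, mem_biUnion] at hA
    rcases hA with ⟨X, ⟨i, -, hX⟩, rfl⟩ | ⟨X, ⟨i, -, hX⟩, rfl⟩
    · have := a2 i X hX
      refine ⟨card_pos.1 (by rw [this.1]; omega), by rw [this.1, Par.k0]; omega,
        fun v hv => ⟨by have := (this.2 v hv).1; omega, fun y h0 hy H => ?_⟩⟩
      refine (sum_le_sum fun u hu => C.same h0 hy H (((this.2 v hv).2.2 u hu).2 rfl)).trans ?_
      rw [sum_const, this.1, nsmul_eq_mul]
      exact le_of_eq (by simp only [rr]; push_cast; ring)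
    · have := b2 i X hX
      refine ⟨card_pos.1 (by rw [this.1]; omega), by rw [this.1, Par.k0]; omega,
        fun v hv => ⟨(this.2 v hv).1, fun y h0 hy H => ?_⟩⟩
      refine (sum_le_sum fun u hu => C.short h0 hy H (this.2 v hv).2.1
        ((this.2 v hv).2.2 u hu).1).trans ?_
      rw [sum_const, this.1, nsmul_eq_mul]
      exact le_of_eq (by simp only [rr]; push_cast; ring)
  · have hp : ∀ b, 0 ≤ 2 * Real.exp 3 * (rr Q S b + S.cF) := fun b => by
      have := C.rr_pos b; have := C.cF_nonneg; positivity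
    have key : ∀ (b : Bool) (X : ℕ → Finset (Finset (Fin T × (Tor 3 L × Fin n)))) (M j : ℕ),
        (∀ i, (X i).card ≤ M) → (∀ i, ∀ Y ∈ X i, Y.card = j) →
        ∑ A ∈ ((range Q.B).biUnion X).image (fun X => (X, b)),
          (2 * Real.exp 3 * (rr Q S A.2 + S.cF)) ^ A.1.card ≤
            Q.B * (M * (2 * Real.exp 3 * (rr Q S b + S.cF)) ^ j) := fun b X M j h1 h2 => by
      rw [sum_image fun _ _ _ _ h => (Prod.mk.inj h).1]
      have : ∀ Y ∈ (range Q.B).biUnion X, (2 * Real.exp 3 * (rr Q S b + S.cF)) ^ Y.card =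
          (2 * Real.exp 3 * (rr Q S b + S.cF)) ^ j := fun Y hY => by
        obtain ⟨i, -, hi⟩ := mem_biUnion.1 hY
        rw [h2 i Y hi]
      rw [sum_congr rfl this, sum_const, nsmul_eq_mul, ← mul_assoc]
      refine mul_le_mul_of_nonneg_right ?_ (pow_nonneg (hp b) _)
      have := card_biUnion_le_card_mul (range Q.B) X M fun i _ => h1 i
      rw [card_range] at this
      exact_mod_cast this
    refine ((le_add_of_nonneg_right (sum_nonneg fun A _ => pow_nonneg (hp _) _)).trans_eq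
      sum_union_inter).trans
      ((add_le_add (key true X1 _ _ a1 fun i Y h => (a2 i Y h).1)
        (key false X3 _ _ b1 fun i Y h => (b2 i Y h).1)).trans (le_trans (le_of_eq ?_) C.N.eP))
    simp only [rr]
    push_cast
    simp only [mul_pow, ← pow_mul]
    ring
  · rcases h with ⟨i, hi, h⟩ | ⟨i, hi, h⟩
    · obtain ⟨X, h1, h2⟩ := a3 i R h
      exact ⟨(X, true), mem_union_left _ (mem_image_of_mem _
        (mem_biUnion.2 ⟨i, mem_range.2 hi, h1⟩)), h2⟩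
    · obtain ⟨X, h1, h2⟩ := b3 i R h
      exact ⟨(X, false), mem_union_right _ (mem_image_of_mem _
        (mem_biUnion.2 ⟨i, mem_range.2 hi, h1⟩)), h2⟩

/-- fast chains at separated cells. -/
theorem Ctx.fasts {y : ℝ} (h0 : 0 ≤ y) (hy : y ≤ S.y0) {Y : Finset (Tor 3 L)}
    (hY : ∀ c ∈ Y, ∀ c' ∈ Y, c ≠ c' → Q.P.σ 1 < 2 * tdist c c') :
    WR ex ey p (Top.bt y) (fun ξ _ => ∀ c ∈ Y, Fast ex ey Q.D Q.B Q.f Q.ρ c ξ) ≤
      (S.ε ^ 2) ^ Y.card * DL.Zt ex ey p (Top.bt y) := by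
  classical
  choose 𝒮 a1 a2 a3 using fun c => C.fast L n T ex ey p _ _ _ _ C.W C.N.hθ Q.f Q.ρ c
  have hB := ((C.bas _ T ex ey p C.W.hp).2.2.2 y h0 (C.lt hy)).2.2.2.2.1
  refine (WR_pi C.W.hp1 (bt_mem h0 (C.lt hy)) (fun c : Y => 𝒮 c)
    (E' := fun g ξ _ => ∀ s ∈ univ.biUnion g, ξ s = true) (fun S => ∏ s ∈ S, 6 * p s)
    (Z := DL.Zt ex ey p (Top.bt y)) (fun ξ _ _ h => ?_) fun g hg => ?_).trans
    (mul_le_mul_of_nonneg_right ?_ (C.Zpos h0).le)
  · choose g h1 h2 using fun c : Y => a3 c ξ (h c c.2)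
    refine ⟨g, h1, fun s hs => ?_⟩
    obtain ⟨c, -, hc⟩ := mem_biUnion.1 hs
    exact h2 c s hc
  · rw [← prod_biUnion]
    · exact hB _
    intro c _ c' _ hne
    refine disjoint_left.2 fun s h1 h2 => ?_
    have e1 := a1 c _ (hg c) s h1
    have e2 := a1 c' _ (hg c') s h2
    have e3 := hY c c.2 c' c'.2 fun h => hne (Subtype.ext h)
    have e4 := tdist_triangle c.1 (ex s).1 c'.1
    rw [tdist_comm (ex s).1] at e4
    have := C.N.sep
    omega
  · rw [← Fintype.card_coe Y, ← card_univ, ← prod_const]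
    refine prod_le_prod (fun c _ => sum_nonneg fun S _ => prod_nonneg fun s _ => ?_)
      fun c _ => (a2 c).trans C.N.eF
    have := (C.W.hp s).1
    positivity

/-- red witnesses at separated cells. -/
theorem Ctx.pts {y : ℝ} (h0 : 0 ≤ y) (hy : y ≤ S.y0)
    (H : ∀ y', 0 < y' → y' ≤ y → Rare ex ey p Q S 2 y') {m : ℕ} (hm : m < Q.P.mt)
    {Y Y' : Finset (Tor 3 L)} (hY : Row Q.P Q.a m Y) (hc : Y.card = (Q.a + 1) ^ m) (hY' : Y' ⊆ Y) :
    WR ex ey p (Top.bt y) (fun _ R => (∀ c ∈ Y', PtEv Q c R) ∧ n0 R ≤ 2 * Q.N) ≤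
      (S.ε ^ 2) ^ Y'.card * DL.Zt ex ey p (Top.bt y) := by
  classical
  choose 𝒜 a1 a2 a3 using C.fam
  have hB := C.bas _ T ex ey p C.W.hp
  dsimp only at hB
  have hF := C.cF_nonneg
  have hZ := C.Zpos h0
  refine (WR_pi C.W.hp1 (bt_mem h0 (C.lt hy)) (fun c : Y' => 𝒜 c)
    (E' := fun g _ R => univ.biUnion (fun c => (g c).1) ⊆ R ∧ n0 R ≤ 2 * Q.N)
    (fun A => (2 * Real.exp 3 * (rr Q S A.2 + S.cF)) ^ A.1.card)
    (Z := DL.Zt ex ey p (Top.bt y)) (fun ξ R _ h => ?_) fun g hg => ?_).trans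
    (mul_le_mul_of_nonneg_right ?_ hZ.le)
  · choose g h1 h2 using fun c : Y' => a3 c R (h.1 c c.2)
    exact ⟨g, h1, biUnion_subset.2 fun c _ => h2 c, h.2⟩
  swap
  · rw [← Fintype.card_coe Y', ← card_univ, ← prod_const]
    refine prod_le_prod (fun c _ => sum_nonneg fun A _ => ?_) fun c _ => a2 c
    have := C.rr_pos A.2
    positivity
  set X := univ.biUnion fun c => (g c).1 with hX
  have hpos : ∀ c, 0 < 2 * Real.exp 3 * (rr Q S (g c).2 + S.cF) := fun c => by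
    have := C.rr_pos (g c).2
    positivity
  -- distances
  have dist : ∀ (c c' : Y') (t : ℕ), 1 ≤ t → Q.P.σ t < 2 * tdist c.1 c'.1 → ∀ v ∈ (g c).1,
      ∀ u ∈ (g c').1, Q.P.σ t < 4 * tdist u.2.1 v.2.1 := fun c c' t ht h v hv u hu => by
    have e1 := ((a1 c _ (hg c)).2.2 v hv).1
    have e2 := ((a1 c' _ (hg c')).2.2 u hu).1
    have e3 := tdist_triangle c.1 v.2.1 c'.1
    have e4 := tdist_triangle v.2.1 u.2.1 c'.1
    rw [tdist_comm u.2.1 c'.1, tdist_comm v.2.1 u.2.1] at e4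
    have := C.N.sep
    have := C.σ_mono ht
    omega
  have disj : ((univ : Finset Y') : Set Y').PairwiseDisjoint fun c => (g c).1 := by
    intro c _ c' _ hne
    refine disjoint_left.2 fun v h1 h2 => ?_
    have := dist c c' 1 le_rfl (hY.1 c (hY' c.2) c' (hY' c'.2) fun h => hne (Subtype.ext h))
      v h1 v h2
    rw [tdist_self] at this
    omega
  rcases h0.eq_or_lt with rfl | h0'
  · by_cases hne : Y'.Nonempty
    · rw [hB.2.2.1 _ fun ξ R _ h => ?_]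
      · exact mul_nonneg (prod_nonneg fun c _ => (pow_pos (hpos c) _).le) hZ.le
      · obtain ⟨c, hc⟩ := hne
        obtain ⟨v, hv⟩ := (a1 c _ (hg ⟨c, hc⟩)).1
        exact ⟨v, h.1 (mem_biUnion.2 ⟨⟨c, hc⟩, mem_univ _, hv⟩)⟩
    · have : IsEmpty Y' := ⟨fun c => hne ⟨c, c.2⟩⟩
      rw [univ_eq_empty, prod_empty, one_mul, ← (hB.2.2.2 0 le_rfl one_pos).2.1]
      exact WR_mono C.W.hp1 (bt_mem le_rfl one_pos) fun _ _ _ _ => trivial
  have hN : (0 : ℝ) < Q.N := by exact_mod_cast C.N.hN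
  set k := X.card with hk
  have hkc : k = ∑ c, (g c).1.card := card_biUnion disj
  have hkl : k ≤ Q.k0 * (Q.a + 1) ^ Q.P.mt := by
    rw [hkc]
    refine (sum_le_sum fun (c : Y') _ => (a1 c _ (hg c)).2.1).trans ?_
    rw [sum_const, card_univ, Fintype.card_coe, smul_eq_mul, mul_comm]
    exact Nat.mul_le_mul_left _ ((card_le_card hY').trans
      (hc ▸ Nat.pow_le_pow_right (Nat.succ_pos _) hm.le))
  set y' := min y (Real.exp (-(k / Q.N))) with hy'
  have p0 : 0 < y' := lt_min h0' (Real.exp_pos _)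
  have p1 : y' ≤ y := min_le_left _ _
  have p2 : y' ≤ S.y0 := p1.trans hy
  have H' := H y' p0 p1
  have hZ' := C.Zpos p0.le
  obtain ⟨t1, t2⟩ := (hB.2.2.2 y h0 (C.lt hy)).2.2.2.2.2.1 y' p0 p1
  have tilt : (y / y') ^ (2 * Q.N) ≤ Real.exp 2 ^ k := by
    have : y / y' ≤ Real.exp (k / Q.N) := by
      rw [div_le_iff₀ p0]
      rcases le_total y (Real.exp (-(k / Q.N))) with h | h
      · rw [hy', min_eq_left h]
        exact le_mul_of_one_le_left h0 (Real.one_le_exp (by positivity))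
      · rw [hy', min_eq_right h, ← Real.exp_add, add_neg_cancel, Real.exp_zero]
        exact (C.lt hy).le
    refine (pow_le_pow_left₀ (by positivity) this _).trans (le_of_eq ?_)
    rw [← Real.exp_nat_mul, ← Real.exp_nat_mul]
    congr 1; push_cast; field_simp
  set r : Fin T × (Tor 3 L × Fin n) → ℝ :=
    fun v => ∑ c, if v ∈ (g c).1 then rr Q S (g c).2 + S.cF else 0 with hr
  have r_eq : ∀ c, ∀ v ∈ (g c).1, r v = rr Q S (g c).2 + S.cF := fun c v hv => by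
    rw [hr]
    refine (sum_eq_single c (fun c' _ hne => if_neg fun h => ?_) (by simp)).trans (if_pos hv)
    exact disjoint_left.1 (disj (mem_coe.2 (mem_univ c')) (mem_coe.2 (mem_univ c)) hne) h hv
  have main := (hB.2.2.2 y' p0.le (C.lt p2)).2.2.2.2.2.2 X r (fun v hv => by
    obtain ⟨c, -, hc⟩ := mem_biUnion.1 hv
    rw [r_eq c v hc]
    have := C.rr_pos (g c).2
    positivity) fun v hv => by
    obtain ⟨c, -, hc⟩ := mem_biUnion.1 hv
    set Z' := DL.Zt ex ey p (Top.bt y')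
    set ν := S.μ y' + 2 * S.δ y'
    have hν : 0 ≤ ν := by
      have := C.N.nn.2.2.2.2.1 y'; have := C.N.δ0 y' p0.le p2; positivity
    rw [r_eq c v hc, hX, sum_biUnion disj, ← add_sum_erase _ _ (mem_univ c), add_mul]
    refine add_le_add (((a1 c _ (hg c)).2.2 v hc).2 y' p0 p2 H') ?_
    have row := hY.2 c (hY' c.2) (fun c' => if h : c' ∈ Y' then
      ∑ u ∈ (g ⟨c', h⟩).1, (AG ex ey p (Top.bt y') v u - ν * Z') else 0)
      (fun t => Q.k0 * (S.γD t + S.τ t) * Z') (fun t => by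
        have := C.N.nn.2.2.1 t; have := C.N.nn.2.2.2.1 t; positivity) fun c' _ t h1 h2 h3 => by
      have := C.N.nn.2.2.1 t; have := C.N.nn.2.2.2.1 t
      split_ifs with h
      · refine (sum_le_sum (g := fun _ => (S.γD t + S.τ t) * Z') fun u hu => ?_).trans ?_
        · have e1 := dist c ⟨c', h⟩ t h1 h3 v hc u hu
          have := C.far p0 p2 H' h1 (h2.trans_lt hm) (v := v) (u := u) (by omega)
          linarith
        · rw [sum_const, nsmul_eq_mul, mul_assoc]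
          exact mul_le_mul_of_nonneg_right (by exact_mod_cast (a1 c' _ (hg ⟨c', h⟩)).2.1)
            (by positivity)
      · positivity
    have e1 : ∑ c' ∈ univ.erase c, ∑ u ∈ (g c').1, (AG ex ey p (Top.bt y') v u - ν * Z') =
        ∑ c' ∈ Y.erase c.1, if h : c' ∈ Y' then
          ∑ u ∈ (g ⟨c', h⟩).1, (AG ex ey p (Top.bt y') v u - ν * Z') else 0 := by
      symm
      refine sum_bij_ne_zero (fun c' _ h => ⟨c', by by_contra h'; exact h (dif_neg h')⟩)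
        (fun c' h1 h2 => ?_) (fun _ _ _ _ _ _ h => congrArg Subtype.val h) (fun c' h1 h2 => ?_)
        fun c' h1 h2 => ?_
      · exact mem_erase.2 ⟨fun h => (mem_erase.1 h1).1 (congrArg Subtype.val h), mem_univ _⟩
      · exact ⟨c'.1, mem_erase.2 ⟨fun h => (mem_erase.1 h1).1 (Subtype.ext h), hY' c'.2⟩,
          by rw [dif_pos c'.2]; exact h2, rfl⟩
      · exact dif_pos _
    have e2 : ∑ c' ∈ univ.erase c, ∑ u ∈ (g c').1, ν * Z' ≤ S.c3 * Z' := by
      refine le_trans ?_ (mul_le_mul_of_nonneg_right (C.N.h2 y' p0 p2 k hkl (min_le_right _ _))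
        hZ'.le)
      simp only [sum_const, nsmul_eq_mul]
      rw [← sum_mul, mul_assoc]
      refine mul_le_mul_of_nonneg_right ?_ (by positivity)
      rw [hkc]; push_cast
      exact sum_le_sum_of_subset_of_nonneg (erase_subset _ _) fun _ _ _ => Nat.cast_nonneg _
    have e3 : ∑ t ∈ Icc 1 m, ((Q.a : ℝ) + 1) ^ t * (Q.k0 * (S.γD t + S.τ t) * Z') ≤
        Q.k0 * (∑ t ∈ Icc 1 (Q.P.mt - 1), ((Q.a : ℝ) + 1) ^ t * (S.γD t + S.τ t)) * Z' := by
      rw [mul_sum, sum_mul]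
      refine le_trans (le_of_eq (sum_congr rfl fun t _ => by ring))
        (sum_le_sum_of_subset_of_nonneg (Icc_subset_Icc_right (by omega)) fun t _ _ => ?_)
      have := C.N.nn.2.2.1 t; have := C.N.nn.2.2.2.1 t; positivity
    have e4 := mul_le_mul_of_nonneg_right C.N.cF hZ'.le
    simp only [sum_sub_distrib] at e1 row
    linarith
  refine (t2 _ _).trans ((mul_le_mul tilt main ((hB.2.2.2 y' p0.le (C.lt p2)).2.2.1 _)
    (by positivity)).trans ?_)
  rw [← mul_assoc]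
  refine mul_le_mul (le_of_eq ?_) t1 hZ'.le (prod_nonneg fun c _ => (pow_pos (hpos c) _).le)
  rw [hkc, ← prod_pow_eq_pow_sum, hX, prod_biUnion disj, ← prod_mul_distrib]
  refine prod_congr rfl fun c _ => ?_
  rw [prod_congr rfl fun v hv => by rw [r_eq c v hv], prod_const, ← mul_pow]
  congr 1
  rw [show (3 : ℝ) = 2 + 1 by norm_num, Real.exp_add]; ring

/-- the junk levels. -/
theorem Ctx.level {y : ℝ} (h0 : 0 ≤ y) (hy : y ≤ S.y0)
    (H : ∀ y', 0 < y' → y' ≤ y → Rare ex ey p Q S 2 y') {m : ℕ} (hm : m < Q.P.mt) (x : Tor 3 L) :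
    WR ex ey p (Top.bt y) (fun ξ R => x ∈ UU ex ey Q ξ R (m + 1) ∧ n0 R ≤ 2 * Q.N) ≤
      S.pm (m + 1) * DL.Zt ex ey p (Top.bt y) := by
  classical
  have hb := bt_mem (T := T) (Λ := Tor 3 L × Fin n) h0 (C.lt hy)
  have hZ := (C.Zpos h0).le
  have hε := C.N.hε
  obtain ⟨𝒯, a1, a2, a3⟩ := (C.tree L Q.P Q.a C.N.ha C.N.hs).2.2 m x
  refine (WR_union C.W.hp1 hb 𝒯 (E' := fun Y ξ R => Y ⊆ U1 ex ey Q ξ R ∧ n0 R ≤ 2 * Q.N)
    fun ξ R _ h => ?_).trans ((sum_le_sum (g := fun _ => (2 * S.ε) ^ (Q.a + 1) ^ m *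
      DL.Zt ex ey p (Top.bt y)) fun Y hY => ?_).trans ?_)
  · obtain ⟨Y, h1, h2⟩ := a3 _ h.1
    exact ⟨Y, h1, h2, h.2⟩
  · obtain ⟨b1, b2⟩ := a2 Y hY
    refine (WR_union C.W.hp1 hb Y.powerset (E' := fun Y' ξ R => ((∀ c ∈ Y', PtEv Q c R) ∧
      n0 R ≤ 2 * Q.N) ∧ ∀ c ∈ Y \ Y', Fast ex ey Q.D Q.B Q.f Q.ρ c ξ) fun ξ R _ h => ?_).trans
      ((sum_le_sum (g := fun _ => S.ε ^ Y.card * DL.Zt ex ey p (Top.bt y)) fun Y' hY' => ?_).trans
        (le_of_eq ?_))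
    · refine ⟨Y.filter fun c => PtEv Q c R, mem_powerset.2 (filter_subset _ _),
        ⟨fun c hc => (mem_filter.1 hc).2, h.2⟩, fun c hc => ?_⟩
      have h1 := mem_sdiff.1 hc
      exact (mem_filter.1 (h.1 h1.1)).2.resolve_right fun h' => h1.2 (mem_filter.2 ⟨h1.1, h'⟩)
    · have hs := mem_powerset.1 hY'
      have hcard := card_sdiff_add_card_eq_card hs
      rcases le_total Y.card (2 * Y'.card) with h | h
      · refine (WR_mono C.W.hp1 hb fun _ _ _ h => h.1).trans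
          ((C.pts h0 hy H hm b2 b1 hs).trans (mul_le_mul_of_nonneg_right ?_ hZ))
        rw [← pow_mul]
        exact pow_le_pow_of_le_one hε.1.le hε.2 h
      · refine (WR_mono C.W.hp1 hb fun _ _ _ h => h.2).trans ((C.fasts h0 hy (Y := Y \ Y')
          fun c hc c' hc' => b2.1 c (mem_sdiff.1 hc).1 c' (mem_sdiff.1 hc').1).trans
          (mul_le_mul_of_nonneg_right ?_ hZ))
        rw [← pow_mul]
        exact pow_le_pow_of_le_one hε.1.le hε.2 (by omega)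
    · rw [sum_const, card_powerset, nsmul_eq_mul, b1, mul_pow]; push_cast; ring
  · rw [sum_const, nsmul_eq_mul, ← mul_assoc]
    refine mul_le_mul_of_nonneg_right (le_trans ?_ (C.N.tree m hm)) hZ
    exact mul_le_mul_of_nonneg_right (by exact_mod_cast a1) (by have := hε.1; positivity)

/-- the density of the red set. -/
theorem Ctx.dense {y : ℝ} (h0 : 0 < y) (hy : y ≤ S.y0) (H : Rare ex ey p Q S 2 y) :
    WR ex ey p (Top.bt y) (fun _ R => 2 * Q.N < n0 R) ≤ S.δ y * DL.Zt ex ey p (Top.bt y) := by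
  classical
  have hb := bt_mem (T := T) (Λ := Tor 3 L × Fin n) h0.le (C.lt hy)
  have hZ := C.Zpos h0.le
  obtain ⟨k, a1, a2, a3⟩ := C.N.h3 y h0 hy
  have hmt := C.N.mt
  set t := Q.P.mt - 1
  set d := Q.P.σ t / 4
  set r := S.c1 + k * (S.γD t + S.τ t + (S.μ y + 2 * S.δ y)) with hr
  have g0 : 0 ≤ S.γD t + S.τ t + (S.μ y + 2 * S.δ y) := by
    have := C.N.nn.2.2.1 t; have := C.N.nn.2.2.2.1 t
    have := C.N.nn.2.2.2.2.1 y; have := C.N.δ0 y h0.le hy; positivity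
  have r0 : 0 < r := by have := C.c1_pos; positivity
  set I := univ.filter fun f : Fin k → Tor 3 L × Fin n => ∀ a b, a ≠ b → d < tdist (f a).1 (f b).1
  have e1 := WR_markov C.W.hp1 hb I (ex := ex) (ey := ey) (E := fun _ R => 2 * Q.N < n0 R)
    (E' := fun f _ R => univ.image (fun a => ((0 : Fin T), f a)) ⊆ R) (M := Q.N ^ k)
    fun ξ R _ h => (C.gen.1 L n k d Q.N _ h.le a2).trans (card_le_card fun f hf => by
      simp only [I, mem_filter, mem_univ, true_and] at hf ⊢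
      exact ⟨hf.1, image_subset_iff.2 fun a _ => hf.2 a⟩)
  have e2 : ∀ f ∈ I, WR ex ey p (Top.bt y) (fun _ R => univ.image (fun a => ((0 : Fin T), f a)) ⊆ R) ≤
      (2 * Real.exp 1 * r) ^ k * DL.Zt ex ey p (Top.bt y) := fun f hf => by
    have hf' := (mem_filter.1 hf).2
    have inj : Function.Injective fun a => ((0 : Fin T), f a) := fun a b h => by
      by_contra hne
      have := hf' a b hne
      rw [(Prod.mk.inj h).2, tdist_self] at this
      omega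
    have := ((C.bas _ T ex ey p C.W.hp).2.2.2 y h0.le (C.lt hy)).2.2.2.2.2.2
      (univ.image fun a => ((0 : Fin T), f a)) (fun _ => r) (fun _ _ => r0) fun v hv => by
      obtain ⟨a, -, rfl⟩ := mem_image.1 hv
      rw [sum_image fun _ _ _ _ h => inj h, ← add_sum_erase _ _ (mem_univ a), hr, add_mul]
      refine add_le_add (C.same h0 hy H rfl) ((sum_le_sum fun b hb => C.far h0 hy H (t := t)
        (by omega) (by omega) (hf' b a (mem_erase.1 hb).1).le).trans ?_)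
      rw [sum_const, nsmul_eq_mul, mul_assoc]
      refine mul_le_mul_of_nonneg_right ?_ (by positivity)
      have := card_le_univ (univ.erase a)
      rw [Fintype.card_fin] at this
      exact_mod_cast this
    rwa [prod_const, card_image_of_injective _ inj, card_univ, Fintype.card_fin] at this
  have e3 := e1.trans (sum_le_sum e2)
  rw [sum_const, nsmul_eq_mul] at e3
  have e4 : (I.card : ℝ) ≤ (n * (L : ℝ) ^ 3) ^ k := by
    have := card_le_univ I
    rw [Fintype.card_fun, Fintype.card_prod, card_Tor, Fintype.card_fin, Fintype.card_fin,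
      mul_comm] at this
    exact_mod_cast this
  have hN : (0 : ℝ) < Q.N := by exact_mod_cast C.N.hN
  have e5 : (n * (L : ℝ) ^ 3) ^ k * (2 * Real.exp 1 * r) ^ k ≤ (Q.N : ℝ) ^ k * Real.exp (-k) := by
    rw [← mul_pow, show (-k : ℝ) = k * (-1) by ring, Real.exp_nat_mul, ← mul_pow]
    refine pow_le_pow_left₀ (by positivity) ?_ _
    have e : Real.exp 2 * Real.exp (-1) = Real.exp 1 := by rw [← Real.exp_add]; norm_num
    have := mul_le_mul_of_nonneg_right a3 (Real.exp_pos (-1)).le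
    calc _ = 2 * Real.exp 2 * (n * (L : ℝ) ^ 3) * r * Real.exp (-1) := by rw [← e]; ring
      _ ≤ _ := this
  refine le_of_mul_le_mul_left (a := (Q.N : ℝ) ^ k) ?_ (by positivity)
  push_cast at e3
  calc _ ≤ _ := e3
    _ ≤ (n * (L : ℝ) ^ 3) ^ k * ((2 * Real.exp 1 * r) ^ k * DL.Zt ex ey p (Top.bt y)) :=
      mul_le_mul_of_nonneg_right e4 (by positivity)
    _ ≤ (Q.N : ℝ) ^ k * Real.exp (-k) * DL.Zt ex ey p (Top.bt y) := by
      rw [← mul_assoc]; exact mul_le_mul_of_nonneg_right e5 hZ.le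
    _ ≤ _ := by
      rw [mul_assoc]
      exact mul_le_mul_of_nonneg_left (mul_le_mul_of_nonneg_right a1 hZ.le) (by positivity)

/-- **core theorem.** -/
theorem Ctx.rare {y : ℝ} (h0 : 0 ≤ y) (hy : y ≤ S.y0) : Rare ex ey p Q S 1 y := by
  classical
  have hB := C.bas _ T ex ey p C.W.hp
  dsimp only at hB
  set φ : Option (Fin Q.P.mt × Tor 3 L) → ℝ → ℝ := fun i y => match i with
    | none => WR ex ey p (Top.bt y) (fun _ R => 2 * Q.N < n0 R) /
        (S.δ y * DL.Zt ex ey p (Top.bt y))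
    | some q => WR ex ey p (Top.bt y) (fun ξ R => q.2 ∈ UU ex ey Q ξ R (q.1 + 1) ∧
        n0 R ≤ 2 * Q.N) / (S.pm (q.1 + 1) * DL.Zt ex ey p (Top.bt y)) with hφ
  have iff : ∀ s y, 0 ≤ y → y ≤ S.y0 → (∀ i, φ i y ≤ s) → Rare ex ey p Q S s y := fun s y h0 hy h => by
    have hZ := C.Zpos h0
    refine ⟨fun m h1 h2 x => ?_, ?_⟩
    · obtain ⟨m, rfl⟩ := Nat.exists_eq_add_of_le' h1
      have := h (some (⟨m, h2⟩, x))
      rwa [hφ, div_le_iff₀ (mul_pos (C.N.pm _) hZ), ← mul_assoc] at this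
    · have := h none
      rwa [hφ, div_le_iff₀ (mul_pos (C.N.δ0 y h0 hy) hZ), ← mul_assoc] at this
  refine iff 1 y h0 hy (C.gen.2 _ φ S.y0 (fun i => ?_) (fun i => ?_) (fun y h0 hy H i => ?_) y h0 hy)
  · rcases i with _ | q
    · exact (hB.1 _).continuousOn.div (C.N.δc.mul hB.2.1.continuousOn) fun y hy =>
        (mul_pos (C.N.δ0 y hy.1 hy.2) (C.Zpos hy.1)).ne'
    · exact (hB.1 _).continuousOn.div (continuousOn_const.mul hB.2.1.continuousOn) fun y hy =>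
        (mul_pos (C.N.pm _) (C.Zpos hy.1)).ne'
  · rcases i with _ | q
    · simp only [hφ]
      rw [hB.2.2.1 _ fun ξ R _ h => ?_, zero_div]
      · exact zero_le_one
      · obtain ⟨x, hx⟩ := card_pos.1 ((Nat.zero_le _).trans_lt h)
        exact ⟨_, (mem_filter.1 hx).2⟩
    · exact (div_le_one (mul_pos (C.N.pm _) (C.Zpos le_rfl))).2
        (C.level le_rfl C.N.hy.1 (fun y' a b => absurd a (not_lt.2 b)) q.1.2 q.2)
  · have H' : ∀ y', 0 < y' → y' ≤ y → Rare ex ey p Q S 2 y' := fun y' a b =>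
      iff 2 y' a.le (b.trans hy) (H y' a.le b)
    rcases i with _ | q
    · exact (div_le_one (mul_pos (C.N.δ0 y h0.le hy) (C.Zpos h0.le))).2
        (C.dense h0 hy (H' y h0 le_rfl))
    · exact (div_le_one (mul_pos (C.N.pm _) (C.Zpos h0.le))).2 (C.level h0.le hy H' q.1.2 q.2)

end Crest.Agent.N337.RR
end

-- ▼ part N337/R/Scl
section

/-!
# Row 337, RARE: arithmetic of the scales (helper37)
-/

set_option autoImplicit false

namespace Crest.Agent.N337.RR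

open Finset Filter G1

namespace Sc

variable {g mt m : ℕ}

/-- the scale `η`. -/
def et (g m : ℕ) : ℕ := g ^ (22 * 48 ^ m)

theorem eta_eq (g mt m : ℕ) : (scl g mt).η m = et g m := rfl

theorem et_succ (g m : ℕ) : et g (m + 1) = et g m ^ 48 := by
  rw [et, et, ← pow_mul, pow_succ, mul_assoc]

theorem sig_succ (g mt m : ℕ) : (scl g mt).σ (m + 1) = et g m ^ 8 := by
  rw [et, ← pow_mul, show 22 * 48 ^ m * 8 = 176 * 48 ^ m by ring]; rfl

theorem a_succ (g mt m : ℕ) : (scl g mt).a (m + 1) = 127 := rfl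

theorem rho0 (g mt : ℕ) : (scl g mt).ρ 0 = (scl 0 0).ρ 0 := by
  rw [Scales.ρ, Scales.ρ, show (scl g mt).a 0 = (scl 0 0).a 0 from rfl,
    show (scl g mt).σ 0 = (scl 0 0).σ 0 from rfl]

theorem K0 (g mt : ℕ) : (scl g mt).K 0 = (scl 0 0).K 0 := by
  rw [Scales.K, Scales.K, zero_add, prod_range_one, prod_range_one, rho0]

theorem f0 (g mt : ℕ) : (scl g mt).f 0 = (scl 0 0).f 0 := by
  rw [Scales.f, Scales.f, rho0, show (scl g mt).a 0 = (scl 0 0).a 0 from rfl,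
    show (scl g mt).σ 0 = (scl 0 0).σ 0 from rfl]

/-- `g` is large. -/
structure H (g : ℕ) : Prop where
  big : 2000 ≤ g
  r0 : (scl 0 0).ρ 0 ≤ g
  k0 : |(scl 0 0).K 0| ≤ g
  f0 : (scl 0 0).f 0 ≤ g
  r1 : 3 ^ 127 * (2 * tS + 1) + tS ≤ g
  ks : |kS| ≤ g

theorem evH : ∀ᶠ g : ℕ in atTop, H g := by
  have h := tendsto_natCast_atTop_atTop (R := ℝ)
  filter_upwards [eventually_ge_atTop 2000, eventually_ge_atTop ((scl 0 0).ρ 0),
    h.eventually_ge_atTop |(scl 0 0).K 0|, eventually_ge_atTop ((scl 0 0).f 0),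
    eventually_ge_atTop (3 ^ 127 * (2 * tS + 1) + tS), h.eventually_ge_atTop |kS|]
    with g h1 h2 h3 h4 h5 h6 using ⟨h1, h2, h3, h4, h5, h6⟩

theorem lt48 (m : ℕ) : m < 48 ^ m := Nat.lt_pow_self (by norm_num)

theorem H.pos (h : H g) : 0 < g := by have := h.big; omega

theorem H.le_et (_h : H g) (m : ℕ) : g ≤ et g m := Nat.le_self_pow (by positivity) g

theorem H.big' (h : H g) (m : ℕ) : 2000 ≤ et g m := h.big.trans (h.le_et m)

theorem H.mono (h : H g) {m m' : ℕ} (e : m ≤ m') : et g m ≤ et g m' :=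
  Nat.pow_le_pow_right h.pos (Nat.mul_le_mul_left _ (Nat.pow_le_pow_right (by norm_num) e))

theorem H.two (h : H g) (m : ℕ) : 2 ^ (m + 4) ≤ et g m :=
  (Nat.pow_le_pow_left (by have := h.big; omega) _).trans
    (Nat.pow_le_pow_right h.pos (by have := lt48 m; omega))

theorem H.pw (h : H g) (m : ℕ) {i j : ℕ} (e : i ≤ j) : et g m ^ i ≤ et g m ^ j :=
  Nat.pow_le_pow_right (by have := h.big' m; omega) e

theorem H.cpw (h : H g) (m i : ℕ) (j : ℕ := i + 1) (e : j = i + 1 := by rfl) :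
    2000 * et g m ^ i ≤ et g m ^ j := by
  rw [e, pow_succ']; exact Nat.mul_le_mul_right _ (h.big' m)

theorem H.one (h : H g) (m i : ℕ) : 1 ≤ et g m ^ i := by simpa using h.pw m (Nat.zero_le i)

theorem H.rho (h : H g) (mt m : ℕ) : (scl g mt).ρ (m + 1) ≤ et g m ^ 9 := by
  have h1 := h.r1
  have h2 := h.one m 8
  rw [Scales.ρ, a_succ, sig_succ, pow_succ' _ 8]
  generalize 3 ^ 127 = c at *
  generalize et g m ^ 8 = s at *
  calc c * (2 * tS + s) + tS ≤ c * (2 * tS * s + s) + tS * s := by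
        exact add_le_add (Nat.mul_le_mul_left _ (Nat.add_le_add_right
          (Nat.le_mul_of_pos_right _ h2) _)) (Nat.le_mul_of_pos_right _ h2)
    _ = (c * (2 * tS + 1) + tS) * s := by ring
    _ ≤ _ := Nat.mul_le_mul_right _ (h1.trans (h.le_et m))

theorem H.fac (h : H g) (mt m : ℕ) :
    |1 + kS * (2 * ((scl g mt).ρ (m + 1) : ℝ) + 1) ^ 9| ≤ (et g m : ℝ) ^ 92 := by
  have h1 : 2 * (scl g mt).ρ (m + 1) + 1 ≤ et g m ^ 10 := by
    have := h.rho mt m; have := h.cpw m 9 10; have := h.one m 9; omega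
  have h2 : 1 + et g m * (et g m ^ 10) ^ 9 ≤ et g m ^ 92 := by
    rw [← pow_mul, ← pow_succ']
    have := h.cpw m 91; have := h.one m 91; norm_num at *; omega
  have h3 : |kS| ≤ et g m := h.ks.trans (by exact_mod_cast h.le_et m)
  have h4 : 1 + (et g m : ℝ) * (et g m ^ 10) ^ 9 ≤ et g m ^ 92 := by exact_mod_cast h2
  refine (abs_add_le _ _).trans (le_trans ?_ h4)
  rw [abs_one, abs_mul, abs_of_nonneg (a := _ ^ 9) (by positivity)]
  gcongr
  exact_mod_cast h1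

theorem H.K1 (h : H g) (mt m : ℕ) (e : |(scl g mt).K m| ≤ (et g m : ℝ) ^ 2) :
    |(scl g mt).K (m + 1)| ≤ (et g m : ℝ) ^ 94 := by
  rw [Scales.K, prod_range_succ, abs_mul, show 94 = 2 + 92 from rfl, pow_add]
  exact mul_le_mul e (h.fac mt m) (abs_nonneg _) (by positivity)

theorem H.K (h : H g) (mt m : ℕ) : |(scl g mt).K m| ≤ (et g m : ℝ) ^ 2 := by
  induction m with
  | zero =>
    rw [K0]
    exact h.k0.trans (by exact_mod_cast (h.le_et 0).trans (Nat.le_self_pow (by norm_num) _))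
  | succ m ih =>
    refine (h.K1 mt m ih).trans ?_
    rw [et_succ]
    exact_mod_cast (h.pw m (by norm_num)).trans_eq (pow_mul _ 48 2)

theorem H.f (h : H g) (mt m : ℕ) : (scl g mt).f (m + 1) ≤ et g m ^ 31 := by
  have h1 : 2 * (et g m ^ 8 + (scl g mt).ρ (m + 1)) + 1 ≤ et g m ^ 10 := by
    have := h.rho mt m; have := h.cpw m 9 10; have := h.one m 9
    have := h.pw m (show 8 ≤ 9 by norm_num); omega
  rw [Scales.f, a_succ, sig_succ]
  refine (Nat.mul_le_mul_left _ (Nat.pow_le_pow_left h1 3)).trans ?_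
  rw [← pow_mul]
  have := h.cpw m 30; norm_num at *; omega

theorem H.ok (h : H g) (mt L : ℕ) (h1 : 1 ≤ mt) (h2 : 2 * et g (mt - 1) < L) :
    (scl g mt).Ok L := by
  refine ⟨h1, rfl, fun m _ => ?_, fun m hm => ?_, fun m _ => ?_, fun m _ => ?_⟩
  · rcases m with _ | m
    · exact (rho0 g mt).le.trans (h.r0.trans (h.le_et 0))
    · rw [eta_eq, et_succ]; exact (h.rho mt m).trans (h.pw m (by norm_num))
  · have := h.mono (show m ≤ mt - 1 from Nat.le_sub_one_of_lt hm)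
    rw [eta_eq]; omega
  · refine (mul_le_mul_of_nonneg_right (mul_le_mul_of_nonneg_left (le_abs_self _)
      (by positivity)) (Nat.cast_nonneg _)).trans ?_
    rw [eta_eq]
    rcases m with _ | m
    · have a1 : (g : ℝ) ≤ et g 0 := by exact_mod_cast h.le_et 0
      have a2 : (2 : ℝ) ^ (0 + 3) ≤ et g 0 := by
        exact_mod_cast (show 2 ^ (0 + 3) ≤ 2000 by norm_num).trans (h.big' 0)
      have a3 : ((scl 0 0).f 0 : ℝ) ≤ et g 0 := by exact_mod_cast h.f0.trans (h.le_et 0)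
      rw [K0, Sc.f0, pow_three' (et g 0 : ℝ)]
      exact mul_le_mul (mul_le_mul a2 (h.k0.trans a1) (abs_nonneg _) (Nat.cast_nonneg _)) a3
        (Nat.cast_nonneg _) (mul_nonneg (Nat.cast_nonneg _) (Nat.cast_nonneg _))
    · have a1 := h.K1 mt m (h.K mt m)
      have a2 : (2 : ℝ) ^ (m + 1 + 3) ≤ et g m := by exact_mod_cast h.two m
      have a3 : ((scl g mt).f (m + 1) : ℝ) ≤ (et g m : ℝ) ^ 31 := by exact_mod_cast h.f mt m
      calc _ ≤ (et g m : ℝ) * et g m ^ 94 * et g m ^ 31 := by gcongr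
        _ = ((et g m ^ 126 : ℕ) : ℝ) := by push_cast; ring
        _ ≤ _ := by
          rw [et_succ]
          exact_mod_cast (h.pw m (by norm_num)).trans_eq (pow_mul _ 48 3)
  · rw [a_succ, sig_succ, eta_eq, eta_eq, et_succ]
    have := h.rho mt m; have := h.cpw m 9; have := h.one m 9
    have := h.pw m (show 8 ≤ 9 by norm_num)
    have := h.pw m (show 1 ≤ 9 by norm_num)
    have := h.pw m (show 9 + 1 ≤ 48 by norm_num)
    rw [pow_one] at *
    omega

theorem H.nt (h : H g) (mt m : ℕ) :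
    NT (scl g mt) 127 m * g ^ (6760 * 48 ^ m) ≤ g ^ (6760 * 128 ^ m) := by
  induction m with
  | zero => simp [NT]
  | succ m ih =>
    have h1 : (8 * et g (m + 1) + 1) ^ 3 ≤ g ^ (4224 * 48 ^ m) := by
      have := h.big' (m + 1)
      calc _ ≤ (9 * et g (m + 1)) ^ 3 := Nat.pow_le_pow_left (by omega) _
        _ ≤ et g (m + 1) ^ (3 + 1) := by have := h.cpw (m + 1) 3; rw [mul_pow]; omega
        _ = _ := by rw [et, ← pow_mul]; congr 1; ring
    calc _ ≤ (g ^ (4224 * 48 ^ m) * NT (scl g mt) 127 m) ^ 128 * g ^ (6760 * 48 ^ (m + 1)) := by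
          rw [NT, eta_eq]; gcongr
      _ = NT (scl g mt) 127 m ^ 128 * g ^ (4224 * 48 ^ m * 128 + 6760 * 48 ^ (m + 1)) := by
          rw [mul_pow, ← pow_mul, pow_add g, mul_comm (g ^ _) (_ ^ 128), mul_assoc]
      _ ≤ NT (scl g mt) 127 m ^ 128 * g ^ (6760 * 48 ^ m * 128) :=
          Nat.mul_le_mul_left _ (Nat.pow_le_pow_right h.pos (by rw [pow_succ]; omega))
      _ ≤ (g ^ (6760 * 128 ^ m)) ^ 128 := by
          rw [pow_mul g _ 128, ← mul_pow]; exact Nat.pow_le_pow_left ih _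
      _ = _ := by rw [← pow_mul, pow_succ, mul_assoc]

theorem H.rp (h : H g) {i j : ℕ} (e : i ≤ j) : (g : ℝ) ^ i ≤ (g : ℝ) ^ j := by
  exact_mod_cast Nat.pow_le_pow_right h.pos e

theorem H.ent (h : H g) (mt m : ℕ) :
    NT (scl g mt) 127 m * (2 * (1 / (g : ℝ) ^ 12000)) ^ (127 + 1) ^ m ≤ pmf g (m + 1) := by
  have g0 : (0 : ℝ) < g := by exact_mod_cast h.pos
  have g2 : (2 : ℝ) ≤ g := by exact_mod_cast (show 2 ≤ 2000 by norm_num).trans h.big
  have h1 : (NT (scl g mt) 127 m : ℝ) ≤ ((g : ℝ) ^ 6760) ^ 128 ^ m := by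
    rw [← pow_mul]
    exact_mod_cast (Nat.le_mul_of_pos_right _ (pow_pos h.pos _)).trans (h.nt mt m)
  have h2 : (g : ℝ) ^ 6760 * (2 * (1 / (g : ℝ) ^ 12000)) ≤ 1 / (g : ℝ) ^ 5000 := by
    rw [← mul_assoc, mul_one_div, div_le_div_iff₀ (by positivity) (by positivity), one_mul]
    calc _ ≤ (g : ℝ) ^ 6760 * g * g ^ 5000 := by gcongr
      _ = (g : ℝ) ^ (6760 + 1 + 5000) := by rw [pow_add, pow_add, pow_one]
      _ ≤ _ := h.rp (by norm_num)
  rw [pmf, Nat.add_sub_cancel, pow_mul, ← one_div_pow ((g : ℝ) ^ 5000)]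
  refine (mul_le_mul_of_nonneg_right h1 (by positivity)).trans ?_
  rw [← mul_pow]
  exact pow_le_pow_left₀ (by positivity) h2 _

theorem H.term (h : H g) {t m : ℕ} (e : t ≤ m) {x : ℝ}
    (hx : x ≤ (g : ℝ) ^ (4224 * 128 ^ m)) : x * pmf g (m + 1) ≤ tauf g (t + 1) * (1 / 2) ^ (m + 1) := by
  have g0 : (0 : ℝ) < g := by exact_mod_cast h.pos
  have g2 : (2 : ℝ) ≤ g := by exact_mod_cast (show 2 ≤ 2000 by norm_num).trans h.big
  have h1 : m < 128 ^ m := Nat.lt_pow_self (by norm_num)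
  have h2 : 128 ^ t ≤ 128 ^ m := Nat.pow_le_pow_right (by norm_num) e
  rw [pmf, tauf, Nat.add_sub_cancel, Nat.add_sub_cancel, one_div_pow, mul_one_div, div_mul_div_comm,
    div_le_div_iff₀ (by positivity) (by positivity), one_mul, one_mul]
  calc _ ≤ (g : ℝ) ^ (4224 * 128 ^ m) * (g ^ (700 * 128 ^ t) * g ^ (m + 1)) := by gcongr
    _ ≤ _ := by rw [← pow_add, ← pow_add]; exact h.rp (by omega)

theorem H.tail (h : H g) (mt t d : ℕ) (ht : 1 ≤ t) (hd : d ≤ et g t) :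
    4 * ∑ m ∈ Ico t mt, (2 * ((d + 2 * et g m : ℕ) : ℝ) + 1) ^ 3 * pmf g m ≤ tauf g t := by
  obtain ⟨t, rfl⟩ : ∃ s, t = s + 1 := ⟨t - 1, by omega⟩
  have h0 : 0 ≤ tauf g (t + 1) := by unfold tauf; positivity
  rw [mul_sum]
  calc _ ≤ ∑ m ∈ Ico (t + 1) mt, tauf g (t + 1) * (1 / 2) ^ m := by
        refine sum_le_sum fun m hm => ?_
        have hm := (mem_Ico.1 hm).1
        have h1 := hd.trans (h.mono hm)
        obtain ⟨m, rfl⟩ : ∃ s, m = s + 1 := ⟨m - 1, by omega⟩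
        rw [← mul_assoc]
        refine h.term (by omega) ?_
        have := h.big' (m + 1)
        have h2 : 4 * (2 * (d + 2 * et g (m + 1)) + 1) ^ 3 ≤ g ^ (4224 * 128 ^ m) :=
          calc _ ≤ 4 * (7 * et g (m + 1)) ^ 3 := by gcongr; omega
            _ ≤ et g (m + 1) ^ (3 + 1) := by have := h.cpw (m + 1) 3; rw [mul_pow]; omega
            _ = g ^ (4224 * 48 ^ m) := by rw [et, ← pow_mul]; congr 1; ring
            _ ≤ _ := Nat.pow_le_pow_right h.pos
              (Nat.mul_le_mul_left _ (Nat.pow_le_pow_left (by norm_num) _))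
        exact_mod_cast h2
    _ ≤ _ := by
        rw [← mul_sum]
        refine mul_le_of_le_one_right h0 ((geom_sum_Ico_le_of_lt_one (by norm_num)
          (by norm_num)).trans ?_)
        have : (1 / 2 : ℝ) ^ t ≤ 1 := pow_le_one₀ (by norm_num) (by norm_num)
        rw [pow_succ, div_le_one (by norm_num)]; linarith

theorem H.gam (h : H g) {C : ℝ} (hC : 1 ≤ C) (hg : 175000 * (9 * C) ≤ g) (mt t : ℕ) (ht : 1 ≤ t) :
    175000 * 256 ^ (t + 1) * (gam C (scl g mt) t ((scl g mt).σ t / 4) + tauf g t) ≤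
      1 / (g : ℝ) ^ 80 := by
  obtain ⟨s, rfl⟩ : ∃ s, t = s + 1 := ⟨t - 1, by omega⟩
  have g0 : (0 : ℝ) < g := by exact_mod_cast h.pos
  obtain ⟨u, hu⟩ : ∃ u, u = g ^ 48 ^ s := ⟨_, rfl⟩
  have e1 : et g s = u ^ 22 := by rw [hu, et, ← pow_mul, mul_comm]
  have u1 : g ≤ u := hu ▸ Nat.le_self_pow (by positivity) g
  have u2 : 2000 ≤ u := h.big.trans u1
  have u0 : (1 : ℝ) ≤ u := by exact_mod_cast (show 1 ≤ u by omega)
  have hK := (le_abs_self _).trans (h.K mt s)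
  rw [RR.gam, Nat.add_sub_cancel, sig_succ, eta_eq, e1, ← pow_mul]
  rw [e1] at hK
  obtain ⟨d, hd⟩ : ∃ d, d = u ^ (22 * 8) / 4 := ⟨_, rfl⟩
  rw [← hd]
  have d0 : u ≤ u ^ (22 * 8) := Nat.le_self_pow (by norm_num) u
  have d1 : u ^ (22 * 8) ≤ 8 * d := by omega
  have d2 : 1 + Nat.log 2 d ≤ u ^ 2 := by
    have : Nat.log 2 d < u * (22 * 8) := Nat.log_lt_of_lt_pow (by omega) (by
      rw [pow_mul 2]
      exact lt_of_le_of_lt (by omega) (Nat.pow_lt_pow_left Nat.lt_two_pow_self (by norm_num)))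
    nlinarith
  have d3 : (u : ℝ) ^ (22 * 8) / 8 ≤ d := by
    rw [div_le_iff₀' (by norm_num)]; exact_mod_cast d1
  have d4 : 1 + (Nat.log 2 d : ℝ) ≤ (u : ℝ) ^ 2 := by exact_mod_cast d2
  have a1 : (scl g mt).K s * (1 + (Nat.log 2 d : ℝ)) ^ 2 * (u ^ 22 : ℕ) / d ≤ 8 / (u : ℝ) ^ 106 := by
    push_cast at hK ⊢
    calc _ ≤ ((u : ℝ) ^ 22) ^ 2 * (u ^ 2) ^ 2 * u ^ 22 / (u ^ (22 * 8) / 8) := by gcongr
      _ = _ := by field_simp
  have a2 : tauf g (s + 1) ≤ C / (u : ℝ) ^ 106 := by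
    rw [tauf, Nat.add_sub_cancel, hu]
    push_cast
    rw [← pow_mul]
    have : 48 ^ s ≤ 128 ^ s := Nat.pow_le_pow_left (by norm_num) _
    exact div_le_div₀ (by linarith) hC (by positivity) (h.rp (by omega))
  have a3 : (256 : ℝ) ^ (s + 1 + 1) ≤ (u : ℝ) ^ 2 := by
    have : 256 ^ (s + 1 + 1) ≤ u ^ 2 := by
      rw [hu, ← pow_mul]
      exact (Nat.pow_le_pow_left (by have := h.big; omega) _).trans
        (Nat.pow_le_pow_right h.pos (by have := lt48 s; omega))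
    exact_mod_cast this
  have u3 : (g : ℝ) ≤ u := by exact_mod_cast u1
  calc _ ≤ 175000 * (u : ℝ) ^ 2 * (C * (8 / (u : ℝ) ^ 106) + C / (u : ℝ) ^ 106) := by
        have : 0 ≤ tauf g (s + 1) := by unfold tauf; positivity
        refine (mul_le_mul_of_nonneg_left (add_le_add (mul_le_mul_of_nonneg_left a1 (by linarith))
          a2) (by positivity)).trans ?_
        gcongr
    _ = 175000 * (9 * C) / (u : ℝ) ^ 104 := by field_simp; norm_num
    _ ≤ u / (u : ℝ) ^ 104 := by gcongr; exact hg.trans u3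
    _ = 1 / (u : ℝ) ^ 103 := by field_simp
    _ ≤ _ := one_div_le_one_div_of_le (by positivity)
        ((pow_le_pow_left₀ g0.le u3 _).trans (pow_le_pow_right₀ u0 (by norm_num)))

theorem H.last (h : H g) (q M : ℕ) : ∀ᶠ L : ℕ in atTop, ∃ mt, M ≤ mt ∧
    et g (mt - 1) ^ q ≤ L ∧ 4 * (L : ℝ) ^ 3 * pmf g mt ≤ tauf g mt := by
  have g0 : (0 : ℝ) < g := by exact_mod_cast h.pos
  filter_upwards [eventually_ge_atTop (et g (M + q + 1) ^ (q + 1))] with L hL
  obtain ⟨k, h1, h2⟩ := Nat.exists_not_and_succ_of_not_zero_of_exists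
    (p := fun k => L < et g (M + q + 1 + k) ^ (q + 1)) (not_lt.2 hL) ⟨L, by
      have a1 := h.two (M + q + 1 + L)
      have a2 : M + q + 1 + L + 4 < 2 ^ (M + q + 1 + L + 4) := Nat.lt_two_pow_self
      have a3 := Nat.le_self_pow (show q + 1 ≠ 0 by omega) (et g (M + q + 1 + L))
      omega⟩
  obtain ⟨m, hm⟩ : ∃ m, m = M + q + 1 + k := ⟨_, rfl⟩
  rw [← add_assoc, ← hm] at h2
  rw [← hm] at h1
  refine ⟨m + 1, by omega, (h.pw _ (Nat.le_succ q)).trans (not_lt.1 h1), ?_⟩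
  have a1 : (q + 1) * 48 ^ m ≤ 128 ^ m :=
    calc _ ≤ 2 ^ m * 48 ^ m := Nat.mul_le_mul_right _
          ((show q + 1 ≤ m by omega).trans Nat.lt_two_pow_self.le)
      _ ≤ _ := by rw [← mul_pow]; exact Nat.pow_le_pow_left (by norm_num) _
  have a2 : 0 < 128 ^ m := by positivity
  have a3 : 4 * L ^ 3 ≤ g ^ (4300 * 128 ^ m) :=
    calc _ ≤ g * (et g (m + 1) ^ (q + 1)) ^ 3 := by gcongr; have := h.big; omega
      _ = g ^ (3168 * ((q + 1) * 48 ^ m) + 1) := by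
          rw [et, ← pow_mul, ← pow_mul, ← pow_succ']; congr 2; ring
      _ ≤ _ := Nat.pow_le_pow_right h.pos (by omega)
  rw [pmf, tauf, Nat.add_sub_cancel, mul_one_div, div_le_div_iff₀ (by positivity) (by positivity),
    one_mul, show 5000 * 128 ^ m = 4300 * 128 ^ m + 700 * 128 ^ m by ring, pow_add]
  gcongr
  exact_mod_cast a3

end Sc

theorem sclS : SclStmt := by
  intro C hC
  filter_upwards [Sc.evH, (tendsto_natCast_atTop_atTop (R := ℝ)).eventually_ge_atTop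
    (175000 * (9 * C))] with g h hg
  refine ⟨fun mt m => ?_, h.ok, fun mt m => (le_abs_self _).trans (h.K mt m), h.ent, h.tail,
    h.gam hC hg, h.last⟩
  rw [Sc.sig_succ, Sc.eta_eq, Sc.eta_eq, Sc.et_succ]
  have h1 := h.cpw m 1
  have h2 := h.pw m (show 1 + 1 ≤ 8 by norm_num)
  rw [pow_one] at h1
  exact ⟨by omega, h.pw m (by norm_num)⟩

end Crest.Agent.N337.RR
end

-- ▼ part N337/R/Pol
section

/-!
# Row 337, RARE, leaf `Pol` (helper40): the polynomial inequalities in `g`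
-/

set_option autoImplicit false

namespace Crest.Agent.N337.RR

open Finset Filter G1 Topology

namespace PolP

theorem K_nonneg (P : Scales) (m : ℕ) : 0 ≤ P.K m := by
  have h : 1 ≤ kS :=
    (Geo.shell (d := 3) (by norm_num) (Asy.coup_nn 3)).choose_spec.choose_spec.2.1
  exact prod_nonneg fun l _ => add_nonneg zero_le_one
    (mul_nonneg (zero_le_one.trans h) (by positivity))

theorem K_zero (g mt : ℕ) : (scl g mt).K 0 = (scl 0 0).K 0 := by
  have ha : (scl g mt).a 0 = (scl 0 0).a 0 := rfl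
  have hσ : (scl g mt).σ 0 = (scl 0 0).σ 0 := rfl
  have hρ : (scl g mt).ρ 0 = (scl 0 0).ρ 0 := by rw [Scales.ρ, Scales.ρ, ha, hσ]
  rw [Scales.K, Scales.K, zero_add, prod_range_one, prod_range_one, hρ]

/-- `0 ≤ z ≤ x ^ k` -/
def Bd (x z : ℝ) (k : ℤ) : Prop := 0 ≤ z ∧ z ≤ x ^ k

variable {x z z' : ℝ} {k l : ℤ}

theorem Bd.mul (hx : 2 ≤ x) (h : Bd x z k) (h' : Bd x z' l) : Bd x (z * z') (k + l) :=
  ⟨mul_nonneg h.1 h'.1, by
    rw [zpow_add₀ (by linarith)]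
    exact mul_le_mul h.2 h'.2 h'.1 (h.1.trans h.2)⟩

theorem Bd.pow (h : Bd x z k) (m : ℕ) : Bd x (z ^ m) (k * m) :=
  ⟨pow_nonneg h.1 m, by
    rw [zpow_mul, zpow_natCast]
    exact pow_le_pow_left₀ h.1 h.2 m⟩

theorem Bd.mono (hx : 2 ≤ x) (h : Bd x z k) (hk : k ≤ l) : Bd x z l :=
  ⟨h.1, h.2.trans (zpow_le_zpow_right₀ (by linarith) hk)⟩

theorem Bd.of_le (h : Bd x z k) (h0 : 0 ≤ z') (h1 : z' ≤ z) : Bd x z' k := ⟨h0, h1.trans h.2⟩

theorem Bd.const (h0 : 0 ≤ z) (h1 : z ≤ x) : Bd x z 1 := ⟨h0, by rwa [zpow_one]⟩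

theorem Bd.inv (hx : 2 ≤ x) (m : ℕ) : Bd x (1 / x ^ m) (-m) :=
  ⟨by have : 0 < x := by linarith
      positivity, by rw [zpow_neg, zpow_natCast, one_div]⟩

theorem Bd.le_inv {m : ℕ} (h : Bd x z (-m)) : z ≤ 1 / x ^ m := by
  have := h.2
  rwa [zpow_neg, zpow_natCast, ← one_div] at this

theorem Bd.npow (hx : 2 ≤ x) (m : ℕ) : Bd x (x ^ m) m :=
  ⟨by have : 0 < x := by linarith
      positivity, by rw [zpow_natCast]⟩

/-- `z ≤ c x ^ k` with `c ≤ x` -/
theorem Bd.up (hx : 2 ≤ x) {c : ℝ} (hc : c ≤ x) (h0 : 0 ≤ z) (h : z ≤ c * x ^ k) :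
    Bd x z (k + 1) := by
  have h1 : 0 < x := by linarith
  refine ⟨h0, h.trans ?_⟩
  rw [zpow_add_one₀ h1.ne', mul_comm]
  exact mul_le_mul_of_nonneg_left hc (zpow_pos h1 k).le

theorem Bd.add (hx : 2 ≤ x) (h : Bd x z k) (h' : Bd x z' k) : Bd x (z + z') (k + 1) :=
  Bd.up hx hx (add_nonneg h.1 h'.1) (by linarith [h.2, h'.2])

theorem Bd.div (hx : 2 ≤ x) {d : ℝ} {m : ℕ} (h : Bd x z k) (hd : x ^ m ≤ d) :
    Bd x (z / d) (k + -m) := by
  have h1 : 0 < x ^ m := pow_pos (by linarith) m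
  rw [div_eq_mul_one_div]
  exact h.mul hx ((Bd.inv hx m).of_le (by have := h1.trans_le hd; positivity)
    (one_div_le_one_div_of_le h1 hd))

/-- `c (2 z + 1) ^ 3` -/
theorem Bd.cube (hx : 2 ≤ x) {c b : ℝ} (m : ℕ) (hc : 0 ≤ c) (h0 : 0 ≤ z) (hz : 2 * z + 1 ≤ b * x ^ m)
    (hb : c * b ^ 3 ≤ x) : Bd x (c * (2 * z + 1) ^ 3) (m * 3 + 1) := by
  refine Bd.up hx hb (by positivity) ?_
  rw [zpow_mul, zpow_natCast, zpow_ofNat, mul_assoc, ← mul_pow]
  exact mul_le_mul_of_nonneg_left (pow_le_pow_left₀ (by positivity) hz 3) hc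

theorem cm {g c i j : ℕ} (hg : 1 ≤ g) (hc : c ≤ g) (hij : i < j) : c * g ^ i ≤ g ^ j :=
  (Nat.mul_le_mul_right _ hc).trans (by
    rw [← pow_succ']
    exact Nat.pow_le_pow_right hg hij)

theorem ev_exp (a : ℝ) (m : ℕ) :
    ∀ᶠ g : ℕ in atTop, Real.exp (a - g) ≤ 1 / (g : ℝ) ^ m := by
  have h := ((Real.tendsto_pow_mul_exp_neg_atTop_nhds_zero m).comp
    tendsto_natCast_atTop_atTop).eventually (gt_mem_nhds (Real.exp_pos (-a)))
  filter_upwards [h, eventually_ge_atTop 1] with g h1 hg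
  have h0 : (0 : ℝ) < g := by exact_mod_cast hg
  simp only [Function.comp] at h1
  rw [le_div_iff₀ (pow_pos h0 m), sub_eq_add_neg, Real.exp_add]
  have h2 : Real.exp a * Real.exp (-a) = 1 := by rw [← Real.exp_add]; simp
  have h3 := mul_le_mul_of_nonneg_left h1.le (Real.exp_pos a).le
  rw [h2] at h3
  calc Real.exp a * Real.exp (-g) * (g : ℝ) ^ m = Real.exp a * ((g : ℝ) ^ m * Real.exp (-g)) := by
        ring
    _ ≤ 1 := h3

theorem ev_log (m : ℕ) :
    ∀ᶠ g : ℕ in atTop, ∀ d : ℕ, d ≤ g ^ m → 1 + (Nat.log 2 d : ℝ) ≤ g := by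
  have h := (tendsto_pow_const_div_const_pow_of_one_lt m (r := 2) one_lt_two).eventually
    (gt_mem_nhds one_pos)
  filter_upwards [h, eventually_ge_atTop 1] with g h1 hg d hd
  rw [div_lt_one (by positivity)] at h1
  have h2 : g ^ m < 2 ^ g := by exact_mod_cast h1
  have h3 := (Nat.log_mono_right (b := 2) hd).trans_lt
    (Nat.log_lt_of_lt_pow (pow_pos hg m).ne' h2)
  have h4 : 1 + Nat.log 2 d ≤ g := by omega
  exact_mod_cast h4

/-- the integer inequalities -/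
theorem nat_part {g n a B : ℕ} (h1 : 100000 * (n ^ 2 + 1) ≤ g) (h2 : 100000 * (a + 1) ≤ g)
    (hB : g ^ 400 ≤ B) :
    (8 * (g ^ 23 + (a + g) + g + 2) ≤ g ^ 176 ∧ 2 * (25000 * g ^ 18) ≤ B ∧
      24999 * (g + 1) * (n ^ 2 + 1) + 1 ≤ g ^ 2 ∧
      (25000 * g ^ 18 + 1) * (g ^ 2 * (2 * a + 1)) + a < g ^ 22 ∧
      8 * g ^ 22 + a + g + 2 ≤ g ^ 23 ∧ 4 * g ^ 42 + 4 * a + g + 1 ≤ g ^ 43 ∧
      4 * g ^ 22 ≤ g ^ 42 ∧ 16 * g ^ 42 ≤ g ^ 176 / 8 ∧ 1 ≤ B / (25000 * g ^ 18 + 2)) ∧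
    g ^ 380 ≤ B / (25000 * g ^ 18 + 2) ∧ g ^ 175 ≤ g ^ 176 / 8 := by
  have hg : 100000 ≤ g := by omega
  have g1 : 1 ≤ g := by omega
  have lp : ∀ i, 1 ≤ i → g ≤ g ^ i := fun i hi => Nat.le_self_pow (by omega) g
  have e1 : g ^ 380 ≤ B / (25000 * g ^ 18 + 2) := by
    rw [Nat.le_div_iff_mul_le (by omega)]
    have a1 := lp 18 (by norm_num)
    have a2 := cm (c := 25002) (i := 18) (j := 20) g1 (by omega) (by norm_num)
    calc g ^ 380 * (25000 * g ^ 18 + 2) ≤ g ^ 380 * g ^ 20 := Nat.mul_le_mul_left _ (by omega)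
      _ = g ^ 400 := by rw [← pow_add]
      _ ≤ B := hB
  have e2 : g ^ 175 ≤ g ^ 176 / 8 := by
    rw [Nat.le_div_iff_mul_le (by norm_num), mul_comm]
    exact cm g1 (by omega) (by norm_num)
  refine ⟨⟨?_, ?_, ?_, ?_, ?_, ?_, ?_, ?_, ?_⟩, e1, e2⟩
  · have a1 := lp 23 (by norm_num)
    have a2 := cm (c := 40) (i := 23) (j := 176) g1 (by omega) (by norm_num)
    omega
  · have a2 := cm (c := 50000) (i := 18) (j := 400) g1 (by omega) (by norm_num)
    omega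
  · generalize n ^ 2 + 1 = N at h1
    have a1 : 100000 * N * g ≤ g * g := Nat.mul_le_mul_right _ h1
    have a2 : N * 1 ≤ N * g := Nat.mul_le_mul_left _ g1
    have a3 : 100000 * 1 ≤ g * g := Nat.mul_le_mul hg g1
    nlinarith
  · have a1 := lp 18 (by norm_num)
    have a2 := lp 21 (by norm_num)
    have a3 := cm (c := 25001 * (2 * a + 1)) (i := 20) (j := 21) g1 (by omega) (by norm_num)
    have a4 := cm (c := 3) (i := 21) (j := 22) g1 (by omega) (by norm_num)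
    have a5 : (25000 * g ^ 18 + 1) * (g ^ 2 * (2 * a + 1)) ≤ 25001 * (2 * a + 1) * g ^ 20 :=
      calc (25000 * g ^ 18 + 1) * (g ^ 2 * (2 * a + 1))
          ≤ (25001 * g ^ 18) * (g ^ 2 * (2 * a + 1)) := Nat.mul_le_mul_right _ (by omega)
        _ = 25001 * (2 * a + 1) * g ^ 20 := by ring
    omega
  · have a1 := lp 22 (by norm_num)
    have a2 := cm (c := 11) (i := 22) (j := 23) g1 (by omega) (by norm_num)
    omega
  · have a1 := lp 42 (by norm_num)
    have a2 := cm (c := 7) (i := 42) (j := 43) g1 (by omega) (by norm_num)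
    omega
  · exact cm g1 (by omega) (by norm_num)
  · exact (cm g1 (by omega) (by norm_num)).trans e2
  · exact (Nat.one_le_pow _ _ g1).trans e1

/-- the real inequalities; `t` is the exponential, `γ1, γ2, γ3, γ4` are the Green terms -/
theorem real_part {x n a B t M γ1 γ2 γ3 γ4 : ℝ} (hx : 100000 ≤ x) (hn0 : 0 ≤ n) (hn : 125 * n ≤ x)
    (ha0 : 0 ≤ a) (ha : a ≤ x) (hB : Bd x B 401) (ht : Bd x t (-30000)) (hM : 2 * M + 3 ≤ x)
    (he : 2 * Real.exp 3 * 150001 ≤ x) (h1 : Bd x γ1 (-379)) (h2 : Bd x γ2 (-150))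
    (h3 : 0 ≤ γ3 ∧ γ3 ≤ M * x ^ (-18 : ℤ)) (h4 : 0 ≤ γ4 ∧ γ4 ≤ M * x ^ (-18 : ℤ)) :
    (0 ≤ γ1 + γ2 ∧ γ1 + γ2 + 1 / x ^ 700 + 1 / x ^ 79 ≤ 1 / x ^ 78) ∧
    (B * (2 * x ^ 43 + 1) ^ 3 * t + (2 * x ^ 43 + 1) ^ 3 * (n * (2 * (a + x) + 1) ^ 3) ^ 6 *
      (2 * Real.exp 1 * (6 * (1 / x ^ 78))) ^ 6 ≤ 1 / x ^ 100) ∧
    (0 ≤ γ3 + γ4 ∧ γ3 + γ4 + 1 / x ^ 700 + 1 / x ^ 79 + x ^ 18 * (1 / x ^ 100) ≤ 1 / x ^ 17) ∧
    B * (2 * x ^ 23 + 1) ^ 3 * t ≤ (1 / x ^ 12000) ^ 2 ∧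
    B * (n * (2 * x ^ 23 + 1) ^ 3 *
        (2 * Real.exp 3 * (25000 * (1 / x ^ 78) + 1 / x ^ 73))) ^ 25000 +
      B * ((2 * x ^ 23 + 1) ^ 3 * (n * (2 * (a + x) + 1) ^ 3 *
        (2 * Real.exp 3 * (6 * 25000 * (1 / x ^ 17) + 1 / x ^ 73))) ^ 6) ^ 25000 ≤
      (1 / x ^ 12000) ^ 2 := by
  have x2 : 2 ≤ x := by linarith
  have x0 : 0 < x := by linarith
  have op : ∀ m : ℕ, 1 ≤ x ^ m := fun m => one_le_pow₀ (by linarith)
  have c43 : Bd x ((2 * x ^ 43 + 1) ^ 3) 130 := by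
    have := Bd.cube x2 (c := 1) (b := 3) (z := x ^ 43) 43 zero_le_one (by positivity)
      (by linarith [op 43]) (by linarith)
    rw [one_mul] at this
    exact this.mono x2 (by norm_num)
  have c23 : Bd x ((2 * x ^ 23 + 1) ^ 3) 70 := by
    have := Bd.cube x2 (c := 1) (b := 3) (z := x ^ 23) 23 zero_le_one (by positivity)
      (by linarith [op 23]) (by linarith)
    rw [one_mul] at this
    exact this.mono x2 (by norm_num)
  have n23 : Bd x (n * (2 * x ^ 23 + 1) ^ 3) 70 :=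
    (Bd.cube x2 (c := n) (b := 3) (z := x ^ 23) 23 hn0 (by positivity)
      (by linarith [op 23]) (by linarith)).mono x2 (by norm_num)
  have nA : Bd x (n * (2 * (a + x) + 1) ^ 3) 4 :=
    (Bd.cube x2 (c := n) (b := 5) (z := a + x) 1 hn0 (by positivity)
      (by rw [pow_one]; linarith) (by linarith)).mono x2 (by norm_num)
  have iv : ∀ (m : ℕ) (k : ℤ), -(m : ℤ) ≤ k → Bd x (1 / x ^ m) k := fun m k h =>
    (Bd.inv x2 m).mono x2 h
  have e0 := Real.exp_pos 3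
  have e13 : Real.exp 1 ≤ Real.exp 3 := Real.exp_le_exp.2 (by norm_num)
  have sq : (1 / x ^ 12000) ^ 2 = 1 / x ^ 24000 := by
    rw [div_pow, one_pow, ← pow_mul]
  have b1 : Bd x (2 * Real.exp 1 * (6 * (1 / x ^ 78))) (-78 + 1) :=
    Bd.up x2 he (by positivity) (by
      have := (iv 78 (-78) (by norm_num))
      generalize 1 / x ^ 78 = u at this
      have h5 := this.1
      have h6 := this.2
      generalize x ^ (-78 : ℤ) = v at h6
      nlinarith [Real.exp_pos 1])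
  have b2 : Bd x (2 * Real.exp 3 * (25000 * (1 / x ^ 78) + 1 / x ^ 73)) (-73 + 1) :=
    Bd.up x2 he (by positivity) (by
      have h5 := (iv 78 (-73) (by norm_num)).2
      have h6 := (iv 73 (-73) (by norm_num)).2
      have h7 := zpow_pos x0 (-73)
      rw [mul_assoc (2 * Real.exp 3)]
      exact mul_le_mul_of_nonneg_left (by linarith) (by positivity))
  have b3 : Bd x (2 * Real.exp 3 * (6 * 25000 * (1 / x ^ 17) + 1 / x ^ 73)) (-17 + 1) :=
    Bd.up x2 he (by positivity) (by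
      have h5 := (iv 17 (-17) (by norm_num)).2
      have h6 := (iv 73 (-17) (by norm_num)).2
      rw [mul_assoc (2 * Real.exp 3)]
      exact mul_le_mul_of_nonneg_left (by linarith) (by positivity))
  refine ⟨⟨add_nonneg h1.1 h2.1, ?_⟩, ?_, ⟨add_nonneg h3.1 h4.1, ?_⟩, ?_, ?_⟩
  · refine Bd.le_inv (Bd.mono x2 (Bd.up (k := -79) (c := 4) x2 (by linarith) ?_ ?_) (by norm_num))
    · have := h1.1
      have := h2.1
      positivity
    · linarith [(h1.mono x2 (l := -79) (by norm_num)).2, (h2.mono x2 (l := -79) (by norm_num)).2,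
        (iv 700 (-79) (by norm_num)).2, (iv 79 (-79) (by norm_num)).2]
  · exact Bd.le_inv (Bd.mono x2 (Bd.add (k := -101) x2
      (((hB.mul x2 c43).mul x2 ht).mono x2 (by norm_num))
      (((c43.mul x2 (nA.pow 6)).mul x2 (b1.pow 6)).mono x2 (by norm_num))) (by norm_num))
  · refine Bd.le_inv (Bd.mono x2 (Bd.up (k := -18) x2 hM ?_ ?_) (by norm_num))
    · have := h3.1
      have := h4.1
      positivity
    · have h5 := (((Bd.npow x2 18).mul x2 (Bd.inv x2 100)).mono x2 (l := -18) (by norm_num)).2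
      have h6 := (iv 700 (-18) (by norm_num)).2
      have h7 := (iv 79 (-18) (by norm_num)).2
      have h8 := h3.2
      have h9 := h4.2
      generalize x ^ (-18 : ℤ) = v at *
      rw [add_mul, mul_assoc]
      linarith
  · rw [sq]
    exact Bd.le_inv (((hB.mul x2 c23).mul x2 ht).mono x2 (by norm_num))
  · rw [sq]
    exact Bd.le_inv (Bd.mono x2 (Bd.add (k := -24001) x2
      ((hB.mul x2 ((n23.mul x2 b2).pow 25000)).mono x2 (by norm_num))
      ((hB.mul x2 ((c23.mul x2 ((nA.mul x2 b3).pow 6)).pow 25000)).mono x2 (by norm_num)))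
      (by norm_num))

end PolP

open PolP in
theorem pol : PolStmt := by
  intro n C hC
  have hK0 := K_nonneg (scl 0 0) 0
  have hKe := K_zero
  generalize (scl 0 0).K 0 = K at hK0 hKe
  have tn := tendsto_natCast_atTop_atTop (R := ℝ)
  filter_upwards [eventually_ge_atTop (100000 * (n ^ 2 + 1)), eventually_ge_atTop (100000 * (A6 + 1)),
    eventually_ge_atTop (125 * n), tn.eventually_ge_atTop (2 * (C * K) + 3),
    tn.eventually_ge_atTop (2 * Real.exp 3 * 150001), ev_exp (240 * n ^ 2) 30000, ev_log 176]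
    with g h1 h2 h3 h4 h5 h6 h7 B hB1 hB2 mt L E w κ u0 e hw Q S
  obtain ⟨hN, e1, e2⟩ := nat_part h1 h2 hB1
  have hg : 100000 ≤ g := by omega
  have hx : (100000 : ℝ) ≤ g := by exact_mod_cast hg
  have x2 : (2 : ℝ) ≤ g := by linarith
  have hCK : 0 ≤ C * K := by positivity
  have bCK : Bd g (C * K) 1 := Bd.const hCK (by linarith)
  have hθ : 80 * S.θ * Q.w - Q.f = 240 * (n : ℝ) ^ 2 - g := by
    have : (w : ℝ) ≠ 0 := by positivity
    show 80 * (3 * (n : ℝ) ^ 2 / w) * w - g = _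
    field_simp
    ring
  have hη : (scl g mt).η 0 = g ^ 22 := rfl
  have hgam : ∀ d : ℕ, gam C (scl g mt) 1 d =
      C * K * ((1 + (Nat.log 2 d : ℝ)) ^ 2 * (g : ℝ) ^ 22 / d) := fun d => by
    rw [gam, Nat.sub_self, hKe, hη, Nat.cast_pow]
    ring
  have bl : ∀ (d m : ℕ), d ≤ g ^ 176 → g ^ m ≤ d →
      Bd g ((1 + (Nat.log 2 d : ℝ)) ^ 2 * (g : ℝ) ^ 22 / d) (24 + -m) := fun d m hd hm =>
    ((((Bd.const (by positivity) (h7 d hd)).pow 2).mul x2 (Bd.npow x2 22)).mono x2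
      (by norm_num)).div x2 (by exact_mod_cast hm)
  have hA : A6 ≤ g := by
    generalize A6 = a at h2
    omega
  have hR := real_part (x := g) (n := n) (a := A6) (B := B)
    (t := Real.exp (240 * (n : ℝ) ^ 2 - g)) (M := C * K)
    (γ1 := C * (K / (B / (25000 * g ^ 18 + 2) : ℕ))) (γ2 := gam C (scl g mt) 1 (g ^ 176 / 8))
    (γ3 := C * (K / (g ^ 18 : ℕ))) (γ4 := gam C (scl g mt) 1 (g ^ 42))
    hx (Nat.cast_nonneg n) (by exact_mod_cast h3) (Nat.cast_nonneg _)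
    (Nat.cast_le.2 hA)
    ((Bd.npow x2 401).of_le (Nat.cast_nonneg B) (by exact_mod_cast hB2))
    ((Bd.inv x2 30000).of_le (Real.exp_pos _).le h6) h4 h5
    (by
      rw [← mul_div_assoc]
      exact (bCK.div x2 (m := 380) (by exact_mod_cast e1)).mono x2 (by norm_num))
    (by
      rw [hgam]
      exact (bCK.mul x2 (bl _ 175 (Nat.div_le_self _ _) e2)).mono x2 (by norm_num))
    (by
      rw [← mul_div_assoc, Nat.cast_pow, div_eq_mul_one_div]
      have := Bd.inv x2 18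
      exact ⟨mul_nonneg hCK this.1, mul_le_mul_of_nonneg_left this.2 hCK⟩)
    (by
      rw [hgam]
      have := (bl (g ^ 42) 42 (Nat.pow_le_pow_right (by omega) (by norm_num)) le_rfl).mono x2
        (l := -18) (by norm_num)
      exact ⟨mul_nonneg hCK this.1, mul_le_mul_of_nonneg_left this.2 hCK⟩)
  have q1 : (Q.r : ℝ) = (g : ℝ) ^ 43 := Nat.cast_pow g 43
  have q2 : (Q.ρ : ℝ) = (g : ℝ) ^ 23 := Nat.cast_pow g 23
  have q3 : (Q.A : ℝ) = (A6 : ℝ) + g := Nat.cast_add A6 g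
  have q4 : (Q.D' : ℝ) = (g : ℝ) ^ 18 := Nat.cast_pow g 18
  have q5 : Q.P.a 0 + 1 = 25000 := rfl
  have q6 : (Q.P.a 0 : ℝ) + 1 = 25000 := by exact_mod_cast q5
  have q7 : Q.k = 25000 := rfl
  have q8 : S.γT = C * (K / (B / (25000 * g ^ 18 + 2) : ℕ)) + gam C (scl g mt) 1 (g ^ 176 / 8) := by
    rw [← hKe g mt]; rfl
  have q9 : S.γS = C * (K / (g ^ 18 : ℕ)) + gam C (scl g mt) 1 (g ^ 42) := by
    rw [← hKe g mt]; rfl
  have q10 : S.τ 1 = 1 / (g : ℝ) ^ 700 := rfl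
  refine ⟨hN, ?_⟩
  rw [hθ, q1, q2, q3, q4, q5, q6, q7, q8, q9, q10, Nat.cast_ofNat]
  exact hR

end Crest.Agent.N337.RR
end

-- ▼ part N337/R/Gen
section

/-! # Row 337, RARE: generic tuples and the continuity argument (helper66) -/

set_option autoImplicit false

namespace Crest.Agent.N337.RR

open Finset Free Filter Topology

namespace Gn

theorem tuples {L n : ℕ} [NeZero L] {d N : ℕ} {S : Finset (Tor 3 L × Fin n)} (hS : 2 * N ≤ S.card)
    (k : ℕ) (hk : k * (n * (2 * d + 1) ^ 3) ≤ N) :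
    N ^ k ≤ (univ.filter fun f : Fin k → Tor 3 L × Fin n =>
      (∀ a b, a ≠ b → d < tdist (f a).1 (f b).1) ∧ ∀ a, f a ∈ S).card := by
  induction k with
  | zero => simp
  | succ k ih =>
    have hk' : k * (n * (2 * d + 1) ^ 3) ≤ N := (Nat.mul_le_mul_right _ k.le_succ).trans hk
    have ext : ∀ f : Fin k → Tor 3 L × Fin n,
        N ≤ (S.filter fun x => ∀ a, d < tdist (f a).1 x.1).card := fun f => by
      have h1 := card_filter_add_card_filter_not (s := S) fun x => ∀ a, d < tdist (f a).1 x.1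
      have h2 : (S.filter fun x => ¬ ∀ a, d < tdist (f a).1 x.1).card ≤
          k * (n * (2 * d + 1) ^ 3) := by
        refine (card_le_card (t := univ.biUnion fun a =>
          (univ.filter fun y => tdist (f a).1 y ≤ d) ×ˢ univ) fun x hx => ?_).trans
          ((card_biUnion_le_card_mul _ _ (n * (2 * d + 1) ^ 3) fun a _ => ?_).trans (by simp))
        · simpa using (mem_filter.1 hx).2
        · rw [card_product, card_univ, Fintype.card_fin, mul_comm]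
          exact Nat.mul_le_mul_left _ (card_ball_le _ _)
      omega
    refine le_trans ?_ (card_le_card_of_injOn (s := (univ.filter fun f : Fin k → Tor 3 L × Fin n =>
      (∀ a b, a ≠ b → d < tdist (f a).1 (f b).1) ∧ ∀ a, f a ∈ S).sigma fun f =>
        S.filter fun x => ∀ a, d < tdist (f a).1 x.1) (fun p => Fin.cons p.2 p.1) ?_ ?_)
    · rw [card_sigma, pow_succ]
      exact (Nat.mul_le_mul_right _ (ih hk')).trans (card_nsmul_le_sum _ _ _ fun f _ => ext f)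
    · rintro ⟨f, x⟩ hp
      obtain ⟨h1, h2⟩ := mem_sigma.1 hp
      obtain ⟨-, h3, h4⟩ := mem_filter.1 h1
      obtain ⟨h5, h6⟩ := mem_filter.1 h2
      refine mem_filter.2 ⟨mem_univ _, Fin.forall_fin_succ.2 ⟨Fin.forall_fin_succ.2
        ⟨fun e => absurd rfl e, fun b _ => ?_⟩, fun a => Fin.forall_fin_succ.2 ⟨fun _ => h6 a,
          fun b e => h3 a b fun e' => e (by rw [e'])⟩⟩, Fin.forall_fin_succ.2 ⟨h5, h4⟩⟩
      rw [tdist_comm]; exact h6 b
    · rintro ⟨f, x⟩ - ⟨g, y⟩ - e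
      obtain ⟨rfl, rfl⟩ := Fin.cons_injective2 e
      rfl

end Gn

theorem gen : GenStmt := by
  refine ⟨fun L n _ k d N S hS hk => Gn.tuples hS k hk, fun ι _ φ y0 hc h0 h y hy hy0 => ?_⟩
  refine IsClosed.Icc_subset_of_forall_mem_nhdsGT_of_Icc_subset (s := {y | ∀ i, φ i y ≤ 1})
    (a := 0) (b := y0) ?_ h0 (fun t ht hs => ?_) ⟨hy, hy0⟩
  · rw [Set.inter_comm]
    exact (continuousOn_pi.2 hc).preimage_isClosed_of_isClosed isClosed_Icc (isClosed_Iic (a := 1))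
  have h1 := Icc_mem_nhdsGT_of_mem ht
  have h2 : ∀ᶠ z in 𝓝[>] t, ∀ i, φ i z < 2 := eventually_all.2 fun i =>
    ((hc i t (Set.Ico_subset_Icc_self ht)).mono_of_mem_nhdsWithin h1).eventually_lt_const
      ((hs ⟨ht.1, le_rfl⟩ i).trans_lt one_lt_two)
  obtain ⟨u, hu, h3⟩ := mem_nhdsGT_iff_exists_Ioc_subset.1 (inter_mem h1 h2)
  refine mem_of_superset (Ioc_mem_nhdsGT hu) fun z hz =>
    h z (ht.1.trans_lt hz.1) (h3 hz).1.2 fun w w0 wz i => ?_
  rcases le_or_gt w t with e | e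
  · exact (hs ⟨w0, e⟩ i).trans one_le_two
  · exact ((h3 ⟨e, wz.trans hz.2⟩).2 i).le

end Crest.Agent.N337.RR
end

-- ▼ part N337/R/Main

/-!
# Row 337, RARE (helper4): assembly, `ZM.RareStmt` from `GoodStmt` and `GBStmt`
-/

set_option autoImplicit false

namespace Crest.Agent.N337.RR

open Finset Filter Topology Crest.MathPhysics.SpinModel G1

namespace Mn

theorem succ_pow {g : ℕ} (hg : 400 ≤ g) : (g + 1) ^ 400 ≤ g ^ 401 := by
  have h0 : (400 : ℝ) ≤ g := by exact_mod_cast hg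
  have h1 : (g : ℝ) + 1 ≤ g * Real.exp (1 / g) := by
    have := mul_le_mul_of_nonneg_left (Real.add_one_le_exp (1 / (g : ℝ))) (by linarith : (0 : ℝ) ≤ g)
    rw [mul_add, mul_one_div_cancel (by linarith)] at this
    linarith
  have h2 : Real.exp (1 / g) ^ 400 ≤ g := by
    rw [← Real.exp_nat_mul]
    refine (Real.exp_le_exp.2 (?_ : _ ≤ (1 : ℝ))).trans (by linarith [Real.exp_one_lt_d9])
    rw [mul_one_div, div_le_one (by linarith)]
    exact_mod_cast hg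
  have h3 : ((g : ℝ) + 1) ^ 400 ≤ (g : ℝ) ^ 401 := by
    refine (pow_le_pow_left₀ (by linarith) h1 400).trans ?_
    rw [mul_pow, pow_succ (g : ℝ) 400]
    exact mul_le_mul_of_nonneg_left h2 (by positivity)
  exact_mod_cast h3

/-- the small scale. -/
theorem scale (g0 : ℕ) : ∃ β0 : ℝ, ∀ β : ℝ, β0 ≤ β → 1 ≤ β ∧ ∃ g : ℕ, g0 ≤ g ∧
    g ^ 400 ≤ ⌊β⌋₊ + 1 ∧ ⌊β⌋₊ + 1 ≤ g ^ 401 ∧ β ^ (-(1 / 4 : ℝ)) ≤ 1 / (g : ℝ) ^ 100 := by
  refine ⟨((g0 + 400) ^ 400 : ℕ), fun β hβ => ?_⟩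
  have h1 : (g0 + 400) ^ 400 ≤ ⌊β⌋₊ := Nat.le_floor hβ
  have h2 := (Nat.le_nthRoot_iff (by norm_num)).2 h1
  have h3 : Nat.nthRoot 400 ⌊β⌋₊ ^ 400 ≤ ⌊β⌋₊ := Nat.pow_nthRoot_le_iff.2 (Or.inl (by norm_num))
  have h4 := Nat.lt_pow_nthRoot_add_one (n := 400) (by norm_num) ⌊β⌋₊
  set g := Nat.nthRoot 400 ⌊β⌋₊
  have hβ1 : 1 ≤ β := le_trans (by exact_mod_cast Nat.one_le_pow _ _ (by omega)) hβ
  refine ⟨hβ1, g, by omega, by omega, le_trans h4 (succ_pow (by omega)), ?_⟩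
  have hg : (0 : ℝ) < g := by exact_mod_cast (by omega : 0 < g)
  have h5 : ((g : ℝ) ^ 100) ^ 4 ≤ β := by
    rw [← pow_mul]
    exact le_trans (by rw [← Nat.cast_pow]; exact Nat.cast_le.2 h3)
      (Nat.floor_le (zero_le_one.trans hβ1))
  have h6 : 0 < (g : ℝ) ^ 100 := pow_pos hg _
  clear h1 h2 h3 h4 hβ
  generalize (g : ℝ) ^ 100 = x at h5 h6
  rw [Real.rpow_neg (by linarith), one_div x]
  refine inv_anti₀ h6 ?_
  have := Real.rpow_le_rpow (by positivity) h5 (by norm_num : (0 : ℝ) ≤ 1 / 4)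
  rwa [one_div, show (4 : ℝ) = (4 : ℕ) by norm_num, Real.pow_rpow_inv_natCast h6.le
    (by norm_num), show ((4 : ℕ) : ℝ) = 4 by norm_num, ← one_div] at this

theorem gam_nonneg {C : ℝ} (hC : 0 ≤ C) (P : Scales) (t d : ℕ) : 0 ≤ gam C P t d := by
  have := zero_le_one.trans (one_le_K P (t - 1))
  unfold gam; positivity

theorem tauf_nonneg (g t : ℕ) : 0 ≤ tauf g t := by unfold tauf; positivity

theorem tauf_anti {g : ℕ} (hg : 2 ≤ g) {t t' : ℕ} (h : t ≤ t') : tauf g t' ≤ tauf g t := by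
  have h0 : (1 : ℝ) ≤ g := by exact_mod_cast (by omega : 1 ≤ g)
  exact one_div_le_one_div_of_le (by positivity) (pow_le_pow_right₀ h0
    (Nat.mul_le_mul_left _ (Nat.pow_le_pow_right (by norm_num) (by omega))))

theorem eta_ge {g : ℕ} (hg : 2 ≤ g) (mt m : ℕ) : m + 4 ≤ (scl g mt).η m := by
  have h1 : m < 48 ^ m := Nat.lt_pow_self (by norm_num)
  have h2 : 22 * 48 ^ m < g ^ (22 * 48 ^ m) := Nat.lt_pow_self (by omega)
  show _ ≤ g ^ (22 * 48 ^ m)
  omega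

theorem sig_eq (g mt : ℕ) {t : ℕ} (ht : 1 ≤ t) : (scl g mt).σ t = (scl g mt).η (t - 1) ^ 8 := by
  show (if t = 0 then 0 else g ^ (176 * 48 ^ (t - 1))) = (g ^ (22 * 48 ^ (t - 1))) ^ 8
  rw [if_neg (by omega), ← pow_mul]
  congr 1; ring

theorem sum_half (m : ℕ) : ∑ t ∈ Icc 1 m, (1 / 2 : ℝ) ^ t ≤ 1 - (1 / 2) ^ m := by
  induction m with
  | zero => simp
  | succ m ih => rw [sum_Icc_succ_top (by omega), pow_succ]; linarith

/-- the clean scale `d = η ^ 8 / 4`. -/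
theorem clean_num {η : ℕ} {K ε : ℝ} (hη : 4 ≤ η) (hK : K ≤ (η : ℝ) ^ 2) (hε : 648 ≤ ε * η) :
    4 * η ≤ η ^ 8 / 4 ∧
      K * (1 + (Nat.log 2 (η ^ 8 / 4) : ℝ)) ^ 2 * (η : ℝ) ^ 2 ≤ ε * (η ^ 8 / 4 : ℕ) := by
  have h1 : 16 * η ≤ η ^ 8 := by
    calc 16 * η ≤ η ^ 2 * η := Nat.mul_le_mul_right _ (by nlinarith)
      _ = η ^ 3 := by ring
      _ ≤ η ^ 8 := Nat.pow_le_pow_right (by omega) (by norm_num)
  refine ⟨by omega, ?_⟩
  have h2 : Nat.log 2 (η ^ 8 / 4) ≤ 8 * η := by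
    refine (Nat.log_lt_of_lt_pow' (by omega) ?_).le
    rw [mul_comm, pow_mul]
    exact (Nat.div_le_self _ _).trans_lt (Nat.pow_lt_pow_left Nat.lt_two_pow_self (by norm_num))
  have h3 : η ^ 8 ≤ 8 * (η ^ 8 / 4) := by omega
  have h4 : (η : ℝ) ^ 8 ≤ 8 * (η ^ 8 / 4 : ℕ) := by exact_mod_cast h3
  have h5 : (Nat.log 2 (η ^ 8 / 4) : ℝ) ≤ 8 * η := by exact_mod_cast h2
  have h6 : (4 : ℝ) ≤ η := by exact_mod_cast hη
  have h7 : (1 + (Nat.log 2 (η ^ 8 / 4) : ℝ)) ^ 2 ≤ (9 * η) ^ 2 :=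
    pow_le_pow_left₀ (by positivity) (by linarith) 2
  have hε0 : 0 ≤ ε := by by_contra h; nlinarith
  calc _ ≤ (η : ℝ) ^ 2 * (9 * η) ^ 2 * (η : ℝ) ^ 2 := by gcongr
    _ = 648 * (η : ℝ) ^ 6 / 8 := by ring
    _ ≤ ε * η * (η : ℝ) ^ 7 / 8 := by gcongr <;> linarith
    _ = ε * ((η : ℝ) ^ 8 / 8) := by ring
    _ ≤ _ := mul_le_mul_of_nonneg_left (by linarith) hε0

end Mn

open Mn

theorem rare_of (hG : GoodStmt) (hB : GBStmt) : ZM.RareStmt := by
  intro n _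
  obtain ⟨C, hC, hB⟩ := hB n
  have hev : ∀ᶠ g : ℕ in atTop, 1000 * (n + 1) * C ≤ (g : ℝ) :=
    tendsto_natCast_atTop_atTop.eventually_ge_atTop _
  obtain ⟨g0, hg0⟩ := eventually_atTop.1 (hB.and ((hG n).and ((sclS C hC).and
    ((pol n C hC).and (hev.and (eventually_ge_atTop 2))))))
  obtain ⟨β0, hβ0⟩ := scale g0
  refine ⟨β0, fun β hβ => ?_⟩
  obtain ⟨hβ1, g, hg, hB1, hB2, hκ⟩ := hβ0 β hβ
  obtain ⟨hB, hG, ⟨s1, s2, s3, s4, s5, s6, s7⟩, hP, hgC, hg2⟩ := hg0 g hg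
  clear hg0 hev hβ0
  set κ := β ^ (-(1 / 4 : ℝ))
  have hκ0 : 0 < κ := Real.rpow_pos_of_pos (by linarith) _
  have hg1 : (2 : ℝ) ≤ g := by exact_mod_cast hg2
  obtain ⟨u0, hu0⟩ := eventually_atTop.1 (fld n g C κ hC hg2 hκ0 hκ hgC)
  refine ⟨1, u0, fun u hu ε hε => ?_⟩
  obtain ⟨m0, hm0⟩ := eventually_atTop.1 (hu0 u hu)
  have hγ := fun mt t d => gam_nonneg (zero_le_one.trans hC) (scl g mt) t d
  have s8 : ∀ mt t, 1 ≤ t → 175000 * 128 ^ (t + 1) *
      (gam C (scl g mt) t ((scl g mt).σ t / 4) + tauf g t) ≤ (1 / 2) ^ t * (1 / (g : ℝ) ^ 80) := by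
    intro mt t ht
    have h := s6 mt t ht
    have e : (128 : ℝ) ^ (t + 1) = (1 / 2) ^ (t + 1) * 256 ^ (t + 1) := by
      rw [← mul_pow]; norm_num
    have h0 : (0 : ℝ) ≤ 1 / (g : ℝ) ^ 80 := by positivity
    calc _ = (1 / 2) ^ (t + 1) * (175000 * 256 ^ (t + 1) *
          (gam C (scl g mt) t ((scl g mt).σ t / 4) + tauf g t)) := by rw [e]; ring
      _ ≤ (1 / 2) ^ (t + 1) * (1 / (g : ℝ) ^ 80) := by gcongr
      _ ≤ _ := mul_le_mul_of_nonneg_right
          (pow_le_pow_of_le_one (by norm_num) (by norm_num) (by omega)) h0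
  have g80 : 1 / (g : ℝ) ^ 80 ≤ 1 :=
    (div_le_one (by positivity)).2 (one_le_pow₀ (by linarith))
  -- the clean level `t`
  obtain ⟨t, ht1, ht2, ht3⟩ : ∃ t : ℕ, 1 ≤ t ∧ 648 ≤ ε * t ∧ (1 / 2 : ℝ) ^ t ≤ ε / 2 := by
    have a1 : ∀ᶠ t : ℕ in atTop, 648 ≤ ε * t :=
      (tendsto_natCast_atTop_atTop.const_mul_atTop hε).eventually_ge_atTop _
    have a2 : ∀ᶠ t : ℕ in atTop, (1 / 2 : ℝ) ^ t ≤ ε / 2 :=
      (tendsto_pow_atTop_nhds_zero_of_lt_one (by norm_num) (by norm_num)).eventually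
        (ge_mem_nhds (by linarith))
    exact ((eventually_ge_atTop 1).and (a1.and a2)).exists
  have hτ : tauf g t ≤ ε / 2 := by
    have h := s8 0 t ht1
    have h1 : (1 : ℝ) ≤ 175000 * 128 ^ (t + 1) :=
      one_le_mul_of_one_le_of_one_le (by norm_num) (one_le_pow₀ (by norm_num))
    have h2 := le_mul_of_one_le_left (add_nonneg (hγ 0 t ((scl g 0).σ t / 4)) (tauf_nonneg g t)) h1
    have h3 := mul_le_of_le_one_right (by positivity : (0 : ℝ) ≤ (1 / 2) ^ t) g80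
    linarith [hγ 0 t ((scl g 0).σ t / 4)]
  refine ⟨(scl g 0).σ t / 4, ?_⟩
  have hL := (tendsto_add_atTop_nat 1).eventually ((s7 30 (m0 + t + 1)).and
    (tendsto_natCast_atTop_atTop.eventually_ge_atTop u))
  filter_upwards [hL] with L ⟨⟨mt, hmt, hη, htop⟩, huL⟩
  have hη4 := eta_ge hg2 mt (mt - 1)
  have hη10 : (scl g mt).η (mt - 1) ^ 10 ≤ L + 1 :=
    (Nat.pow_le_pow_right (by omega) (by norm_num)).trans hη
  have hηL : 2 * (scl g mt).η (mt - 1) < L + 1 := by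
    have : (scl g mt).η (mt - 1) ^ 2 ≤ L + 1 :=
      (Nat.pow_le_pow_right (by omega) (by norm_num)).trans hη
    nlinarith
  have hok := s2 mt (L + 1) (by omega) hηL
  obtain ⟨e, he0, he⟩ := hm0 mt (by omega) (L + 1) hη10 huL
  have hcl := clean_num (η := (scl g mt).η (t - 1)) (ε := ε) (le_trans (by omega) (eta_ge hg2 mt _))
    (s3 mt (t - 1)) (ht2.trans (mul_le_mul_of_nonneg_left
      (by exact_mod_cast le_trans (by omega) (eta_ge hg2 mt (t - 1))) hε.le))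
  rw [← sig_eq g mt ht1] at hcl
  refine ⟨scl g mt, g ^ 2, A6, 25000 * g ^ 18, g ^ 22, t, ht1, show t ≤ mt by omega, hcl.1, hcl.2,
    ?_, fun sy hsy => ?_⟩
  · have h1 : (scl g mt).K (mt - 1) * (scl g mt).η (mt - 1) ≤ ((scl g mt).η (mt - 1) : ℝ) ^ 3 := by
      rw [pow_succ]; exact mul_le_mul_of_nonneg_right (s3 _ _) (by positivity)
    refine (pow_le_pow_left₀ (mul_nonneg (zero_le_one.trans (one_le_K _ _)) (by positivity))
      h1 10).trans ?_
    rw [← pow_mul]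
    exact_mod_cast hη
  have he := he e he0.le le_rfl (Top.lay sy).length
  have w1 : ∀ᶠ w : ℕ in atTop, err (β / (2 * Top.MM β w))
      (Real.exp (-(u / ((L + 1 : ℕ) : ℝ) ^ 3))) (L + 1) n (⌊β⌋₊ + 1) ≤ e := by
    have a1 : Tendsto (fun w : ℕ => β / (2 * Top.MM β w : ℝ)) atTop (𝓝 0) := by
      refine tendsto_const_nhds.div_atTop (Tendsto.const_mul_atTop (by norm_num)
        (tendsto_natCast_atTop_atTop.comp (tendsto_atTop_mono (fun w => ?_) tendsto_id)))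
      show w ≤ (⌊β⌋₊ + 1) * (w + 1)
      nlinarith
    have a2 : Continuous fun q : ℝ => err q (Real.exp (-(u / ((L + 1 : ℕ) : ℝ) ^ 3))) (L + 1) n
        (⌊β⌋₊ + 1) := by unfold err; fun_prop
    exact (a2.tendsto' 0 0 (by simp [err])).comp a1 |>.eventually (ge_mem_nhds he0)
  filter_upwards [w1, eventually_ge_atTop (120 * n ^ 2),
    eventually_ge_atTop (2 * (2 + (L + 1) ^ 3 * g ^ 2 + 1))] with w hw1 hw2 hw3
  obtain ⟨hW, hCP⟩ := word n (L + 1) (by omega) β hβ1 sy hsy w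
  obtain ⟨f1, f2, f3, f4, f5, f6, f7, f8, f9⟩ := he (w + 1) (⌊β⌋₊ + 1)
  obtain ⟨⟨p1, p2, -⟩, ⟨p3, p4⟩, p5, ⟨p6, p7⟩, p8, p9⟩ := hP _ hB1 hB2 mt (L + 1)
    (Top.lay sy).length (w + 1) κ u e (by omega)
  have hGB := hB (L + 1) _ _ _ _ _ _ _ mt κ u e _ _ hB1 hB2 (by omega) hη10 f3 f2.2 hW hCP
    (le_trans (Nat.mul_le_mul_left 2 (by have := card_le_two (a := 0) (b := Top.MM β w - 1); omega))
      (hw3.trans (Nat.le_succ w))) hw1
  set Q := par g mt (L + 1) (Top.lay sy).length (w + 1) (⌊β⌋₊ + 1)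
  set S := rpar n g mt (L + 1) (w + 1) (⌊β⌋₊ + 1) C κ u e
  have pw : ∀ m : ℕ, (0 : ℝ) < 1 / (g : ℝ) ^ m := fun m => by positivity
  have pa : ∀ {i j : ℕ}, i ≤ j → 1 / (g : ℝ) ^ j ≤ 1 / (g : ℝ) ^ i := fun h =>
    one_div_le_one_div_of_le (by positivity) (pow_le_pow_right₀ (by linarith) h)
  have hσ : ∀ t, 1 ≤ t → (scl g mt).σ t / 4 ≤ (scl g mt).η t := fun t ht => by
    have := (s1 mt (t - 1)).2
    rw [Nat.sub_add_cancel ht] at this
    omega
  have hτ' : ∀ t, 1 ≤ t → t < mt → 2 * ∑ m ∈ Ico t mt,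
      (2 * (((scl g mt).σ t / 4 + 2 * (scl g mt).η m : ℕ) : ℝ) + 1) ^ 3 * pmf g m +
        2 * ((L + 1 : ℕ) : ℝ) ^ 3 * pmf g mt ≤ tauf g t := fun t h1 h2 => by
    linarith [s5 mt t _ h1 (hσ t h1), tauf_anti hg2 h2.le]
  have hN : Num (L + 1) n Q S :=
    { ha := fun m hm => if_neg (by omega)
      hs := s1 mt
      mt := show 2 ≤ mt by omega
      sep := p1
      hk := show 1 ≤ 25000 by norm_num
      hD := Nat.one_le_pow _ _ (by omega)
      hB := p2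
      hN := f1
      hθ := by
        show 40 * (3 * (n : ℝ) ^ 2 / (w + 1 : ℕ)) ≤ 1
        rw [← mul_div_assoc, div_le_one (by positivity)]
        have : ((120 * n ^ 2 : ℕ) : ℝ) ≤ (w + 1 : ℕ) := by exact_mod_cast hw2.trans (Nat.le_succ w)
        push_cast at this ⊢
        linarith
      hy := f2
      hε := ⟨pw _, (pa (Nat.zero_le 12000)).trans (by simp)⟩
      nn := ⟨p3, p6, fun t => hγ _ _ _, tauf_nonneg g, f4, pw _, (pw _).le⟩
      pm := fun m => pw _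
      δ0 := f5
      δc := f6
      τ := hτ'
      c1 := p4
      π6 := p5
      cS := p7
      cF := by
        show ((24999 + 1 + 6 * 25000 : ℕ) : ℝ) * ∑ t ∈ Icc 1 (mt - 1), (((127 : ℕ) : ℝ) + 1) ^ t *
          (gam C (scl g mt) t ((scl g mt).σ t / 4) + tauf g t) + 1 / (g : ℝ) ^ 74 ≤ 1 / (g : ℝ) ^ 73
        have h1 : ((24999 + 1 + 6 * 25000 : ℕ) : ℝ) * ∑ t ∈ Icc 1 (mt - 1),
            (((127 : ℕ) : ℝ) + 1) ^ t * (gam C (scl g mt) t ((scl g mt).σ t / 4) + tauf g t) ≤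
            (∑ t ∈ Icc 1 (mt - 1), (1 / 2 : ℝ) ^ t) * (1 / (g : ℝ) ^ 80) := by
          rw [mul_sum, sum_mul]
          refine sum_le_sum fun t ht => le_trans ?_ (s8 mt t (mem_Icc.1 ht).1)
          have := add_nonneg (hγ mt t ((scl g mt).σ t / 4)) (tauf_nonneg g t)
          rw [← mul_assoc]
          refine mul_le_mul_of_nonneg_right ?_ this
          norm_num
          exact pow_le_pow_right₀ (by norm_num) (by omega)
        have h2 := mul_le_of_le_one_left (pw 80).le ((sum_half (mt - 1)).trans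
          (sub_le_self 1 (by positivity)))
        have h3 : 2 * (1 / (g : ℝ) ^ 74) ≤ 1 / (g : ℝ) ^ 73 := by
          rw [mul_one_div, div_le_div_iff₀ (by positivity) (by positivity), one_mul, pow_succ' _ 73]
          exact mul_le_mul_of_nonneg_right hg1 (by positivity)
        linarith [pa (by norm_num : 74 ≤ 80)]
      eF := p8
      eP := p9
      tree := fun m _ => s4 mt m
      h1 := f7
      h2 := f8
      h3 := fun y h0 hy => by
        obtain ⟨k, k1, k2, k3, k4, k5⟩ := f9 y h0 hy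
        refine ⟨k, k1, k3, le_trans (mul_le_mul_of_nonneg_left ?_ (by positivity)) k5⟩
        have h1 := s8 mt (mt - 1) (by omega)
        rw [Nat.sub_add_cancel (by omega)] at h1
        have h2 : (k : ℝ) ≤ 175000 * 128 ^ mt := by exact_mod_cast k2
        have h3 := mul_le_mul_of_nonneg_right h2
          (add_nonneg (hγ mt (mt - 1) ((scl g mt).σ (mt - 1) / 4)) (tauf_nonneg g (mt - 1)))
        have h4 := mul_le_of_le_one_left (pw 80).le
          (pow_le_one₀ (by norm_num) (by norm_num) : (1 / 2 : ℝ) ^ (mt - 1) ≤ 1)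
        have h5 : 1 / (g : ℝ) ^ 80 ≤ S.c1 := pa (by norm_num : 78 ≤ 80)
        have h6 : (k : ℝ) * (S.γD (Q.P.mt - 1) + S.τ (Q.P.mt - 1)) ≤ S.c1 :=
          h3.trans (h1.trans (h4.trans h5))
        rw [mul_add]
        linarith }
  have X : Ctx _ _ _ Q S := ⟨bas, ann, tree, fast, pt, gen, hW, hGB, hN⟩
  have hb := bt_mem (T := Top.TT β w sy) (Λ := Top.Sl (L + 1) n) f2.1 f2.2
  have key : ∀ x, WR (Top.ex β w sy) (Top.ey β w sy) (Top.pp β w sy) (Top.bt S.y0)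
      (fun ξ R => BadD (Top.ex β w sy) (Top.ey β w sy) Q ξ R t ((scl g 0).σ t / 4) x) ≤
      (ε + 1 * Real.exp (-(κ * u))) * Top.EW β w sy (Top.bt S.y0) fun _ _ => 1 := fun x => by
    refine ((X.rare f2.1 le_rfl).bad hW.hp1 f2.1 f2.2 zero_le_one hN.pm
      (show 1 ≤ mt by omega) ht1 _ x).trans ?_
    rw [Top.EW, ZM.EE_one]
    refine mul_le_mul_of_nonneg_right ?_ (X.Zpos f2.1).le
    have h1 := hτ' t ht1 (by omega)
    have h2 : S.δ S.y0 ≤ Real.exp (-(κ * u)) + ε / 2 := by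
      refine max_le ?_ ?_
      · have hV : (0 : ℝ) < ((L + 1 : ℕ) : ℝ) ^ 3 := by positivity
        show Real.exp _ ^ _ ≤ _
        rw [← Real.exp_mul, show -(u / ((L + 1 : ℕ) : ℝ) ^ 3) * (κ * ((L + 1 : ℕ) : ℝ) ^ 3) =
          -(κ * u) by field_simp]
        linarith
      · refine le_add_of_nonneg_of_le (Real.exp_pos _).le (le_trans ?_ ht3)
        have a1 : t ≤ 175000 * 128 ^ mt := by
          have : mt < 128 ^ mt := Nat.lt_pow_self (by norm_num)
          omega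
        refine (Real.exp_le_exp.2 (neg_le_neg (Nat.cast_le.2 a1))).trans ?_
        rw [← mul_neg_one, Real.exp_nat_mul]
        refine pow_le_pow_left₀ (Real.exp_pos _).le ?_ _
        rw [Real.exp_neg, one_div]
        exact inv_anti₀ (by norm_num) (by linarith [Real.add_one_le_exp 1])
    have h3 : 0 ≤ tauf g t := tauf_nonneg g t
    show 1 * ∑ m ∈ Ico t mt, (2 * (((scl g mt).σ t / 4 + 2 * (scl g mt).η m : ℕ) : ℝ) + 1) ^ 3 *
      pmf g m + 1 * ((L + 1 : ℕ) : ℝ) ^ 3 * pmf g mt + 1 * S.δ S.y0 ≤ _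
    linarith
  refine ⟨fun ξ R => UU (Top.ex β w sy) (Top.ey β w sy) Q ξ R, ?_, fun x => ?_⟩
  · exact le_trans (WR_mono hW.hp1 hb fun ξ R hc h => Or.inl fun h' =>
      h (hG _ _ _ _ _ _ _ _ mt _ hW hok ξ R hc h')) (key 0)
  · exact le_trans (WR_mono hW.hp1 hb fun ξ R _ h => Or.inr h) (key x)

end Crest.Agent.N337.RR
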