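import Crest.Agent.N337.M.CelJ
import Crest.Agent.N337.Par.LeafE_Mg
import Crest.Agent.N337.Par.Gw
import Crest.Agent.N337.Par.Ht
import Crest.Agent.N337.Top.BTest1
import Crest.Agent.N337.R.Core1
import Crest.Agent.N337.R.Det
import Crest.Agent.N337.R.Tree
import Crest.Agent.N337.R.Main
import Crest.Agent.N337.R.Env

-- ▼ part N337/M/EngJ
section

/-!
# Row 337, the chain (helper23): the engine on the concrete objects; `JA`, `JB`, `JC`
-/

set_option autoImplicit false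
set_option linter.unusedSectionVars false

namespace Crest.Agent.N337.M.Ctx

open Crest.Agent.N337.Free Crest.Agent.N337.A Crest.Agent.N337.Top Crest.Agent.N337.Par

variable {L n : ℕ} [NeZero L] [NeZero n] {u ms w : ℕ} {β : ℝ} {sy : List (Sl L n × Sl L n × ℝ)}
  (C : Ctx u ms β w sy) (z : Tor 3 L) {d : ℕ}
include C

lemma nmJ : En.Nm (I.sys n (TT β w sy) C.Q z) (eg u (Dw w sy) (ms + 3))
    (pzE n u (Dw w sy) (ms + 3) (Bw β) (u * D ^ (48 * (ms + 3) + 100))) L n (TT β w sy) ∧ ∀ m,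
    En.eps (I.sys n (TT β w sy) C.Q z) (eg u (Dw w sy) (ms + 3))
      (pzE n u (Dw w sy) (ms + 3) (Bw β) (u * D ^ (48 * (ms + 3) + 100))) n m ≤ Par.eps u m :=
  nm_pzE C.bg le_rfl z (NeZero.pos n) (by omega) (C.le_L (by omega))
    ⟨card_grid C.hT, (Y_pos _ _).trans_le C.B1, C.B2⟩ le_rfl

/-- **the word and the numbers of the engine.** -/
theorem pkJ (hd : d ≤ 176) :
    En.Pk (GT β w sy).ex (GT β w sy).ey C.Q z (eg u (Dw w sy) (ms + 3))
      (pzE n u (Dw w sy) (ms + 3) (Bw β) (u * D ^ (48 * (ms + 3) + 100))) C.W d (lt u ms) := by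
  have h := C.bg
  have hu := h.hu
  have hn := h.hn
  have ht := h.tm
  have hO := tr_ok (T := TT β w sy) (Dw := Dw w sy) (mt := ms + 3) h z (C.le_L (by omega))
  have hd' : ck0 + 27 + d ≤ ctm := by unfold ctm; omega
  have hk : 2 ^ (u * D ^ (48 * (ms + 3) + 11 + 6)) = x u (ms + 3) 6 := (Y_def _ _).symm
  refine ⟨hO, (C.nmJ z).1, ⟨gs u (ms + 3 + 1), kT u (ms + 3) (u * D ^ (48 * (ms + 3) + 11 + 6)),
    kT' u, fun _ => 0, _, _, _, s u (48 * (ms + 3) + 7),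
    C.nuG (by omega) (by omega) le_rfl (by norm_num),
    nh h (S := I.sys n (TT β w sy) C.Q z) (G := eg u (Dw w sy) (ms + 3)) h.qf rfl hk.ge le_rfl (ll_le h) C.B1 rfl rfl le_rfl C.cg (zero_add _).le _,
    C.er (by omega), tb_gs h le_rfl z (fun _ _ => Nat.zero_le _)
      (hk ▸ Y_mono (by omega)) ?_, ⟨fun _ _ => rfl, fun l => ?_, fun l => ?_, fun l => ?_⟩, ?_⟩,
    ⟨_, _, _, _, _, ⟨C.wd.word, C.wd.blk, rfl, ll_pos u, ?_⟩, le_rfl,
      Wk.nmE_par h C.B2 C.wd (C.le_L (by omega)) (by omega) hd' (Nat.le_succ _) ht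
        (two_le_Y hu 0) hO⟩, hd', ?_, fun l => ?_, ?_, ⟨one_le_cE, one_le_Y u 1⟩, ?_, ?_⟩
  · rw [hk]
    exact le_trans (by tier! (48 * (ms + 3) + 11 + 6)) C.hL
  · show cN + cE ≤ cqf
    unfold cqf cN0; omega
  · have h1 := h.Lam
    have h2 := h.S
    show (cLam + 1) * (cS * x u l 12) ≤ x u l 13
    generalize cS = a at h2
    generalize cLam = b at h1
    tier! (48 * l + 11 + 12)
  · show 4 * x u l 15 + (3 * ctm + 1) * x u l 20 ≤ x u (l + 1) 0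
    tier! (48 * l + 11 + 20)
  · change _ ≤ (2 * (2 ^ kT u (ms + 3) _ (ms + 3) / 4) + 1) ^ 3
    rw [kT, if_neg (lt_irrefl _), hk]
    have a : 4 * (4 * (2 * lt u ms + 1)) ≤ x u (ms + 3) 6 := by
      tier! (48 * (ms + 1) + 11 + 27)
    refine le_trans ?_ (Nat.pow_le_pow_left (show 2 * (2 * lt u ms + 1) ≤ _ by omega) 3)
    rw [mul_pow]; omega
  · have h1 := ll_le h
    exact lt_of_lt_of_le (Nat.lt_of_add_one_le (show ll u + 1 ≤ Y u 10 by tier! 5)) C.B1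
  · show 343 * cN ≤ cN0
    unfold cN0; omega
  · show 2 * ((3 * ctm + 1) * x u l 20) ≤ x u (l + 1) 0
    tier! (48 * l + 11 + 20)
  · have h1 := r0_le h
    show r0 u + 1 ≤ x u 0 0
    tier! 5
  · have h1 := loc_le (T := TT β w sy) h (Dw w sy) 12 le_rfl z (ms + 2)
    have h2 : 2 * (2 * x u (ms + 2) 0) + 2 * (lt u ms + 1) ≤ x u (ms + 2) 12 := by
      tier! (48 * (ms + 2) + 11)
    exact le_trans (Nat.add_le_add_right (Nat.mul_le_mul_left _ h1) _) h2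
  · show _ < 2 ^ (u * D ^ (48 * (ms + 3) + 100))
    rw [← Y_def]
    exact Nat.lt_of_add_one_le (by tier! (48 * (ms + 1) + 11 + 27))

omit C in
lemma domJ (Z : Finset (I.V L n (TT β w sy))) (h : (PP n u ms β z).Sd Z) :
    ∃ c, ∀ v ∉ Z, tdist c v.2.1 ≤ lt u ms := ⟨z, fun _ hv => cube_near (A.mem_cubeS.1 (h _ hv))⟩

/-- **joint (B).** -/
theorem jB : C.JB z := fun m hm _ d R h0 h1 hd hR =>
  En.f2a (C.pkJ z (by omega)) (C.wr h0 h1) (domJ z) (show m < ms + 3 by omega)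
    (show _ ≤ cN by unfold cN; omega) (fun _ => ⟨hR.trans (Rr_le C.bg (by norm_num)),
      Nat.mul_le_mul_right _ (Nat.le_succ _)⟩) (s_pos _ _).le ((C.nmJ z).2 m)

theorem jN : C.JN z := fun m hm _ h0 h1 =>
  (En.n2 (C.pkJ (d := 1) z (by omega)) (C.wr h0 h1) (domJ z) (show m + 1 < ms + 3 by omega)
    (s_pos _ _).le ((C.nmJ z).2 m)).mono (fun _ h => h)
    ((le_add_of_nonneg_left (s_pos _ _).le).trans (vol_eps C.hu m))

/-- **joint (A).** -/
theorem jA : C.JA z := ja (C.jB z)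


end Crest.Agent.N337.M.Ctx
end

-- ▼ part N337/Top/BTest
section

/-!
# Row 337, TOP (B), test slots (helper5): `test : TestStmt`
-/

set_option autoImplicit false

namespace Crest.Agent.N337.ZM

open Finset Crest.MathPhysics.SpinModel Geo Free KV G1 G1.Ex

namespace BT

variable {L : ℕ} [NeZero L] {n T : ℕ} [NeZero T] {ex ey : Fin T → Tor 3 L × Fin n}
  {p p0 c0 : Fin T → ℝ} {b φ : Fin T × (Tor 3 L × Fin n) → ℝ} {γ : Fin T → ℝ} {Γ q κ : ℝ}
  {O : Finset (Fin T × (Tor 3 L × Fin n))} {E w B D : ℕ} {Bd : Finset ℕ} {P : Scales}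
  {U : ℕ → Finset (Tor 3 L)} {j A : ℕ}

theorem sum_const_tor (a : ℝ) : ∑ _x : Tor 3 L, a = (L : ℝ) ^ 3 * a := by
  rw [sum_const, card_univ, card_Tor, nsmul_eq_mul]; push_cast; rfl

/-- energy of the layers at the start of a good sweep. -/
theorem energy (hE : Env ex ey p p0 b c0 O ∅) (hC : Clock ex ey p0 c0 E w B q κ Bd)
    (hp : ∀ s, 0 ≤ p s ∧ p s ≤ 1) (hη : 1 ≤ P.η 0) (H : Lip ex ey p O φ γ Γ) {i : ℕ}
    (hi : i < B * w) (hg : Gd0 ex ey p O E Bd P D j i) {EE : ℝ}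
    (h : w * ∑ a ∈ range E, (fun s => p s * (1 - p s) * γ s ^ 2) (tm T (i * E + a)) ≤ 2 * EE)
    (E0 : 0 ≤ EE) (c : Fin n) :
    En (Jn L) (U0 ex ey p O P D j (tm T (i * E)) c) 1 (fun y => φ (tm T (i * E), (y, c))) ≤
      (16 * κ ^ 2 + 48 * n * κ ^ 4) * (EE + q ^ 2 * Γ ^ 2 * (L : ℝ) ^ 3) := by
  have h1 := sweep hE hC hp hi hg φ (fun _ => κ * q * Γ) (by simp)
    (freeze hE hC hη H hi hg) _ fun _ => rfl
  have h2 : ∑ a ∈ range E, (fun s => p s * (1 - p s) * (φ (s, ex s) - φ (s, ey s)) ^ 2)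
      (tm T (i * E + a)) ≤ ∑ a ∈ range E, (fun s => p s * (1 - p s) * γ s ^ 2) (tm T (i * E + a)) :=
    sum_le_sum fun a _ => mul_le_mul_of_nonneg_left (sq_le_sq' (abs_le.1 (H.grad _)).1
      (abs_le.1 (H.grad _)).2) (mul_nonneg (hp _).1 (sub_nonneg.2 (hp _).2))
  have h3 := single_le_sum (f := fun c => En (Jn L) (U0 ex ey p O P D j (tm T (i * E)) c) 1
    fun y => φ (tm T (i * E), (y, c))) (fun c _ => En0 _ _) (mem_univ c)
  have h0 := En0 (U0 ex ey p O P D j (tm T (i * E)) c) fun y => φ (tm T (i * E), (y, c))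
  rw [sum_const, card_univ, Fintype.card_prod, card_Tor, Fintype.card_fin, nsmul_eq_mul] at h1
  push_cast at h1
  obtain ⟨w1, w2⟩ := hC.wq
  have hκ := hC.hκ
  have hq := hC.hq
  have h4 := (mul_le_mul_of_nonneg_left h3 hq.le).trans (h1.trans (add_le_add_left
    (mul_le_mul_of_nonneg_left h2 (by norm_num)) _))
  generalize En (Jn L) (U0 ex ey p O P D j (tm T (i * E)) c) 1 (fun y => φ (tm T (i * E), (y, c))) = e,
    ∑ a ∈ range E, (fun s => p s * (1 - p s) * γ s ^ 2) (tm T (i * E + a)) = s at h h0 h4 ⊢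
  have e0 : 0 ≤ q ^ 2 * Γ ^ 2 * (L : ℝ) ^ 3 := by positivity
  calc e ≤ κ * (w * q) * e := le_mul_of_one_le_left h0 w1
    _ = κ * w * (q * e) := by ring
    _ ≤ κ * w * (8 * s + 48 * q * (L ^ 3 * n * (κ * q * Γ) ^ 2)) := by gcongr
    _ = 8 * κ * (w * s) + 48 * n * κ ^ 3 * (w * q) * (q ^ 2 * Γ ^ 2 * (L : ℝ) ^ 3) := by ring
    _ ≤ 8 * κ ^ 2 * (2 * EE) + 48 * n * κ ^ 3 * κ * (q ^ 2 * Γ ^ 2 * (L : ℝ) ^ 3) := by
        refine add_le_add ((mul_le_mul_of_nonneg_left h (by positivity)).trans ?_) (by gcongr)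
        gcongr
        nlinarith
    _ ≤ _ := by
        have : 0 ≤ κ ^ 2 * (q ^ 2 * Γ ^ 2 * (L : ℝ) ^ 3) := by positivity
        have : 0 ≤ n * κ ^ 4 * EE := by positivity
        nlinarith

/-- two layers. -/
theorem layers (hE : Env ex ey p p0 b c0 O ∅) (hC : Clock ex ey p0 c0 E w B q κ Bd)
    (hX : Crs ex ey p0 E w B q Bd) (hp : ∀ s, 0 ≤ p s ∧ p s ≤ 1) (hη : 1 ≤ P.η 0)
    (H : Lip ex ey p O φ γ Γ) {i : ℕ} (hi : i < B * w) (hg : Gd0 ex ey p O E Bd P D j i) {EE : ℝ}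
    (h : w * ∑ a ∈ range E, (fun s => p s * (1 - p s) * γ s ^ 2) (tm T (i * E + a)) ≤ 2 * EE)
    (E0 : 0 ≤ EE) (c c' : Fin n) {S : Finset (Tor 3 L)}
    (hS : ∀ x ∈ S, x ∉ U0 ex ey p O P D j (tm T (i * E)) c ∧
      x + Pi.single 0 1 ∉ U0 ex ey p O P D j (tm T (i * E)) c') :
    ∑ x ∈ S, (φ (tm T (i * E), (x, c)) - φ (tm T (i * E), (x + Pi.single 0 1, c'))) ^ 2 ≤
      8 * κ ^ 2 * (EE + q ^ 2 * Γ ^ 2 * (L : ℝ) ^ 3) := by
  obtain ⟨F, hF⟩ : ∃ F : Fin T → ℝ, F = fun s => p s * (1 - p s) * γ s ^ 2 := ⟨_, rfl⟩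
  rw [← hF] at h
  have F0 : ∀ s, 0 ≤ F s := fun s => by
    rw [hF]; exact mul_nonneg (mul_nonneg (hp s).1 (sub_nonneg.2 (hp s).2)) (sq_nonneg _)
  obtain ⟨w1, -⟩ := hC.wq
  have hκ := hC.hκ
  have hq := hC.hq
  have nn : ∀ (x : Tor 3 L), ∀ a ∈ range E, 0 ≤
      if (ex (tm T (i * E + a))).1 = x then F (tm T (i * E + a)) else 0 := fun x a _ => by
    split_ifs; exacts [F0 _, le_rfl]
  have h1 : ∀ x ∈ S, (φ (tm T (i * E), (x, c)) - φ (tm T (i * E), (x + Pi.single 0 1, c'))) ^ 2 ≤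
      4 * κ * (w * ∑ a ∈ range E, if (ex (tm T (i * E + a))).1 = x then F (tm T (i * E + a)) else 0) +
        8 * (κ * q * Γ) ^ 2 := fun x hx => by
    obtain ⟨a, ha, e1, e2, e3⟩ := hX i hi hg.1 x c c'
    have g1 := green (z := (x, c)) hg (hS x hx).1 ha
    have g2 := green (z := (x + Pi.single 0 1, c')) hg (hS x hx).2 ha
    have f1 := abs_le.1 (freeze hE hC hη H hi hg (x, c) (hS x hx).1 a ha)
    have f2 := abs_le.1 (freeze hE hC hη H hi hg (x + Pi.single 0 1, c') (hS x hx).2 a ha)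
    have s1 := single_le_sum (nn x) (mem_range.2 ha)
    have gr := abs_le.1 (H.grad (tm T (i * E + a)))
    have p1 := (hE.free (tm T (i * E + a)) (e1 ▸ g1) (e2 ▸ g2)).resolve_right (by simp)
    have p2 := (hC.hp0 (tm T (i * E + a))).2
    rw [e1, e2] at gr
    rw [e3] at p1 p2
    rw [if_pos (by rw [e1]), show F (tm T (i * E + a)) = q * (1 - q) * γ (tm T (i * E + a)) ^ 2 by
      rw [hF, ← p1]] at s1
    generalize (∑ a ∈ range E, if (ex (tm T (i * E + a))).1 = x then F (tm T (i * E + a)) else 0) = s,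
      γ (tm T (i * E + a)) = g, κ * q * Γ = d, φ (tm T (i * E), (x, c)) = u1,
      φ (tm T (i * E), (x + Pi.single 0 1, c')) = u2, φ (tm T (i * E + a), (x, c)) = v1,
      φ (tm T (i * E + a), (x + Pi.single 0 1, c')) = v2 at s1 gr f1 f2 ⊢
    have e4 : (u1 - u2) ^ 2 ≤ (g + 2 * d) ^ 2 := sq_le_sq' (by linarith) (by linarith)
    have e5 : q * g ^ 2 ≤ 2 * s := by nlinarith [mul_nonneg hq.le (sq_nonneg g)]
    have e6 : g ^ 2 ≤ κ * w * (2 * s) :=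
      (le_mul_of_one_le_left (sq_nonneg g) w1).trans ((show _ = κ * w * (q * g ^ 2) by ring).trans_le
        (mul_le_mul_of_nonneg_left e5 (by positivity)))
    nlinarith [sq_nonneg (g - 2 * d)]
  refine (sum_le_sum h1).trans ((sum_le_sum_of_subset_of_nonneg (subset_univ _) fun x _ _ => by
    have := sum_nonneg (nn x); positivity).trans ?_)
  rw [sum_add_distrib, sum_const_tor, ← mul_sum, ← mul_sum, sum_comm]
  simp only [sum_ite_eq, mem_univ, if_true]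
  have := mul_le_mul_of_nonneg_left h (show 0 ≤ 4 * κ by positivity)
  have : κ * EE ≤ κ ^ 2 * EE := mul_le_mul_of_nonneg_right (by nlinarith) E0
  nlinarith

/-- two consecutive windows. -/
theorem windows (hE : Env ex ey p p0 b c0 O ∅) (hC : Clock ex ey p0 c0 E w B q κ Bd)
    (hP : Pers ex ey p0 c0 E w κ) (hp : ∀ s, 0 ≤ p s ∧ p s ≤ 1) (H : Lip ex ey p O φ γ Γ)
    {t i i' : ℕ} (ht : t + 1 < B) (hi : i ∈ Ico (t * w) ((t + 1) * w))
    (hi' : i' ∈ Ico ((t + 1) * w) ((t + 1 + 1) * w)) (c : Fin n) {S : Finset (Tor 3 L)}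
    (hS : ∀ x ∈ S, ∀ k ∈ Ico (t * (w * E)) ((t + 2) * (w * E)), ∀ y,
      (tm T k, y) ∈ O → 1 < tdist x y.1) :
    ∑ x ∈ S, (φ (tm T (i * E), (x, c)) - φ (tm T (i' * E), (x + 0, c))) ^ 2 ≤
      8 * κ ^ 2 * ∑ s, p s * (1 - p s) * γ s ^ 2 := by
  have hT := hC.hT
  have hκ := hC.hκ
  have E0 : 0 < E := Nat.pos_of_ne_zero fun e => NeZero.ne T (by simp [hT, e])
  rw [mem_Ico] at hi hi'
  have k1 : t * (w * E) ≤ i * E := by rw [← mul_assoc]; exact Nat.mul_le_mul_right _ hi.1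
  have k2 : i * E ≤ i' * E := Nat.mul_le_mul_right _ (by omega)
  have k3 : i' * E < (t + 2) * (w * E) := by
    rw [← mul_assoc]; exact Nat.mul_lt_mul_of_pos_right hi'.2 E0
  have k4 : (t + 2) * (w * E) ≤ T := by rw [hT, mul_assoc]; exact Nat.mul_le_mul_right _ ht
  have F0 : ∀ s, 0 ≤ p s * (1 - p s) * γ s ^ 2 := fun s =>
    mul_nonneg (mul_nonneg (hp s).1 (sub_nonneg.2 (hp s).2)) (sq_nonneg _)
  have h1 : ∀ x ∈ S, (φ (tm T (i * E), (x, c)) - φ (tm T (i' * E), (x + 0, c))) ^ 2 ≤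
      2 * κ * ∑ s, ((if (ex s).1 = x then p s * (1 - p s) * γ s ^ 2 else 0) +
        if (ey s).1 = x then p s * (1 - p s) * γ s ^ 2 else 0) := fun x hx => by
    rw [add_zero, sub_sq_comm]
    refine (static hE hC.hp0 hp H (x, c) k2 (by omega)
      (fun k hk => tm_ne0 (by rw [mem_Ico] at hk; omega))
      (fun k hk => hS x hx k (by rw [mem_Icc] at hk; rw [mem_Ico]; omega))
      ((sum_le_sum_of_subset_of_nonneg (Ico_subset_Ico k1 k3.le)
        fun k _ _ => (Cr.tch_bd hC.hp0 _ k).1).trans (hP.rate t (x, c)))).trans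
      (mul_le_mul_of_nonneg_left (sum_le_sum fun s _ => ?_) (by positivity))
    have := F0 s
    by_cases e1 : (x, c) = ex s
    · rw [if_pos (Or.inl e1), if_pos (by rw [← e1])]
      split_ifs <;> linarith
    by_cases e2 : (x, c) = ey s
    · rw [if_pos (Or.inr e2), if_pos (show (ey s).1 = x by rw [← e2])]
      split_ifs <;> linarith
    · rw [if_neg (not_or.2 ⟨e1, e2⟩)]
      split_ifs <;> linarith
  refine (sum_le_sum h1).trans ((sum_le_sum_of_subset_of_nonneg (subset_univ _) fun x _ _ =>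
    mul_nonneg (by positivity) (sum_nonneg fun s _ => by
      have := F0 s; split_ifs <;> linarith)).trans ?_)
  rw [← mul_sum, sum_comm]
  simp only [sum_add_distrib, sum_ite_eq, mem_univ, if_true]
  have := sum_nonneg fun s (_ : s ∈ univ) => F0 s
  have : κ * ∑ s, p s * (1 - p s) * γ s ^ 2 ≤ κ ^ 2 * ∑ s, p s * (1 - p s) * γ s ^ 2 :=
    mul_le_mul_of_nonneg_right (by nlinarith) this
  nlinarith

end BT
open BT

theorem test : TestStmt := by
  classical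
  intro n B κ
  obtain ⟨c1, hc1⟩ : ∃ c1 : ℝ, c1 = 16 * κ ^ 2 + 48 * n * κ ^ 4 := ⟨_, rfl⟩
  have c10 : 0 ≤ c1 := by rw [hc1]; positivity
  refine ⟨B * n * (2000 * c1 + 4 * (1 + B ^ 2) * (9 * (2000 * c1 + 8 * κ ^ 2))), by positivity, ?_⟩
  intro L T _ _ ex ey p p0 c0 b O E w q Bd P U j A l r3 D top D3 hX hp hL φ γ Γ H
  have hE := D.env
  have hC := D.clock
  have hG := D.geom
  have hη : 1 ≤ P.η 0 := by have := D3.h1; omega
  have hj : 3 * j < P.η 0 := by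
    have h1 := D3.h1
    have : 1 ≤ A := by have := hG.hA; have := one_le_tS; omega
    nlinarith [Nat.zero_le (l * (j * (2 * A + 1))), Nat.mul_le_mul_left j this]
  have F0 : ∀ s, 0 ≤ p s * (1 - p s) * γ s ^ 2 := fun s =>
    mul_nonneg (mul_nonneg (hp s).1 (sub_nonneg.2 (hp s).2)) (sq_nonneg _)
  choose! σ σ1 σ2 σ3 using fun t (ht : t < B) => pick (ex := ex) (ey := ey) (p := p) (O := O)
    (P := P) hC.hT D.fine (F := fun s => p s * (1 - p s) * γ s ^ 2) F0 ht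
  have σ4 : ∀ t < B, σ t < B * w := fun t ht =>
    (mem_Ico.1 (σ1 t ht)).2.trans_le (Nat.mul_le_mul_right _ ht)
  have E0 := sum_nonneg fun s (_ : s ∈ univ) => F0 s
  have en := fun t ht => energy hE hC hp hη H (σ4 t ht) (σ2 t ht) (σ3 t ht) E0
  have ly := fun t ht c c' S => layers hE hC hX hp hη H (σ4 t ht) (σ2 t ht) (σ3 t ht) E0 c c' (S := S)
  have wi := fun t ht c S => windows hE hC D3.pers hp H ht (σ1 t (by omega)) (σ1 (t + 1) ht) c (S := S)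
  choose G m g1 g2 g3 g4 using fun t c => layer hG top hL (σ t * E) c
    (fun y => φ (tm T (σ t * E), (y, c))) fun y => (H.bd _).1
  have M1 : 1 ≤ (L : ℝ) ^ 2 * (P.K (P.mt - 1) * P.η (P.mt - 1)) ^ 4 := by
    have := eta_mono hG.ok (m := P.mt - 1) (by have := hG.ok.pos; omega)
    refine one_le_mul_of_one_le_of_one_le (one_le_pow₀ ?_) (one_le_pow₀
      (one_le_mul_of_one_le_of_one_le (one_le_K P _) ?_))
    exacts [by exact_mod_cast (by omega : 1 ≤ L), by exact_mod_cast hη.trans this]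
  rw [← hc1] at en
  have e0 : 0 ≤ q ^ 2 * Γ ^ 2 * (L : ℝ) ^ 3 := by positivity
  rw [mul_assoc _ ((L : ℝ) ^ 2)]
  generalize (L : ℝ) ^ 2 * (P.K (P.mt - 1) * P.η (P.mt - 1)) ^ 4 = M at *
  have wi' := fun t ht c S h => (wi t ht c S h).trans
    (mul_le_mul_of_nonneg_left (le_add_of_nonneg_right e0) (by positivity))
  have X0 := add_nonneg E0 e0
  generalize ∑ s, p s * (1 - p s) * γ s ^ 2 + q ^ 2 * Γ ^ 2 * (L : ℝ) ^ 3 = X at *
  have M0 : 0 ≤ 1000 * M := by positivity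
  have g3' := fun t ht c => (g3 t c).trans (mul_le_mul_of_nonneg_left (en t ht c) M0)
  have g4' := fun t ht c => (g4 t c).trans (mul_le_mul_of_nonneg_left (en t ht c) M0)
  obtain ⟨Δ, hΔ⟩ : ∃ Δ, Δ = 9 * (1000 * M * (c1 * X) + 1000 * M * (c1 * X) + 8 * κ ^ 2 * X) :=
    ⟨_, rfl⟩
  have Δ0 : 0 ≤ Δ := by rw [hΔ]; positivity
  have V0 : (0 : ℝ) ≤ (L : ℝ) ^ 3 := by positivity
  have d1 : ∀ t < B, ∀ c c', (L : ℝ) ^ 3 * (m t c - m t c') ^ 2 ≤ Δ := fun t ht c c' =>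
    hΔ ▸ cmp (Pi.single 0 1) (big (X := ∅) _ (g2 t c) (g2 t c') (by simp))
      (filter_subset _ _) (fun x hx => (mem_filter.1 hx).2.1) (g3' t ht c) (g3' t ht c')
      (ly t ht c c' _ fun x hx => ⟨(g1 t c x (mem_filter.1 hx).1).1,
        (g1 t c' _ (mem_filter.1 hx).2.1).1⟩)
  have d2 : ∀ c t, t + 1 < B → (L : ℝ) ^ 3 * (m t c - m (t + 1) c) ^ 2 ≤ Δ := fun c t ht => by
    obtain ⟨S, hS⟩ : ∃ S : Finset (Tor 3 L), ∀ x, x ∈ S ↔ x ∉ U 1 ∧
        ∃ k ∈ Ico (t * (w * E)) ((t + 2) * (w * E)), ∃ y, (tm T k, y) ∈ O ∧ tdist x y.1 ≤ 1 :=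
      ⟨_, fun x => ((mem_filter (s := univ) (p := fun x => x ∉ U 1 ∧
        ∃ k ∈ Ico (t * (w * E)) ((t + 2) * (w * E)), ∃ y, (tm T k, y) ∈ O ∧ tdist x y.1 ≤ 1)).trans
        (and_iff_right (mem_univ x)))⟩
    exact hΔ ▸ cmp 0 (big (X := S) _ (g2 t c) (g2 (t + 1) c) (exc hG hj t fun x => (hS x).1))
      (filter_subset _ _) (fun x hx => (mem_filter.1 hx).2.1) (g3' t (by omega) c) (g3' _ ht c)
      (wi' t ht c _ fun x hx k hk y hy => not_le.1 fun e => (mem_filter.1 hx).2.2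
        ((hS x).2 ⟨(g1 t c x (mem_filter.1 hx).1).2, k, hk, y, hy, e⟩))
  rcases isEmpty_or_nonempty (Fin n) with hn | ⟨⟨c'⟩⟩
  · exact ⟨σ, 0, σ1, by simp only [univ_eq_empty, filter_empty, sum_empty, sum_const_zero]; positivity⟩
  refine ⟨σ, m 0 c', σ1, le_trans (sum_le_sum (g := fun _ => ∑ _c : Fin n,
    (2 * (1000 * M * (c1 * X)) + 4 * (1 + B ^ 2) * Δ)) fun t ht => ?_) ?_⟩
  · have ht := mem_range.1 ht
    rw [sum_filter, Fintype.sum_prod_type_right]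
    refine sum_le_sum fun c _ => ?_
    have h1 := chainc (m := fun t => m t c') V0 ht (d2 c') Δ0
    have h2 := d1 t ht c c'
    have h3 := g4' t ht c
    have h4 : (L : ℝ) ^ 3 * (m t c - m 0 c') ^ 2 ≤ 2 * (1 + B ^ 2) * Δ := by
      have := mul_le_mul_of_nonneg_left (show (m t c - m 0 c') ^ 2 ≤ 2 * (m t c - m t c') ^ 2 +
        2 * (m t c' - m 0 c') ^ 2 by nlinarith [sq_nonneg (m t c - 2 * m t c' + m 0 c')]) V0
      nlinarith
    rw [sum_filter] at h3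
    refine le_trans (sum_le_sum (g := fun x => 2 * (if Tst O P U A (σ t * E) (x, c) then
      (φ (tm T (σ t * E), (x, c)) - m t c) ^ 2 else 0) + 2 * (m t c - m 0 c') ^ 2) fun x _ => ?_) ?_
    · split_ifs
      · nlinarith [sq_nonneg (φ (tm T (σ t * E), (x, c)) - 2 * m t c + m 0 c')]
      · positivity
    · rw [sum_add_distrib, ← mul_sum, sum_const_tor]
      nlinarith
  · rw [sum_const, sum_const, card_range, card_univ, Fintype.card_fin, nsmul_eq_mul, nsmul_eq_mul,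
      ← mul_assoc, mul_assoc _ _ M, mul_assoc (B * n : ℝ)]
    refine mul_le_mul_of_nonneg_left ?_ (by positivity)
    have h1 : κ ^ 2 * X ≤ κ ^ 2 * (M * X) :=
      mul_le_mul_of_nonneg_left (le_mul_of_one_le_left X0 M1) (sq_nonneg κ)
    have h2 : Δ ≤ 9 * (2000 * c1 + 8 * κ ^ 2) * (M * X) := by rw [hΔ]; nlinarith
    have h3 := mul_le_mul_of_nonneg_left h2 (show (0 : ℝ) ≤ 4 * (1 + B ^ 2) by positivity)
    nlinarith

end Crest.Agent.N337.ZM
end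

-- ▼ part N337/R/Geo
section

/-!
# Row 337, RARE (helper4): off the base junk the leaves of G1 hold
-/

set_option autoImplicit false
set_option linter.unusedSectionVars false

namespace Crest.Agent.N337.RR

open Finset Equiv Crest.MathPhysics.SpinModel Crest.Agent.N337.Rep Free KV G1

variable {L n T : ℕ} [NeZero L] [NeZero T] {ex ey : Fin T → Tor 3 L × Fin n} {p0 : Fin T → ℝ}
  {Q : Par} {θ : ℝ} {ξ : Fin T → Bool} {R : Finset (Fin T × (Tor 3 L × Fin n))}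

theorem cntR_congr {k k' : ℕ} (h : k % T = k' % T) (z : Tor 3 L) (A : ℕ) :
    cntR R k z A = cntR R k' z A := by
  unfold cntR
  rw [show tm T k = tm T k' from Fin.ext h]

theorem cntR_rad (k : ℕ) (z : Tor 3 L) {A A' : ℕ} (h : A ≤ A') : cntR R k z A ≤ cntR R k z A' :=
  card_le_card fun y hy => by
    simp only [mem_filter, mem_univ, true_and] at hy ⊢
    exact ⟨hy.1, hy.2.trans h⟩

theorem mod_win (hW : Word ex ey p0 Q.E Q.w Q.B θ) {i i' : ℕ} (h : i % Q.B = i' % Q.B) :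
    i * Q.D % T = i' * Q.D % T := by
  rw [hW.hT, mul_assoc]
  exact Nat.ModEq.mul_right' _ h

/-- counts in a window are read on its first slice. -/
theorem win (hW : Word ex ey p0 Q.E Q.w Q.B θ) (hc : Cmp ex ey p0 ξ R) {ρ : ℕ} {x : Tor 3 L}
    (hF : ¬ Fast ex ey Q.D Q.B Q.f ρ x ξ) {i i' A : ℕ} (hi : i % Q.B = i' % Q.B) {z : Tor 3 L}
    (hz : tdist x z + A + Q.f + 1 ≤ ρ) (hA : A + Q.f ≤ Q.A) {k : ℕ}
    (hk : k ∈ Ico (i * Q.D) ((i + 1) * Q.D)) : cntR R k z A ≤ cntR R (i' * Q.D) z Q.A := by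
  rw [mem_Ico] at hk
  refine ((det L n T ex ey p0 _ _ _ θ hW ξ R hc _ ρ x hF).1 i k A z hk.1
    (hk.2.le.trans (Nat.mul_le_mul_right _ (by omega))) hz).trans ?_
  rw [cntR_congr (mod_win hW (i := i % Q.B) (i' := i') (by rw [Nat.mod_mod, hi]))]
  exact cntR_rad _ _ hA

theorem not_cl (hW : Word ex ey p0 Q.E Q.w Q.B θ) (hc : Cmp ex ey p0 ξ R) {x : Tor 3 L} {i : ℕ}
    (h : ¬ Cl ex ey Q ξ R x i) {A : ℕ} {z : Tor 3 L} (hz : tdist x z + A + Q.f + 1 ≤ Q.r)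
    (hA : A + Q.f ≤ Q.A) {k : ℕ} (hk : k ∈ Ico (i * Q.D) ((i + 1) * Q.D)) : cntR R k z A ≤ 5 := by
  rw [Cl, not_or] at h
  refine (win hW hc h.1 rfl hz hA hk).trans (Nat.le_of_lt_succ (not_le.1 fun h6 => h.2 ?_))
  intro b hb
  obtain rfl : b = 0 := by omega
  exact ⟨z, by omega, by simpa using h6⟩

theorem not_U1 {c : Tor 3 L} (h : c ∉ UU ex ey Q ξ R 1) :
    ¬ Fast ex ey Q.D Q.B Q.f Q.ρ c ξ ∧ ¬ PtEv Q c R := by
  simpa [UU, Up, U1] using h

/-- among `k D'` consecutive windows one has no cluster. -/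
theorem leaf3_of (hW : Word ex ey p0 Q.E Q.w Q.B θ) (hc : Cmp ex ey p0 ξ R) {c : Tor 3 L}
    (h : c ∉ UU ex ey Q ξ R 1) (hD : 1 ≤ Q.D') (i : ℕ) : ∃ i' ∈ Ico i (i + Q.k * Q.D'),
      ∀ A z, tdist c z + A + Q.f + 1 ≤ Q.ρ → A + Q.f ≤ Q.A →
        ∀ k ∈ Ico (i' * Q.D) ((i' + 1) * Q.D), cntR R k z A ≤ 5 := by
  obtain ⟨hF, hP⟩ := not_U1 h
  have hB : 0 < Q.B := by have := hW.hB; omega
  have h1 : ¬ Pt Q.D Q.D' (i % Q.B) Q.k 6 Q.ρ Q.A c R := fun h' =>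
    hP (Or.inr ⟨_, Nat.mod_lt _ hB, h'⟩)
  simp only [Pt, not_forall, not_exists, not_and, not_le] at h1
  obtain ⟨b, hb, H⟩ := h1
  refine ⟨i + b * Q.D', mem_Ico.2 ⟨by omega, ?_⟩, fun A z hz hA k hk => ?_⟩
  · have := Nat.mul_lt_mul_of_lt_of_le hb (le_refl Q.D') hD
    omega
  · exact (win hW hc hF (i' := i % Q.B + b * Q.D') (by rw [Nat.mod_add_mod]) hz hA hk).trans
      (Nat.le_of_lt_succ (H z (by omega)))

/-- the leaves J1, J2. -/
theorem leaf_of (hW : Word ex ey p0 Q.E Q.w Q.B θ) (hc : Cmp ex ey p0 ξ R) {c : Tor 3 L}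
    (h : c ∉ UU ex ey Q ξ R 1) {j r : ℕ} {x : Tor 3 L} (hx : tdist c x + r + Q.f + 2 ≤ Q.ρ)
    (hj : Q.P.a 0 * (Q.f + 1) * (n ^ 2 + 1) + 1 ≤ j) {p : Fin T → ℝ}
    {O : Finset (Fin T × (Tor 3 L × Fin n))} (hO : O ⊆ R)
    (hch : ∀ s y, Ch ex ey p O s y → s + 1 = 0 ∨
      (ξ s = true ∧ (y = ex s ∨ y = ey s) ∧ ((s, ex s) ∈ R ∨ (s, ey s) ∈ R))) :
    Leaf ex ey p O Q.D (Q.P.a 0) j r x := by
  obtain ⟨hF, hP⟩ := not_U1 h
  refine (det L n T ex ey p0 _ _ _ θ hW ξ R hc _ _ c hF).2 _ j r x p O (fun i hi => ?_) hx hj hO hch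
  refine Nat.le_of_lt_succ (not_le.1 fun h' => hP (Or.inl ⟨i, hi, fun b hb => ?_⟩))
  obtain rfl : b = 0 := by omega
  exact ⟨c, by rw [tdist_self], by simpa using h'⟩

end Crest.Agent.N337.RR
end

-- ▼ part N337/R/Gb

/-!
# Row 337, RARE (helper4): `GoodStmt`, `GBStmt` from G1, and `ZM.RareStmt`
-/

set_option autoImplicit false

namespace Crest.Agent.N337.RR

open Finset Filter Crest.MathPhysics.SpinModel Crest.Agent.N337.Rep Free KV G1 Mn

theorem exp_of {L n T : ℕ} [NeZero L] [NeZero T] {O R : Finset (Fin T × (Tor 3 L × Fin n))}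
    (hO : O ⊆ R) {k A : ℕ} {z : Tor 3 L} (h : cntR R k z A ≤ 5) : Exp O A k z := by
  classical
  refine le_trans (le_trans (card_le_card fun y hy => ?_) (card_image_le (f := Prod.fst))) h
  obtain ⟨h1, c, h2⟩ := mem_filter.1 hy
  exact mem_image.2 ⟨(y, c), mem_filter.2 ⟨mem_univ _, hO h2, Geo.mem_bl.1 h1⟩, rfl⟩

theorem good : GoodStmt := by
  intro n
  filter_upwards [pol n 1 le_rfl, sclS 1 le_rfl, eventually_ge_atTop 400] with g hP hS hg
  intro L T _ _ ex ey p0 E w B mt θ hW hok ξ R hc hU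
  obtain ⟨⟨-, -, p3, p4, p5, -⟩, -⟩ := hP (g ^ 400) le_rfl
    (Nat.pow_le_pow_right (by omega) (by norm_num)) mt L E 1 0 0 0 le_rfl
  set Q := par g mt L E w B
  have hW' : Word ex ey p0 Q.E Q.w Q.B θ := hW
  have e0 : (scl g mt).η 0 = g ^ 22 := rfl
  have hT := tree L (scl g mt) 127 (fun m hm => if_neg (by omega)) (hS.1 mt)
  refine ⟨hU, fun p O hO hch => ⟨⟨hok, fun m hm _ c _ hc => hT.2.1 _ m hm c hc,
    fun c h x hx => leaf_of hW' hc h (show _ + _ + g + 2 ≤ g ^ 23 by omega) p3 hO hch,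
    le_rfl, by omega⟩, fun c0 κ hp => ⟨hp, fun c h i => ?_, p4, p4.le⟩⟩⟩
  obtain ⟨i', h1, h2⟩ := leaf3_of hW' hc h (Nat.one_le_pow _ _ (by omega)) i
  exact ⟨i', h1, fun k hk z hz => exp_of hO
    (h2 A6 z (show _ + _ + g + 1 ≤ g ^ 23 by omega) le_rfl k hk)⟩

namespace GbP

theorem dyad {L : ℕ} (hL : 1 ≤ L) : ∃ K : ℕ, 2 * (2 ^ K - 1) < L ∧ L ≤ 2 * (2 * (2 ^ K - 1) + 1) := by
  have h1 := Nat.pow_log_le_self 2 (show L + 1 ≠ 0 by omega)
  have h2 := Nat.lt_pow_succ_log_self (b := 2) (by norm_num) (L + 1)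
  obtain ⟨K, hK⟩ : ∃ K, Nat.log 2 (L + 1) = K + 1 :=
    Nat.exists_eq_succ_of_ne_zero (Nat.log_pos (by norm_num) (by omega)).ne'
  rw [hK] at h1 h2
  simp only [Nat.succ_eq_add_one, pow_succ] at h1 h2
  have : 1 ≤ 2 ^ K := Nat.one_le_two_pow
  exact ⟨K, by omega, by omega⟩

/-- the constant of the capacity bounds. -/
noncomputable def cc : ℝ := 2 * (16 * A6 + 6 * 10 ^ 6)

theorem cc_ge : 32 ≤ cc := by
  have : (0 : ℝ) ≤ A6 := by positivity
  unfold cc; nlinarith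

theorem Cc_le (P : Scales) (t : ℕ) {d d' : ℕ} (h : d' ≤ d) :
    2 * Cc P A6 t d' ≤ cc * (P.K (t - 1) * (1 + (Nat.log 2 d : ℝ)) ^ 2) := by
  have h1 := one_le_K P (t - 1)
  have h2 : (Nat.log 2 d' : ℝ) ≤ Nat.log 2 d := Nat.cast_le.2 (Nat.log_mono_right h)
  have h3 : (1 + (Nat.log 2 d' : ℝ)) ^ 2 ≤ (1 + (Nat.log 2 d : ℝ)) ^ 2 := by gcongr
  have h4 : 1 ≤ (1 + (Nat.log 2 d : ℝ)) ^ 2 :=
    one_le_pow₀ (le_add_of_nonneg_right (by positivity))
  have h5 := one_le_mul_of_one_le_of_one_le h1 h4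
  have h6 := mul_le_mul_of_nonneg_left h3 (zero_le_one.trans h1)
  have h7 := le_mul_of_one_le_right (by positivity : (0 : ℝ) ≤ A6) h5
  unfold Cc cc
  linarith

theorem space (P : Scales) (t : ℕ) {d d' : ℕ} (h : d' ≤ d) (h' : d ≤ 2 * d') :
    Cc P A6 t d' * P.η (t - 1) / d' ≤ cc * gam 1 P t d := by
  rcases Nat.eq_zero_or_pos d' with rfl | h0
  · obtain rfl : d = 0 := by omega
    simp [gam]
  have h1 : (0 : ℝ) < d' := by exact_mod_cast h0
  have h2 : (d : ℝ) ≤ 2 * d' := by exact_mod_cast h'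
  have h3 : (0 : ℝ) < d := by exact_mod_cast h0.trans_le h
  have h4 := Cc_nonneg (P := P) (A := A6) (m1 := t) (nmax := d')
  calc _ = 2 * Cc P A6 t d' * P.η (t - 1) / (2 * d') := by field_simp
    _ ≤ 2 * Cc P A6 t d' * P.η (t - 1) / d := by gcongr
    _ ≤ cc * (P.K (t - 1) * (1 + (Nat.log 2 d : ℝ)) ^ 2) * P.η (t - 1) / d :=
        div_le_div_of_nonneg_right (mul_le_mul_of_nonneg_right (Cc_le P t h) (by positivity)) h3.le
    _ = _ := by unfold gam; ring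

theorem time (P : Scales) {N N' : ℕ} (h0 : 1 ≤ N) (h : N ≤ 2 * N') :
    Cc P A6 1 1 / N' ≤ cc * (P.K 0 / N) := by
  have h1 : (0 : ℝ) < N := by exact_mod_cast h0
  have h2 : (N : ℝ) ≤ 2 * N' := by exact_mod_cast h
  have h4 := Cc_nonneg (P := P) (A := A6) (m1 := 1) (nmax := 1)
  have h5 := Cc_le P 1 (le_refl 1)
  simp only [Nat.log_one_right, Nat.cast_zero, add_zero, one_pow, mul_one, Nat.sub_self] at h5
  calc _ = 2 * Cc P A6 1 1 / (2 * N') := by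
        rw [mul_div_mul_left _ _ (by norm_num : (2 : ℝ) ≠ 0)]
    _ ≤ 2 * Cc P A6 1 1 / N := by gcongr
    _ ≤ cc * P.K 0 / N := by gcongr
    _ = _ := by ring

theorem gam_mul (C : ℝ) (P : Scales) (t d : ℕ) : gam C P t d = C * gam 1 P t d := by
  simp [gam]

theorem eta_mono {g : ℕ} (hg : 1 ≤ g) (mt : ℕ) {m m' : ℕ} (h : m ≤ m') :
    (scl g mt).η m ≤ (scl g mt).η m' :=
  Nat.pow_le_pow_right hg (Nat.mul_le_mul_left _ (Nat.pow_le_pow_right (by norm_num) h))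

theorem ten {η : ℕ} (h : 4 ≤ η) : 16 * η ≤ η ^ 10 :=
  calc 16 * η ≤ η ^ 2 * η := Nat.mul_le_mul_right _ (by nlinarith)
    _ = η ^ 3 := by ring
    _ ≤ η ^ 10 := Nat.pow_le_pow_right (by omega) (by norm_num)

theorem fin_le {G c k μ X X' r e m : ℝ} (h : G ≤ k * (μ + X + r)) (hk : 0 ≤ k) (hc : 32 ≤ c)
    (h1 : μ ≤ 32 * m) (h2 : X ≤ c * X') (h3 : r ≤ e) (hm : 0 ≤ m) (he : 0 ≤ e) (hX : 0 ≤ X') :
    2 * G ≤ (2 * k * c + 1) * X' + (2 * k * c + 1) * (m + e) := by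
  have a5 : μ + X + r ≤ c * (X' + (m + e)) := by nlinarith
  have a6 := h.trans (mul_le_mul_of_nonneg_left a5 hk)
  nlinarith

end GbP

open GbP

theorem gb : GBStmt := by
  intro n
  have hc := cc_ge
  have hg0 : 0 ≤ Cg (8 * n ^ 2) := by unfold Cg; positivity
  set C := 2 * Cg (8 * n ^ 2) * cc + 1 with hCdef
  have hC : 1 ≤ C := le_add_of_nonneg_left (by positivity)
  refine ⟨C, hC, ?_⟩
  filter_upwards [good n, pol n 1 le_rfl, sclS 1 le_rfl, eventually_ge_atTop 2] with g hG hP hS hg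
  intro L T _ _ ex ey p E w B mt κ u0 e q Bd hB1 hB2 hmt hL Q S y1 y2 hW hCP hw he
  obtain ⟨⟨-, -, -, p4, -, p6, p7, p8, p9⟩, -⟩ := hP B hB1 hB2 mt L E 1 0 0 0 le_rfl
  have hη := eta_ge hg mt (mt - 1)
  have hL3 : 16 * (scl g mt).η (mt - 1) ≤ L := (ten (le_trans (by omega) hη)).trans hL
  have hok := hS.2.1 mt L (by omega) (by omega)
  obtain ⟨K, hK, hK'⟩ := dyad (show 1 ≤ L by omega)
  have hKη : ∀ m < mt, (scl g mt).η m ≤ 2 ^ K - 1 := fun m hm => by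
    have := eta_mono (by omega : 1 ≤ g) mt (show m ≤ mt - 1 by omega)
    omega
  have hW' : Word ex ey p Q.E Q.w Q.B S.θ := hW
  have e0 : (scl g mt).η 0 = g ^ 22 := rfl
  have e1 : (scl g mt).σ 1 = g ^ 176 := rfl
  have core : ∀ y, 0 < y → y ≤ S.y0 → ∀ ξ ω, Pw p ξ ≠ 0 → (∀ v, ω (Sg ex ey ξ v) = ω v) →
      ∀ u, ω u = none → UU ex ey Q ξ (red ω) mt = ∅ →
      ∃ (p' b0 : Fin T → ℝ) (b gg : Fin T × (Tor 3 L × Fin n) → ℝ) (Y μ : ℝ),
        Grn ex ey p' b u Y gg ∧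
        Data ex ey p' p b b0 (red ω) ∅ E w B q (8 * n ^ 2) Bd (scl g mt) (UU ex ey Q ξ (red ω))
          (g ^ 2) A6 ∧
        Data3 ex ey p b0 (red ω) E w (8 * n ^ 2) (scl g mt) (UU ex ey Q ξ (red ω)) (g ^ 2) A6
          (25000 * g ^ 18) (g ^ 22) ∧
        0 ≤ μ ∧ Top (fun v => b v * gg v) ((2 * (2 ^ K - 1) + 1) ^ 3) μ ∧
        ∀ v (X X' : ℝ), (gg v - if v = u then 1 else 0) ≤
          Cg (8 * n ^ 2) * (μ + X + err q Y L n B) → X ≤ cc * X' → 0 ≤ X' →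
          DL.Ge ex ey p (Top.bt y) ω v u ≤ C * X' + S.μ y := by
    intro y h0 hy ξ ω hξ hi u hu hU
    have hY : max y (1 / 2) ≤ S.y0 := max_le hy y1
    have hY1 := hY.trans_lt y2
    obtain ⟨gg, G, hle⟩ := Ge_le (ex := ex) (ey := ey) hW.hp1 h0.le (le_max_left y (1 / 2))
      (le_max_right _ _) hY1 ω hu
    obtain ⟨c1, c2⟩ := hCP _ (le_max_right y (1 / 2)) hY1.le
    obtain ⟨g1, g2⟩ := (hG L T ex ey p E w B mt _ hW hok ξ _ (cmp_of hξ hi) hU).2 _ _ Subset.rfl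
      (ch_red (p := p) hi)
    have h1Y : 0 < 1 - max y (1 / 2) := by linarith
    refine ⟨_, _, _, gg, _, _, G, ⟨env_red hW.nn hi _, c1, g1, hw⟩, g2 _ _ c2, by positivity,
      top_mass G (Nat.one_le_pow _ _ (by omega)), fun v X X' h hX hX' => (hle v).trans ?_⟩
    show _ ≤ C * X' + C * (1 / (1 - min (max y (1 / 2)) S.y0) / (L : ℝ) ^ 3 + e)
    rw [min_eq_left hY]
    have a1 : err q (max y (1 / 2)) L n B ≤ e := by
      refine le_trans ?_ he
      have : 0 < 1 - S.y0 := by linarith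
      unfold err
      gcongr
    have a2 : 4 / (1 - max y (1 / 2)) / (((2 * (2 ^ K - 1) + 1) ^ 3 : ℕ) : ℝ) ≤
        32 * (1 / (1 - max y (1 / 2)) / (L : ℝ) ^ 3) := by
      have b1 : L ^ 3 ≤ 8 * (2 * (2 ^ K - 1) + 1) ^ 3 :=
        (Nat.pow_le_pow_left hK' 3).trans_eq (by ring)
      have b2 : (L : ℝ) ^ 3 ≤ 8 * (((2 * (2 ^ K - 1) + 1) ^ 3 : ℕ) : ℝ) := by exact_mod_cast b1
      have b3 : (0 : ℝ) < (L : ℝ) ^ 3 := pow_pos (Nat.cast_pos.2 (by omega)) _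
      generalize (((2 * (2 ^ K - 1) + 1) ^ 3 : ℕ) : ℝ) = V at b2
      have b4 : 0 < V := by linarith
      calc _ = 32 * (1 / (1 - max y (1 / 2)) / (8 * V)) := by field_simp; ring
        _ ≤ _ := by gcongr
    have a3 : 0 ≤ 1 / (1 - max y (1 / 2)) / (L : ℝ) ^ 3 := by positivity
    have a4 : 0 ≤ e := err_nonneg.trans he
    exact fin_le h hg0 hc a2 hX a1 a3 a4 hX'
  have hγ := fun t d => gam_nonneg zero_le_one (scl g mt) t d
  have hK0 := zero_le_one.trans (one_le_K (scl g mt) 0)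
  refine ⟨fun y h0 hy ξ ω hξ hi v u _ hu t ht ht' hd hb => ?_,
    fun y h0 hy ξ ω hξ hi v u _ hu hd hb => ?_, fun v u _ hd => ?_⟩
  · rw [BadD, not_or, not_not, not_not] at hb
    obtain ⟨p', b0, b, gg, Y, μ, G, D, D3, hμ, top, H⟩ := core y h0 hy ξ ω hξ hi u hu hb.1
    have a1 : A6 ≤ (scl g mt).η (t - 1) :=
      le_trans (by omega) (eta_mono (by omega : 1 ≤ g) mt (Nat.zero_le (t - 1)))
    have a2 : 5 * (scl g mt).η (t - 1) ≤ (scl g mt).σ t / 4 := by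
      have b1 := (hS.1 mt (t - 1)).1
      rw [Nat.sub_add_cancel ht] at b1
      omega
    have hcl : Clean (scl g mt) (UU ex ey Q ξ (red ω)) v.2.1 t ((scl g mt).σ t / 4 - A6 + A6) :=
      Clean.mono hb.2 (show _ ≤ (scl g mt).σ t / 4 by omega)
    have := H v _ _ (G1d_clean G D D3 hb.1 ht ht'.le hcl hK (fun m hm => hKη m (hm.trans ht')) hμ
      top (Or.inr rfl) (le_trans (Nat.sub_le _ _) hd) (by omega))
      (space _ t (Nat.sub_le _ _) (by omega)) (hγ _ _)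
    rwa [← gam_mul] at this
  · rw [BadD, not_or, not_not, not_not] at hb
    obtain ⟨p', b0, b, gg, Y, μ, G, D, D3, hμ, top, H⟩ := core y h0 hy ξ ω hξ hi u hu hb.1
    have hcl : Clean (scl g mt) (UU ex ey Q ξ (red ω)) v.2.1 1 (2 * (g ^ 176 / 8)) :=
      Clean.mono hb.2 (show _ ≤ g ^ 176 / 4 by omega)
    have hlag : B / (25000 * g ^ 18 + 2) * (25000 * g ^ 18 + 2) * (w * E) ≤ lag u.1 v.1 := by
      rw [lag, if_pos hd.symm, hW.hT, mul_assoc B]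
      exact Nat.mul_le_mul_right _ (Nat.div_mul_le_self _ _)
    have := H v _ ((scl g mt).K 0 / (B / (25000 * g ^ 18 + 2) : ℕ) + gam 1 (scl g mt) 1 (g ^ 176 / 8))
      (G1t_clean G D D3 hb.1 hcl hK (hKη 0 (by omega)) hμ top (Or.inr rfl) (by omega) p9 hlag)
      (by rw [mul_add]; exact add_le_add (time _ p9 (by omega)) (space _ 1 le_rfl (by omega)))
      (add_nonneg (by positivity) (hγ _ _))
    rwa [mul_add, ← gam_mul] at this
  · have hD : 2 ≤ g ^ 18 := hg.trans (Nat.le_self_pow (by norm_num) g)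
    have hd' : g ^ 18 * (w * E) ≤ lag u.1 v.1 := hd
    refine ⟨Ico (u.1.val / (w * E) + 1) (u.1.val / (w * E) + g ^ 18),
      by rw [Nat.card_Ico]; show _ ≤ g ^ 18; omega, fun y h0 hy ξ ω hξ hi _ hu hb hI => ?_⟩
    rw [BadD, not_or, not_not, not_not] at hb
    obtain ⟨p', b0, b, gg, Y, μ, G, D, D3, hμ, top, H⟩ := core y h0 hy ξ ω hξ hi u hu hb.1
    have hcl : Clean (scl g mt) (UU ex ey Q ξ (red ω)) v.2.1 1 (g ^ 42 + A6) :=
      Clean.mono hb.2 (show _ ≤ g ^ 176 / 4 by omega)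
    have := H v _ ((scl g mt).K 0 / (g ^ 18 : ℕ) + gam 1 (scl g mt) 1 (g ^ 42))
      (G1w_clean G D D3 hb.1 hcl hK (hKη 0 (by omega)) hμ top (Or.inr rfl) (by omega) _
        (nonempty_Ico.2 (by omega)) fun i h => ⟨fun k hk z hz => exp_of Subset.rfl
          (not_cl hW' (cmp_of hξ hi) (hI i h) (show _ + _ + g + 1 ≤ g ^ 43 by omega) le_rfl hk), ?_⟩)
      (by
        rw [mul_add]
        exact add_le_add (time _ (by omega) (by rw [Nat.card_Ico]; omega))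
          (space _ 1 le_rfl (by omega)))
      (add_nonneg (by positivity) (hγ _ _))
    · rwa [mul_add, ← gam_mul] at this
    · rw [mem_Ico] at h
      have b1 := Nat.lt_div_mul_add (a := u.1.val) D.pos
      have b2 := Nat.div_mul_le_self u.1.val (w * E)
      have b3 := Nat.mul_le_mul_right (w * E) h.1
      have b4 := Nat.mul_le_mul_right (w * E) (Nat.succ_le_of_lt h.2)
      rw [add_mul] at b3 b4
      exact ⟨by omega, b4.trans (by omega)⟩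

/-- **TOP (C)**. -/
theorem rare : ZM.RareStmt := rare_of good gb

end Crest.Agent.N337.RR
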